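import Vale.Agent.P088.E.St

/-!
# P088: Einstein equations with an arbitrary natural coupling to a Yang-Mills connection
-/

open Manifold MeasureTheory Set
open scoped ContDiff Matrix

noncomputable section

namespace Vale.Agent.P088.B

universe u

variable {n N : ℕ} {M : Type u} {Z : At n M}

/-- `G` and `F` are the values at a point of a metric and of the curvature of a unitary connection:
`G` is positive definite, `F_{ij} = - F_{ji}` and `F_{ij}^* = - F_{ij}`. -/
def IsVal (G : Matrix (Fin n) (Fin n) ℝ) (F : Fin n → Fin n → Matrix (Fin N) (Fin N) ℂ) : Prop :=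
  G.PosDef ∧ ∀ i j, F i j = -F j i ∧ (F i j)ᴴ = -F i j

/-- `C` is a natural coupling: a 2-tensor `C(G, F)` depending on the values of a metric and of a
curvature at a point only, covariant under changes of coordinates (with Jacobian matrix `J`),
invariant under unitary changes of frame, and locally Lipschitz. -/
structure Natural (C : Matrix (Fin n) (Fin n) ℝ → (Fin n → Fin n → Matrix (Fin N) (Fin N) ℂ) →
    Matrix (Fin n) (Fin n) ℝ) : Prop where
  cov : ∀ G F J, IsVal G F → IsUnit J →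
    C (Jᵀ * G * J) (fun i j => ∑ a, ∑ b, (J a i * J b j) • F a b) = Jᵀ * C G F * J
  inv : ∀ G F U, IsVal G F → Uᴴ * U = 1 → C G (fun i j => Uᴴ * F i j * U) = C G F
  lip : ∀ j k, LocallyLipschitzOn
    {x : (Fin n → Fin n → ℝ) × (Fin n → Fin n → Fin N → Fin N → ℂ) | IsVal x.1 x.2}
    (fun x => C x.1 x.2 j k)

/-- The equations at the point `y` in a chart: `Ric = κ g + C(g, F)`, where `F` is the curvature of
`A`, and `A` is a Yang-Mills connection, `d_A^* F = 0` (both as in `Eqs`). -/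
def CEqs (κ : ℝ) (C : Matrix (Fin n) (Fin n) ℝ → (Fin n → Fin n → Matrix (Fin N) (Fin N) ℂ) →
    Matrix (Fin n) (Fin n) ℝ) (g : V n → Matrix (Fin n) (Fin n) ℝ)
    (A : Fin n → V n → Matrix (Fin N) (Fin N) ℂ) (y : V n) : Prop :=
  let F := curv A
  let R : Matrix (Fin n) (Fin n) ℝ := fun j k =>
    ∑ i, curv (fun a z b c => chris g b a c z) i j y i k
  R = κ • g y + C (g y) (fun i j => F i j y) ∧
  ∀ k, ∑ i, ∑ j, (g y)⁻¹ i j • (dM (F j k) y i + ⁅A i y, F j k y⁆ -
    ∑ l, (chris g l i j y • F l k y + chris g l i k y • F j l y)) = 0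

/-- The equations hold at the points of `W`, in every chart. -/
def CoupledOn (κ : ℝ) (C : Matrix (Fin n) (Fin n) ℝ →
    (Fin n → Fin n → Matrix (Fin N) (Fin N) ℂ) → Matrix (Fin n) (Fin n) ℝ) (W : Set M)
    (P : Pair Z N) : Prop :=
  ∀ p, ∀ x ∈ Z.src p ∩ W, CEqs κ C (gch Z P.g p) (ach Z P.A p) (Z.ch p x)

/-- The equations hold on `M`, in every chart. -/
def Coupled (κ : ℝ) (C : Matrix (Fin n) (Fin n) ℝ → (Fin n → Fin n → Matrix (Fin N) (Fin N) ℂ) →
    Matrix (Fin n) (Fin n) ℝ) (P : Pair Z N) : Prop :=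
  ∀ p, ∀ x ∈ Z.src p, CEqs κ C (gch Z P.g p) (ach Z P.A p) (Z.ch p x)

/-- The coupling `a(s) T + b(s) g`, where `T_{jk} = - g^{ab} tr (F_{ja} F_{kb})` and
`s = tr_g T`, for two functions `a`, `b`. -/
def pairCoupling (a b : ℝ → ℝ) (G : Matrix (Fin n) (Fin n) ℝ)
    (F : Fin n → Fin n → Matrix (Fin N) (Fin N) ℂ) : Matrix (Fin n) (Fin n) ℝ :=
  let T : Matrix (Fin n) (Fin n) ℝ := fun j k =>
    -∑ a, ∑ b, (F j a * F k b).trace.re * G⁻¹ a b
  a (G⁻¹ * T).trace • T + b (G⁻¹ * T).trace • G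

end Vale.Agent.P088.B
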