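import Vale.Agent.P088.H820.G5
import Vale.Agent.P088.H820.Defs
import Mathlib.Analysis.Calculus.Deriv.Star

/-!
# P088, general natural couplings: from the concrete to the abstract coupling
-/

open Manifold MeasureTheory Set Filter Topology
open scoped ContDiff Matrix

noncomputable section

namespace Vale.Agent.P088.B

universe u

variable {n N : ℕ}

/-- the projection to the values of curvatures -/
def pr (F : Fin n → Fin n → Matrix (Fin N) (Fin N) ℂ) (i j : Fin n) : Matrix (Fin N) (Fin N) ℂ :=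
  (4⁻¹ : ℝ) • ((F i j - F j i) - (F i j - F j i)ᴴ)

theorem pr_val {G : Matrix (Fin n) (Fin n) ℝ} (hG : G.PosDef)
    (F : Fin n → Fin n → Matrix (Fin N) (Fin N) ℂ) : IsVal G (pr F) := by
  refine ⟨hG, fun i j => ⟨?_, ?_⟩⟩
  · unfold pr
    rw [← smul_neg]
    congr 1
    simp only [Matrix.conjTranspose_sub]
    abel
  · unfold pr
    rw [Matrix.conjTranspose_smul, star_trivial, ← smul_neg]
    congr 1
    simp only [Matrix.conjTranspose_sub, Matrix.conjTranspose_conjTranspose]
    abel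

theorem pr_of_val {G : Matrix (Fin n) (Fin n) ℝ} {F : Fin n → Fin n → Matrix (Fin N) (Fin N) ℂ}
    (h : IsVal G F) : pr F = F := by
  funext i j
  have h1 : F j i = -F i j := (h.2 j i).1
  have h2 := (h.2 i j).2
  unfold pr
  rw [h1, sub_neg_eq_add, Matrix.conjTranspose_add, h2]
  ext a b
  simp only [Matrix.smul_apply, Matrix.sub_apply, Matrix.add_apply, Matrix.neg_apply,
    Complex.real_smul]
  push_cast
  ring

theorem pr_cov (J : Matrix (Fin n) (Fin n) ℝ) (F : Fin n → Fin n → Matrix (Fin N) (Fin N) ℂ) :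
    pr (fun i j => ∑ a, ∑ b, (J a i * J b j) • F a b) =
      fun i j => ∑ a, ∑ b, (J a i * J b j) • pr F a b := by
  funext i j
  have h1 : ∑ a, ∑ b, (J a j * J b i) • F a b = ∑ a, ∑ b, (J a i * J b j) • F b a := by
    rw [Finset.sum_comm]
    exact Finset.sum_congr rfl fun a _ => Finset.sum_congr rfl fun b _ => by rw [mul_comm]
  unfold pr
  beta_reduce
  rw [h1]
  simp only [← Finset.sum_sub_distrib, ← smul_sub, Matrix.conjTranspose_sum,
    Matrix.conjTranspose_smul, star_trivial, Finset.smul_sum]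
  refine Finset.sum_congr rfl fun a _ => Finset.sum_congr rfl fun b _ => ?_
  rw [smul_comm]

theorem pr_entry {F₁ F₂ : Fin n → Fin n → Matrix (Fin N) (Fin N) ℂ} (i j : Fin n) (a b : Fin N) :
    ‖pr F₁ i j a b - pr F₂ i j a b‖ ≤ 4⁻¹ * (‖F₁ i j a b - F₂ i j a b‖ +
      ‖F₁ j i a b - F₂ j i a b‖ + (‖F₁ i j b a - F₂ i j b a‖ + ‖F₁ j i b a - F₂ j i b a‖)) := by
  have e : pr F₁ i j a b - pr F₂ i j a b = (4⁻¹ : ℂ) * (((F₁ i j a b - F₂ i j a b) -
      (F₁ j i a b - F₂ j i a b)) - (star (F₁ i j b a - F₂ i j b a) -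
        star (F₁ j i b a - F₂ j i b a))) := by
    unfold pr
    simp only [Matrix.smul_apply, Matrix.sub_apply, Matrix.conjTranspose_apply, star_sub,
      Complex.real_smul]
    push_cast
    ring
  rw [e, norm_mul]
  have e2 : ‖(4⁻¹ : ℂ)‖ = 4⁻¹ := by
    rw [norm_inv]
    norm_num
  rw [e2]
  refine mul_le_mul_of_nonneg_left ?_ (by norm_num)
  refine (norm_sub_le _ _).trans (add_le_add (norm_sub_le _ _) ?_)
  refine (norm_sub_le _ _).trans (le_of_eq ?_)
  rw [norm_star, norm_star]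

theorem ofE_entry (T : EndF N) (a b : Fin N) : ‖S.ofE T a b‖ ≤ ‖T‖ := by
  have h1 : ‖(T (eN N b)) a‖ ≤ ‖T (eN N b)‖ := PiLp.norm_apply_le _ a
  have h2 : ‖T (eN N b)‖ ≤ ‖T‖ * ‖eN N b‖ := T.le_opNorm _
  have h3 : ‖eN N b‖ = 1 := by
    unfold eN
    simp
  rw [h3, mul_one] at h2
  exact h1.trans h2

theorem ofE_sub (T T' : EndF N) : S.ofE (T - T') = S.ofE T - S.ofE T' := rfl

theorem ofE_mul (T T' : EndF N) : S.ofE (T * T') = S.ofE T * S.ofE T' := by
  apply S.toE_inj
  rw [S.toE_mul, S.toE_ofE, S.toE_ofE, S.toE_ofE]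

/-- The abstract coupling of a natural coupling. -/
def cplOf {C : Matrix (Fin n) (Fin n) ℝ → (Fin n → Fin n → Matrix (Fin N) (Fin N) ℂ) →
    Matrix (Fin n) (Fin n) ℝ} (hC : Natural C) : EYM.G.Cpl n N where
  f := fun G F => C G (pr fun i j => S.ofE (F i j))
  nat := by
    intro G J F hG hJ j k
    have e1 : (fun i j => S.ofE (∑ p, ∑ q, (J p i * J q j) • F p q)) =
        fun i j => ∑ p, ∑ q, (J p i * J q j) • S.ofE (F p q) := by
      funext i j
      apply S.toE_inj
      rw [S.toE_ofE, EYM.brEq_toE_fsum]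
      refine Finset.sum_congr rfl fun p _ => ?_
      rw [EYM.brEq_toE_fsum]
      refine Finset.sum_congr rfl fun q _ => ?_
      rw [EYM.brEq_toE_rsmul, S.toE_ofE]
    rw [e1, pr_cov, hC.cov G _ J (pr_val hG _) hJ, Matrix.mul_apply]
    simp only [Matrix.mul_apply, Matrix.transpose_apply, Finset.sum_mul]
    rw [Finset.sum_comm]
    refine Finset.sum_congr rfl fun p _ => Finset.sum_congr rfl fun q _ => ?_
    ring
  lip := by
    intro G F hG
    set x₀ : (Fin n → Fin n → ℝ) × (Fin n → Fin n → Fin N → Fin N → ℂ) :=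
      (G, pr fun i j => S.ofE (F i j)) with hx₀
    have hx₀S : x₀ ∈ {x : (Fin n → Fin n → ℝ) × (Fin n → Fin n → Fin N → Fin N → ℂ) |
        IsVal x.1 x.2} := pr_val hG _
    choose K T hT hlip using fun j k => hC.lip j k hx₀S
    have ht : (⋂ j, ⋂ k, T j k) ∈ 𝓝[{x : (Fin n → Fin n → ℝ) ×
        (Fin n → Fin n → Fin N → Fin N → ℂ) | IsVal x.1 x.2}] x₀ :=
      Filter.iInter_mem.2 fun j => Filter.iInter_mem.2 fun k => hT j k
    obtain ⟨ε, hε, hball⟩ := Metric.mem_nhdsWithin_iff.1 ht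
    refine ⟨∑ j, ∑ k, (K j k : ℝ), ε, hε, ?_⟩
    intro G₁ G₂ F₁ F₂ hG₁ hG₂ g₁ g₂ f₁ f₂ t' hg hF i j
    have ht0 : 0 ≤ t' := (abs_nonneg _).trans (hg i j)
    have entry : ∀ (F F' : Fin n → Fin n → EndF N) (r : ℝ), (∀ i j, ‖F i j - F' i j‖ ≤ r) →
        ∀ i j a b, ‖pr (fun i j => S.ofE (F i j)) i j a b -
          pr (fun i j => S.ofE (F' i j)) i j a b‖ ≤ r := by
      intro F F' r hr i j a b
      refine (pr_entry i j a b).trans ?_
      have q : ∀ i j a b, ‖S.ofE (F i j) a b - S.ofE (F' i j) a b‖ ≤ r := by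
        intro i j a b
        have := ofE_entry (F i j - F' i j) a b
        exact this.trans (hr i j)
      linarith [q i j a b, q j i a b, q i j b a, q j i b a]
    have mem : ∀ (G' : Matrix (Fin n) (Fin n) ℝ) (F' : Fin n → Fin n → EndF N), G'.PosDef →
        (∀ i j, |G' i j - G i j| < ε) → (∀ i j, ‖F' i j - F i j‖ < ε) →
        ((G', pr fun i j => S.ofE (F' i j)) :
          (Fin n → Fin n → ℝ) × (Fin n → Fin n → Fin N → Fin N → ℂ)) ∈ T i j := by
      intro G' F' hG' hg' hF'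
      refine Set.mem_iInter.1 (Set.mem_iInter.1 (hball ⟨?_, pr_val hG' _⟩) i) j
      rw [Metric.mem_ball, Prod.dist_eq, max_lt_iff]
      constructor
      · rw [dist_pi_lt_iff hε]
        intro i
        rw [dist_pi_lt_iff hε]
        intro j
        exact hg' i j
      · have : ∃ r < ε, ∀ i j, ‖F' i j - F i j‖ ≤ r := by
          obtain ⟨r, hr, h⟩ : ∃ r < ε, ∀ x : Fin n × Fin n, ‖F' x.1 x.2 - F x.1 x.2‖ ≤ r := by
            have hne : Nonempty (Fin n × Fin n) := ⟨(i, j)⟩
            obtain ⟨x, hx⟩ := Finite.exists_max fun x : Fin n × Fin n => ‖F' x.1 x.2 - F x.1 x.2‖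
            exact ⟨_, hF' x.1 x.2, hx⟩
          exact ⟨r, hr, fun i j => h (i, j)⟩
        obtain ⟨r, hr, h⟩ := this
        refine lt_of_le_of_lt ?_ hr
        have hr0 : 0 ≤ r := (norm_nonneg _).trans (h i j)
        rw [dist_pi_le_iff hr0]
        intro i
        rw [dist_pi_le_iff hr0]
        intro j
        rw [dist_pi_le_iff hr0]
        intro a
        rw [dist_pi_le_iff hr0]
        intro b
        rw [dist_eq_norm]
        exact entry F' F r h i j a b
    have h1 := (hlip i j).dist_le_mul _ (mem G₁ F₁ hG₁ g₁ f₁) _ (mem G₂ F₂ hG₂ g₂ f₂)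
    have h2 : dist ((G₁, pr fun i j => S.ofE (F₁ i j)) :
          (Fin n → Fin n → ℝ) × (Fin n → Fin n → Fin N → Fin N → ℂ))
        (G₂, pr fun i j => S.ofE (F₂ i j)) ≤ t' := by
      rw [Prod.dist_eq]
      refine max_le ?_ ?_
      · rw [dist_pi_le_iff ht0]
        intro i
        rw [dist_pi_le_iff ht0]
        intro j
        exact hg i j
      · rw [dist_pi_le_iff ht0]
        intro i
        rw [dist_pi_le_iff ht0]
        intro j
        rw [dist_pi_le_iff ht0]
        intro a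
        rw [dist_pi_le_iff ht0]
        intro b
        rw [dist_eq_norm]
        exact entry F₁ F₂ t' hF i j a b
    have h3 := (h1.trans (mul_le_mul_of_nonneg_left h2 (K i j).2))
    refine h3.trans (mul_le_mul_of_nonneg_right ?_ ht0)
    have q1 : (K i j : ℝ) ≤ ∑ k, (K i k : ℝ) :=
      Finset.single_le_sum (f := fun k => (K i k : ℝ)) (fun k _ => (K i k).2) (Finset.mem_univ j)
    have q2 : ∑ k, (K i k : ℝ) ≤ ∑ j, ∑ k, (K j k : ℝ) :=
      Finset.single_le_sum (f := fun j => ∑ k, (K j k : ℝ))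
        (fun j _ => Finset.sum_nonneg fun k _ => (K j k).2) (Finset.mem_univ i)
    exact q1.trans q2

/-! ### curvatures of unitary connections -/

theorem dj_star {n : ℕ} (f : V n → ℂ) (y : V n) (j : Fin n) :
    dj (fun z => star (f z)) y j = star (dj f y j) := by
  unfold dj
  exact derivWithin.star

theorem dj_neg {n : ℕ} (f : V n → ℂ) (y : V n) (j : Fin n) :
    dj (fun z => -(f z)) y j = -dj f y j := by
  unfold dj
  exact derivWithin.fun_neg

theorem dM_skew {n : ℕ} {F : V n → Matrix (Fin N) (Fin N) ℂ} (h : ∀ z, (F z)ᴴ = -F z) (y : V n)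
    (i : Fin n) : (dM F y i)ᴴ = -dM F y i := by
  ext a b
  have h1 : (fun z => star (F z b a)) = fun z => -(F z a b) := by
    funext z
    have := congrFun (congrFun (h z) a) b
    simpa only [Matrix.conjTranspose_apply, Matrix.neg_apply] using this
  rw [Matrix.conjTranspose_apply, Matrix.neg_apply]
  show star (dj (fun z => F z b a) y i) = -dj (fun z => F z a b) y i
  rw [← dj_star, h1, dj_neg]

theorem curv_skew {n : ℕ} {A : Fin n → V n → Matrix (Fin N) (Fin N) ℂ}
    (h : ∀ j z, (A j z)ᴴ = -A j z) (i j : Fin n) (y : V n) :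
    (curv A i j y)ᴴ = -curv A i j y := by
  unfold curv
  rw [Matrix.conjTranspose_add, Matrix.conjTranspose_sub, dM_skew (h j), dM_skew (h i),
    Ring.lie_def, Matrix.conjTranspose_sub, Matrix.conjTranspose_mul, Matrix.conjTranspose_mul,
    h i y, h j y]
  noncomm_ring

theorem curv_anti {n : ℕ} (A : Fin n → V n → Matrix (Fin N) (Fin N) ℂ) (i j : Fin n) (y : V n) :
    curv A i j y = -curv A j i y := by
  unfold curv
  rw [Ring.lie_def, Ring.lie_def]
  abel

theorem ach_skew {M : Type u} {Z : At n M} (P : Pair Z N) (p : M) (j : Fin n) (y : V n) :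
    (ach Z P.A p j y)ᴴ = -ach Z P.A p j y := by
  unfold ach
  simp only [Matrix.conjTranspose_sum, Matrix.conjTranspose_smul, star_trivial]
  rw [← Finset.sum_neg_distrib]
  refine Finset.sum_congr rfl fun i _ => ?_
  rw [(P.pos _).2 i, smul_neg]

/-- the coupling in a unitary frame -/
theorem cpl_frame {C : Matrix (Fin n) (Fin n) ℝ →
    (Fin n → Fin n → Matrix (Fin N) (Fin N) ℂ) → Matrix (Fin n) (Fin n) ℝ} (hC : Natural C)
    {G : Matrix (Fin n) (Fin n) ℝ} {F : Fin n → Fin n → Matrix (Fin N) (Fin N) ℂ}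
    (hF : IsVal G F) {T : EndF N} (hT : IsUnit T)
    (hTT : ContinuousLinearMap.adjoint T * T = 1) :
    (cplOf hC).f G (fun a b => T * S.toE (F a b) * Ring.inverse T) = C G F := by
  have hAA : (S.ofE T)ᴴ * S.ofE T = 1 := by
    apply S.toE_inj
    rw [S.toE_mul, S.toE_star, S.toE_ofE, hTT, S.toE_one]
  have hAA' : S.ofE T * (S.ofE T)ᴴ = 1 := mul_eq_one_comm.1 hAA
  have hinv : Ring.inverse T = S.toE ((S.ofE T)ᴴ) := by
    have e0 : T * S.toE ((S.ofE T)ᴴ) = 1 := by
      conv_lhs => rw [← S.toE_ofE T]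
      rw [← S.toE_mul, S.toE_ofE, hAA', S.toE_one]
    calc Ring.inverse T = Ring.inverse T * (T * S.toE ((S.ofE T)ᴴ)) := by rw [e0, mul_one]
      _ = (Ring.inverse T * T) * S.toE ((S.ofE T)ᴴ) := by rw [mul_assoc]
      _ = _ := by rw [Ring.inverse_mul_cancel _ hT, one_mul]
  set U : Matrix (Fin N) (Fin N) ℂ := (S.ofE T)ᴴ with hU
  have hUT : S.ofE T = Uᴴ := by rw [hU, Matrix.conjTranspose_conjTranspose]
  have hcur : (fun a b => S.ofE (T * S.toE (F a b) * Ring.inverse T)) =
      fun a b => Uᴴ * F a b * U := by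
    funext a b
    rw [hinv, ofE_mul, ofE_mul, S.ofE_toE, S.ofE_toE, hUT]
  have hUU : Uᴴ * U = 1 := by rw [← hUT]; exact hAA'
  have hUv : IsVal G (fun a b => Uᴴ * F a b * U) := by
    refine ⟨hF.1, fun i j => ⟨?_, ?_⟩⟩
    · beta_reduce
      rw [(hF.2 i j).1]
      noncomm_ring
    · beta_reduce
      rw [Matrix.conjTranspose_mul, Matrix.conjTranspose_mul, (hF.2 i j).2,
        Matrix.conjTranspose_conjTranspose]
      noncomm_ring
  have e1 : (cplOf hC).f G (fun a b => T * S.toE (F a b) * Ring.inverse T) =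
      C G (pr fun a b => S.ofE (T * S.toE (F a b) * Ring.inverse T)) := rfl
  rw [e1, hcur, pr_of_val hUv, hC.inv G F U hF hUU]

/-! ### the bridge of the equations -/

variable [NeZero n] {M : Type u} [TopologicalSpace M] [ChartedSpace (EuclideanHalfSpace n) M]
  [IsManifold (𝓡∂ n) ∞ M]

open Vale.Agent.P088.EYM in
/-- The equations on `W`, from the concrete to the abstract form. -/
theorem bridge_on {C : Matrix (Fin n) (Fin n) ℝ →
    (Fin n → Fin n → Matrix (Fin N) (Fin N) ℂ) → Matrix (Fin n) (Fin n) ℝ} (hC : Natural C)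
    {κ : ℝ} {W : Set M} {P : Pair (at_ n M) N} (h : CoupledOn κ C W P) (p : M) :
    EYM.G.EYMeq κ (cplOf hC) (locM (S.gOf (conv P)) (S.connOf (conv P)) p)
      (tg n p ∩ (xc n p).symm ⁻¹' W) := by
  set L := locM (S.gOf (conv P)) (S.connOf (conv P)) p with hL
  have hD := S.brEq_relOpen (n := n) p
  have hsrc : ∀ z ∈ tg n p, (extChartAt (𝓡∂ n) p).symm z ∈ S.src n p := by
    intro z hz
    rw [S.src_eq]
    exact (extChartAt (𝓡∂ n) p).map_target hz
  have hgs : ∀ i j, ContDiffOn ℝ ∞ (fun x => L.g x i j) (tg n p) :=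
    fun i j => contDiffOn_gram (S.gOf (conv P)) p i j
  have hgp : ∀ z ∈ tg n p, (L.g z).PosDef :=
    fun z hz => gram_posDef (S.gOf (conv P)) ((extChartAt (𝓡∂ n) p).map_target hz)
  have hBs : ∀ j, ContDiffOn ℝ ∞ (L.B j) (tg n p) := fun i =>
    contDiffOn_lu_of_contMDiffOn
      (u := fun x => (S.connOf (conv P)).form x (coordVec (𝓡∂ n) p x i))
      ((S.connOf (conv P)).smooth p i)
  have hgB : gch (at_ n M) P.g p = S.gch (conv P) p := by
    funext y
    exact at_gch P.g p y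
  have hAB : ach (at_ n M) P.A p = S.ach (conv P) p := by
    funext j y
    exact at_ach P.A p j y
  have hg' : ∀ z ∈ tg n p, S.gch (conv P) p (WithLp.ofLp z) = L.g z := by
    intro z hz
    show S.inChart n (conv P).mat p (S.pt n p (WithLp.ofLp z)) =
      gram (S.gOf (conv P)) p ((extChartAt (𝓡∂ n) p).symm z)
    rw [S.pt_eq hz, S.gram_gOf (conv P) (hsrc z hz)]
  have hB' : ∀ j, ∀ z ∈ tg n p, S.toE (S.ach (conv P) p j (WithLp.ofLp z)) = L.B j z := by
    intro j z hz
    show S.toE (∑ i, S.jac n p (S.pt n p (WithLp.ofLp z)) i j •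
        (conv P).co (S.pt n p (WithLp.ofLp z)) i) =
      S.formOf ((conv P).co ((extChartAt (𝓡∂ n) p).symm z))
        (cc (𝓡∂ n) p ((extChartAt (𝓡∂ n) p).symm z) (es n j))
    rw [S.pt_eq hz, S.formOf_apply, S.toE_rsum]
    simp only [S.jac_eq (hsrc z hz)]
  refine ⟨fun y hyW S' hS' hSh j k => ?_, fun y hyW k => ?_⟩
  · have hy := hyW.1
    have h1 := (h p _ ⟨hsrc y hy, hyW.2⟩).1
    have hy2 : S.ch n p ((extChartAt (𝓡∂ n) p).symm y) = WithLp.ofLp y := by
      rw [S.ch_eq, (extChartAt (𝓡∂ n) p).right_inv hy]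
    have hy0 : (0 : ℝ) ≤ (WithLp.ofLp y) 0 := hD.subset hy
    have hyc : (at_ n M).ch p ((extChartAt (𝓡∂ n) p).symm y) = WithLp.ofLp y := hy2
    rw [hyc, hgB, hAB] at h1
    have h2 := congrFun (congrFun h1 j) k
    have hR : (∑ i, curv (fun a z b c => chris (S.gch (conv P) p) b a c z) i j
        (WithLp.ofLp y) i k : ℝ) = ric L.g j k y := by
      rw [← brEq_ricci hD hgs hgp hg' j k hy]
      exact brst1_ricci _ j k hy0
    have h3 : ric L.g j k y = κ * L.g y j k +
        C (L.g y) (fun i j => curv (S.ach (conv P) p) i j (WithLp.ofLp y)) j k := by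
      rw [← hR, ← hg' y hy]
      exact h2
    rw [h3]
    congr 1
    have hFv : IsVal (L.g y) (fun i j => curv (S.ach (conv P) p) i j (WithLp.ofLp y)) := by
      refine ⟨hgp y hy, fun i j => ⟨curv_anti _ i j _, ?_⟩⟩
      rw [← hAB]
      exact curv_skew (fun j z => ach_skew P p j z) i j _
    have hh : L.h y = 1 := rfl
    rw [hh] at hSh
    have hcur : EYM.G.curS L S' y = fun a b =>
        S' * S.toE (curv (S.ach (conv P) p) a b (WithLp.ofLp y)) * Ring.inverse S' := by
      funext a b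
      unfold EYM.G.curS
      rw [← brEq_curv hD hBs hB' a b hy, brst1_curv _ a b hy0]
    rw [hcur, cpl_frame hC hFv hS' hSh]
  · have hy := hyW.1
    have h1 := (h p _ ⟨hsrc y hy, hyW.2⟩).2 k
    have hy2 : S.ch n p ((extChartAt (𝓡∂ n) p).symm y) = WithLp.ofLp y := by
      rw [S.ch_eq, (extChartAt (𝓡∂ n) p).right_inv hy]
    have hyc : (at_ n M).ch p ((extChartAt (𝓡∂ n) p).symm y) = WithLp.ofLp y := hy2
    have hy0 : (0 : ℝ) ≤ (WithLp.ofLp y) 0 := hD.subset hy
    rw [hyc, hgB, hAB] at h1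
    rw [← brEq_divF hD hgs hBs hg' hB' k hy]
    have h3 : S.divF (S.gch (conv P) p) (S.ach (conv P) p) k (WithLp.ofLp y) = 0 := by
      rw [← h1]
      unfold S.divF
      refine Finset.sum_congr rfl fun i _ => Finset.sum_congr rfl fun j _ => ?_
      congr 1
      rw [brst1_dcurv _ j k hy0, brst1_curv _ j k hy0, Ring.lie_def]
      have e : ∑ l, (chris (S.gch (conv P) p) l i j (WithLp.ofLp y) •
          curv (S.ach (conv P) p) l k (WithLp.ofLp y) +
          chris (S.gch (conv P) p) l i k (WithLp.ofLp y) •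
          curv (S.ach (conv P) p) j l (WithLp.ofLp y)) =
          ∑ l, (S.chris (S.gch (conv P) p) l i j (WithLp.ofLp y) •
            S.curv (S.ach (conv P) p) l k (WithLp.ofLp y) +
            S.chris (S.gch (conv P) p) l i k (WithLp.ofLp y) •
            S.curv (S.ach (conv P) p) j l (WithLp.ofLp y)) := by
        refine Finset.sum_congr rfl fun l _ => ?_
        rw [brst1_chris _ l i j hy0, brst1_chris _ l i k hy0, brst1_curv _ l k hy0,
          brst1_curv _ j l hy0]
      rw [e]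
      abel
    rw [h3]
    exact map_zero (Matrix.toEuclideanCLM (n := Fin N) (𝕜 := ℂ))

theorem bridge_coupled {C : Matrix (Fin n) (Fin n) ℝ →
    (Fin n → Fin n → Matrix (Fin N) (Fin N) ℂ) → Matrix (Fin n) (Fin n) ℝ} (hC : Natural C)
    {κ : ℝ} {P : Pair (at_ n M) N} (h : Coupled κ C P) :
    EYM.G.EYMm κ (cplOf hC) (S.gOf (conv P)) (S.connOf (conv P)) := by
  intro p
  have h1 := bridge_on (W := univ) hC (fun q x hx => h q x hx.1) p
  exact ⟨fun y hy => h1.ein y ⟨hy, mem_univ _⟩, fun y hy => h1.ym y ⟨hy, mem_univ _⟩⟩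

end Vale.Agent.P088.B
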