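import Vale.Agent.P088.H820.G2

/-!
# P088, general natural couplings: transfer of the equations, models, the first match
(adapted from `Vale.Agent.P088.Bdl.B6`, `B10`)
-/

section

set_option linter.all false

open MeasureTheory Set Filter Topology

open scoped ContDiff

noncomputable section

namespace Vale.Agent.P088.EYM.G

variable {n N : ℕ} [NeZero n]

section Alg

variable {𝔸 : Type*} [Ring 𝔸]

end Alg

section Pre

variable {L L' : LD n N} {D D' : Set (E n)} {X Y : E n → E n} {S : E n → EndF N}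

end Pre

section Sums

variable {V : Type*} [AddCommGroup V] [Module ℝ V]

end Sums

section Cov

variable {L L' : LD n N} {D D' : Set (E n)} {X Y : E n → E n} {S : E n → EndF N}

end Cov

theorem eym_pull {L L' : LD n N} {D D' : Set (E n)} {X Y : E n → E n} {S : E n → EndF N}
    (hD : RelOpen D) (hD' : RelOpen D') (hL : L.Ok D) (hL' : L'.Ok D')
    (h : IsPull L L' D D' X Y S) {κ : ℝ} {cp : Cpl n N} (he : EYMeq κ cp L' D') : EYMeq κ cp L D := by
  refine ⟨fun x hx S' hS' hSh j k => ?_, fun x hx k => ?_⟩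
  · have hX := h.diffeo.mapsX hx
    have hadjm : ∀ A B : EndF N, ContinuousLinearMap.adjoint (A * B) =
        ContinuousLinearMap.adjoint B * ContinuousLinearMap.adjoint A := fun A B =>
      ContinuousLinearMap.adjoint_comp A B
    have hu := h.unit x hx
    have hT : IsUnit (S' * S x) := hS'.mul hu
    have hTh : ContinuousLinearMap.adjoint (S' * S x) * (S' * S x) = L'.h (X x) := by
      rw [hadjm, ← h.h_eq x hx, ← hSh]
      noncomm_ring
    rw [ric_pull hD hD' h.diffeo.mapsX h.diffeo.smX hL.g_smooth hL'.g_smooth hL.g_pos hL'.g_pos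
      h.g_eq hx j k]
    have hg : L.g x j k = ∑ p, ∑ q, Jac X x p j * Jac X x q k * L'.g (X x) p q := by
      rw [h.g_eq x hx, Matrix.mul_apply]
      simp only [Matrix.mul_apply, Matrix.transpose_apply, Finset.sum_mul]
      rw [Finset.sum_comm]
      refine Finset.sum_congr rfl fun p _ => Finset.sum_congr rfl fun q _ => ?_
      ring
    have hF : curS L S' x = fun i j => ∑ p, ∑ q, (Jac X x p i * Jac X x q j) •
        curS L' (S' * S x) (X x) p q := by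
      funext i j
      unfold curS
      rw [cur_pull hD hD' hL' h hx i j]
      have hi : Ring.inverse (S' * S x) = Ring.inverse (S x) * Ring.inverse S' := by
        have e0 : (S' * S x) * (Ring.inverse (S x) * Ring.inverse S') = 1 := by
          calc (S' * S x) * (Ring.inverse (S x) * Ring.inverse S') =
              S' * (S x * Ring.inverse (S x)) * Ring.inverse S' := by noncomm_ring
            _ = 1 := by
              rw [Ring.mul_inverse_cancel _ hu, mul_one, Ring.mul_inverse_cancel _ hS']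
        calc Ring.inverse (S' * S x) = Ring.inverse (S' * S x) *
              ((S' * S x) * (Ring.inverse (S x) * Ring.inverse S')) := by rw [e0, mul_one]
          _ = (Ring.inverse (S' * S x) * (S' * S x)) * (Ring.inverse (S x) * Ring.inverse S') := by
              noncomm_ring
          _ = _ := by rw [Ring.inverse_mul_cancel _ hT, one_mul]
      rw [hi]
      simp only [mul_assoc]
      simp only [Finset.mul_sum, Finset.sum_mul, mul_smul_comm, smul_mul_assoc, mul_assoc]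
    have hJ : IsUnit (Jac X x) := Ric_jac_unit (D' := D') hL.g_pos h.g_eq hx
    rw [hF, hg]
    have hgx : L.g x = (Jac X x).transpose * L'.g (X x) * Jac X x := h.g_eq x hx
    rw [hgx, cp.nat (L'.g (X x)) (Jac X x) (curS L' (S' * S x) (X x)) (hL'.g_pos _ hX) hJ j k,
      Finset.mul_sum, ← Finset.sum_add_distrib]
    refine Finset.sum_congr rfl fun p _ => ?_
    rw [Finset.mul_sum, ← Finset.sum_add_distrib]
    refine Finset.sum_congr rfl fun q _ => ?_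
    rw [he.ein _ hX (S' * S x) hT hTh p q]
    ring
  · have hX := h.diffeo.mapsX hx
    have h1 : ymE L k x = ∑ i, ∑ j, (L.g x)⁻¹ i j • covF L i j k x := rfl
    have h2 : ∀ q, ymE L' q (X x) = ∑ o, ∑ p, (L'.g (X x))⁻¹ o p • covF L' o p q (X x) :=
      fun q => rfl
    have h3 : ∀ i j, covF L i j k x = S x * (∑ o, ∑ p, (Jac X x o i * Jac X x p j) •
        ∑ q, Jac X x q k • covF L' o p q (X x)) * Ring.inverse (S x) := by
      intro i j
      rw [covF_pull hD hD' hL hL' h hx i j k]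
      simp only [Finset.smul_sum, smul_smul]
    have h4 : ymE L k x = S x * (∑ i, ∑ j, (L.g x)⁻¹ i j • ∑ o, ∑ p,
        (Jac X x o i * Jac X x p j) • ∑ q, Jac X x q k • covF L' o p q (X x)) *
          Ring.inverse (S x) := by
      rw [h1]
      simp only [h3]
      rw [Finset.mul_sum, Finset.sum_mul]
      refine Finset.sum_congr rfl fun i _ => ?_
      rw [Finset.mul_sum, Finset.sum_mul]
      refine Finset.sum_congr rfl fun j _ => ?_
      rw [mul_smul_comm, smul_mul_assoc]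
    have h6 : ∑ i, ∑ j, (L.g x)⁻¹ i j • ∑ o, ∑ p,
        (Jac X x o i * Jac X x p j) • ∑ q, Jac X x q k • covF L' o p q (X x) =
        ∑ o, ∑ p, (L'.g (X x))⁻¹ o p • ∑ q, Jac X x q k • covF L' o p q (X x) :=
      Ym_contrV (Ym_contr hL h hx) (fun o p => ∑ q, Jac X x q k • covF L' o p q (X x))
    rw [h4, h6]
    have h5 : ∑ o, ∑ p, (L'.g (X x))⁻¹ o p • ∑ q, Jac X x q k • covF L' o p q (X x) =
        ∑ q, Jac X x q k • ymE L' q (X x) := by
      simp only [Finset.smul_sum, smul_smul, h2]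
      calc ∑ o, ∑ p, ∑ q, ((L'.g (X x))⁻¹ o p * Jac X x q k) • covF L' o p q (X x)
          = ∑ o, ∑ q, ∑ p, ((L'.g (X x))⁻¹ o p * Jac X x q k) • covF L' o p q (X x) :=
            Finset.sum_congr rfl fun o _ => Finset.sum_comm
        _ = ∑ q, ∑ o, ∑ p, ((L'.g (X x))⁻¹ o p * Jac X x q k) • covF L' o p q (X x) :=
            Finset.sum_comm
        _ = _ := by
            refine Finset.sum_congr rfl fun q _ => Finset.sum_congr rfl fun o _ =>
              Finset.sum_congr rfl fun p _ => ?_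
            rw [mul_comm]
    rw [h5, Ym_sum0 (fun q => Jac X x q k) (fun q => ymE L' q (X x)) (he.ym _ hX), mul_zero,
      zero_mul]

end Vale.Agent.P088.EYM.G

end

end

section

open MeasureTheory Set Filter Topology

open scoped ContDiff

noncomputable section

namespace Vale.Agent.P088.EYM.G

variable {n N : ℕ} [NeZero n]

theorem bPush : BPush_statement := by
  intro n N _ L D D' X Y S hD hD' hL hXY hS hu
  obtain ⟨L', hL', hP⟩ := push_exists hD hD' hL hXY hS hu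
  exact ⟨L', hL', hP, fun κ cp he =>
    eym_pull hD' hD hL' hL (bSymm n N L L' D D' X Y S hD hD' hP) he⟩

end Vale.Agent.P088.EYM.G

end

end

section

open MeasureTheory Set Filter Topology

open scoped ContDiff

noncomputable section

namespace Vale.Agent.P088.EYM.G

variable {n N : ℕ} [NeZero n]

theorem bmodel_eym_mono {κ : ℝ} {cp : Cpl n N} {L : LD n N} {D D' : Set (E n)} (h : EYMeq κ cp L D)
    (hs : D' ⊆ D) : EYMeq κ cp L D' :=
  ⟨fun x hx => h.ein x (hs hx), fun x hx => h.ym x (hs hx)⟩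

theorem bModel : BModel_statement := by
  intro n N _ L D κ cp j0 hD hL hE S T hS hSf hT z hz hzu hdet hcase
  -- the set where the frame is invertible
  set D0 : Set (E n) := {x | x ∈ D ∧ S x ∈ {t : EndF N | IsUnit t}} with hD0
  have hD0o : RelOpen D0 := bmodel_relOpen_preimage hD hS.continuousOn Units.isOpen
  have hD0s : D0 ⊆ D := fun x hx => hx.1
  have hu0 : ∀ x ∈ D0, IsUnit (S x) := fun x hx => hx.2
  have hX : ContDiffOn ℝ ∞ (Xco j0 S T) D0 :=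
    bmodel_Xco_smooth j0 (hS.mono hD0s) (fun a => (hT a).1.mono hD0s) hu0
  obtain ⟨Y, r₀, hr₀, hY⟩ := half_ift hD0o hX (z := z) ⟨hz, hzu⟩ hdet hcase
  obtain ⟨D1, hD1s, hD1o, hzD1, hdiff⟩ := hY r₀ hr₀ le_rfl
  have hD1D : D1 ⊆ D := hD1s.trans hD0s
  have hu1 : ∀ x ∈ D1, IsUnit (S x) := fun x hx => hu0 x (hD1s hx)
  have hS1 : ContDiffOn ℝ ∞ S D1 := hS.mono hD1D
  have hL1 : L.Ok D1 := bmodel_ok_mono hL hD1D
  have hHB := bmodel_HB_relOpen (Xco j0 S T z) r₀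
  obtain ⟨L', hL', hP, hE'⟩ := bPush n N L D1 _ (Xco j0 S T) Y S hD1o hHB hL1 hdiff hS1 hu1
  have hEL' := hE' κ cp (bmodel_eym_mono hE hD1D)
  set W : Model n N := { toLD := L', c := fun a y => Ring.inverse (S (Y y)) (T a (Y y)) } with hW
  have hSY : ContDiffOn ℝ ∞ (fun y => S (Y y)) (HB (Xco j0 S T z) r₀) :=
    hS1.comp hdiff.smY hdiff.mapsY
  have hcs : ∀ a, ContDiffOn ℝ ∞ (W.c a) (HB (Xco j0 S T z) r₀) := fun a =>
    smooth_eval (smooth_ringInverse hSY fun y hy => hu1 _ (hdiff.mapsY hy))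
      (((hT a).1.mono hD1D).comp hdiff.smY hdiff.mapsY)
  have hTW : ∀ x ∈ D1, ∀ a, T a x = S x (W.c a (Xco j0 S T x)) := by
    intro x hx a
    simp only [hW]
    rw [hdiff.inv1 x hx]
    have h1 : S x * Ring.inverse (S x) = 1 := Ring.mul_inverse_cancel _ (hu1 x hx)
    have h2 : (S x * Ring.inverse (S x)) (T a x) = T a x := by
      rw [h1]
      rfl
    exact h2.symm
  have hframe : ∀ v : Fib N, Sol L' (HB (Xco j0 S T z) r₀) (fun _ => v) := fun v =>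
    bSol n N L L' D1 _ (Xco j0 S T) Y S hD1o hHB hL1 hL' hP (fun _ => v)
      (bmodel_sol_mono (hSf v) hD1D) contDiffOn_const
  have hsol : ∀ a, Sol L' (HB (Xco j0 S T z) r₀) (W.c a) := fun a =>
    bSol n N L L' D1 _ (Xco j0 S T) Y S hD1o hHB hL1 hL' hP (W.c a)
      (bmodel_sol_congr hD1o (bmodel_sol_mono (hT a) hD1D) fun x hx => (hTW x hx a).symm)
      (hcs a)
  refine ⟨Y, W, r₀, hr₀, fun r hr hrr => ?_⟩
  have hsub : HB (Xco j0 S T z) r ⊆ HB (Xco j0 S T z) r₀ := fun y hy =>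
    ⟨Metric.ball_subset_ball hrr hy.1, hy.2⟩
  set D2 : Set (E n) := {x | x ∈ D1 ∧ Xco j0 S T x ∈ Metric.ball (Xco j0 S T z) r} with hD2
  have hD2s : D2 ⊆ D1 := fun x hx => hx.1
  have hm : MapsTo (Xco j0 S T) D2 (HB (Xco j0 S T z) r) := fun x hx =>
    ⟨hx.2, (hdiff.mapsX hx.1).2⟩
  have hm' : MapsTo Y (HB (Xco j0 S T z) r) D2 := fun y hy =>
    ⟨hdiff.mapsY (hsub hy), by rw [hdiff.inv2 y (hsub hy)]; exact hy.1⟩
  refine ⟨D2, hD2s.trans hD1D, ?_, ?_, ?_, ?_, ?_⟩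
  · exact bmodel_relOpen_preimage hD1o hdiff.smX.continuousOn Metric.isOpen_ball
  · exact ⟨hzD1, Metric.mem_ball_self hr⟩
  · exact bmodel_pull_restrict hP hD2s hsub hm hm'
  · refine ⟨bmodel_ok_mono hL' hsub, fun v => bmodel_sol_mono (hframe v) hsub,
      fun a => bmodel_sol_mono (hsol a) hsub, fun a y hy => ?_, bmodel_eym_mono hEL' hsub⟩
    have h1 := hdiff.inv2 y (hsub hy)
    have h2 := congrArg (fun w : E n => w a) h1
    exact h2
  · exact fun x hx a => hTW x (hD2s hx) a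

end Vale.Agent.P088.EYM.G

end

end

section

set_option linter.all false

open Bundle Manifold MeasureTheory Set Filter Topology

open scoped ContDiff

noncomputable section

namespace Vale.Agent.P088.EYM.G

universe u

section Local

variable {n N : ℕ} [NeZero n]

end Local

section Mfd

variable {n N : ℕ} [NeZero n] {M : Type u} [TopologicalSpace M]
  [ChartedSpace (EuclideanHalfSpace n) M] [IsManifold (𝓡∂ n) ∞ M] [MeasurableSpace M]

end Mfd

theorem cNear : CSetup_statement.{u} → CERel_statement.{u} → DBd_statement → BRigBd_statement →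
    LinBd_statement → BSol_statement → CMatch_statement.{u} → CHarm_statement.{u} →
    CUniq_statement.{u} → CLoc_statement.{u} → CNear_statement.{u} := by
  intro hSetup hCERel hDBd hRig hLin hBSol hMatch hHarm hUniq hLoc
  intro n N _ M _ _ _ _ _ _ _ _ P Q Γ κ₁ κ₂ cp hn hN hΓ hΓne hsame hE₁ hE₂
  obtain ⟨j0, q, z, r₀, s, t, W₁, W₂, X₁, Y₁, X₂, Y₂, S₁, S₂, hr₀, hs, ht, hBd⟩ :=
    hSetup n N M P Q Γ κ₁ κ₂ cp (by omega) hN hΓ hΓne hsame hE₁ hE₂
  obtain ⟨D₁, D₂, b1, b2⟩ := hBd r₀ hr₀ le_rfl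
  have hr : 0 < r₀ / 2 := by positivity
  set r : ℝ := r₀ / 2 with hrdef
  have hrr : r < r₀ := by rw [hrdef]; linarith
  obtain ⟨D₁', D₂', c1, c2⟩ := hBd r hr hrr.le
  obtain ⟨⟨C, hC⟩, hdat⟩ := hCERel n N M P Q Γ q z r₀ κ₁ κ₂ cp j0 W₁ W₂ D₁ D₂ X₁ Y₁ X₂ Y₂ S₁ S₂ s t
    b1 b2 hs ht hΓ hΓne hsame r hr hrr
  have hHB : HB z r ⊆ HB z r₀ := inter_subset_inter_left _ (Metric.ball_subset_ball hrr.le)
  have hbdne : ((𝓡∂ n).boundary M).Nonempty := by
    obtain ⟨O, -, rfl⟩ := hΓ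
    exact hΓne.mono inter_subset_right
  have hUP := hUniq n N M P hbdne
  have hUQ := hUniq n N M Q hbdne
  -- linear combinations
  have hlin : ∀ (a b : ℂ) (u v : (M → Fib N) × (M → Fib N)), u ∈ PP P Q Γ → v ∈ PP P Q Γ →
      a • u + b • v ∈ PP P Q Γ := by
    rintro a b u v ⟨f, hf, hf1, hf2⟩ ⟨f', hf', hf1', hf2'⟩
    exact ⟨a • f + b • f', CNear_bdry_lin a b hf hf', hUP.2.1 f f' _ _ a b hf1 hf1',
      hUQ.2.1 f f' _ _ a b hf2 hf2'⟩
  have hcomb : ∀ (v : Fib N) (F : Finset (Fin N)), (∑ j ∈ F, v j • s j) ∈ PP P Q Γ := by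
    intro v F
    induction F using Finset.induction_on with
    | empty =>
      have := hlin 0 0 (s ⟨0, hN⟩) (s ⟨0, hN⟩) (hs _) (hs _)
      simpa using this
    | insert j F hj ih =>
      rw [Finset.sum_insert hj]
      have := hlin (v j) 1 (s j) _ (hs j) ih
      simpa using this
  have d1const : ∀ v : Fib N, ∀ y ∈ HB z r₀,
      Ring.inverse (S₁ (Y₁ y)) (lu (𝓡∂ n) q (∑ j, v j • s j).1 (Y₁ y)) = v := by
    intro v y hy
    have hx := b1.pull.diffeo.mapsY hy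
    have h1 := b1.frame _ hx v
    have h2 : lu (𝓡∂ n) q (∑ j, v j • s j).1 (Y₁ y) = S₁ (Y₁ y) v := by
      rw [h1]
      simp [lu, Prod.fst_sum, Finset.sum_apply]
    rw [h2]
    show (Ring.inverse (S₁ (Y₁ y)) * S₁ (Y₁ y)) v = v
    rw [Ring.inverse_mul_cancel _ (b1.pull.unit _ hx)]
    rfl
  have d2const : ∀ v : Fib N, ∀ y ∈ HB z r₀,
      Ring.inverse (S₂ (Y₂ y)) (lu (𝓡∂ n) q (∑ j, v j • s j).2 (Y₂ y)) = v := by
    intro v y hy
    have hx := b2.pull.diffeo.mapsY hy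
    have h1 := b2.frame _ hx v
    have h2 : lu (𝓡∂ n) q (∑ j, v j • s j).2 (Y₂ y) = S₂ (Y₂ y) v := by
      rw [h1]
      simp [lu, Prod.snd_sum, Finset.sum_apply]
    rw [h2]
    show (Ring.inverse (S₂ (Y₂ y)) * S₂ (Y₂ y)) v = v
    rw [Ring.inverse_mul_cancel _ (b2.pull.unit _ hx)]
    rfl
  have d1coord : ∀ a, ∀ y ∈ HB z r₀,
      Ring.inverse (S₁ (Y₁ y)) (lu (𝓡∂ n) q (t a).1 (Y₁ y)) = W₁.c a y := by
    intro a y hy
    have hx := b1.pull.diffeo.mapsY hy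
    rw [b1.coord _ hx a, b1.pull.diffeo.inv2 y hy]
    show (Ring.inverse (S₁ (Y₁ y)) * S₁ (Y₁ y)) _ = _
    rw [Ring.inverse_mul_cancel _ (b1.pull.unit _ hx)]
    rfl
  have d2coord : ∀ a, ∀ y ∈ HB z r₀,
      Ring.inverse (S₂ (Y₂ y)) (lu (𝓡∂ n) q (t a).2 (Y₂ y)) = W₂.c a y := by
    intro a y hy
    have hx := b2.pull.diffeo.mapsY hy
    rw [b2.coord _ hx a, b2.pull.diffeo.inv2 y hy]
    show (Ring.inverse (S₂ (Y₂ y)) * S₂ (Y₂ y)) _ = _
    rw [Ring.inverse_mul_cancel _ (b2.pull.unit _ hx)]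
    rfl
  have hR := CNear_relHB z r
  have hfluxv : ∀ x ∈ HB z r, x 0 = 0 → ∀ v : Fib N,
      flux W₁.toLD 0 (fun _ => v) x = flux W₂.toLD 0 (fun _ => v) x := by
    intro x hx hx0 v
    have h1 := (hdat _ (hcomb v Finset.univ) x hx hx0).2
    rw [CNear_flux_congr hR W₁.toLD (fun y hy => d1const v y (hHB hy)) 0 hx,
      CNear_flux_congr hR W₂.toLD (fun y hy => d2const v y (hHB hy)) 0 hx] at h1
    exact h1
  have hc : ∀ x ∈ HB z r, x 0 = 0 → ∀ a, W₁.c a x = W₂.c a x := by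
    intro x hx hx0 a
    have h1 := (hdat _ (ht a) x hx hx0).1
    have h2 := d1coord a x (hHB hx)
    have h3 := d2coord a x (hHB hx)
    rw [← h2, ← h3]
    exact h1
  have hfluxc : ∀ x ∈ HB z r, x 0 = 0 → ∀ a,
      flux W₁.toLD 0 (W₁.c a) x = flux W₂.toLD 0 (W₂.c a) x := by
    intro x hx hx0 a
    have h1 := (hdat _ (ht a) x hx hx0).2
    rw [CNear_flux_congr hR W₁.toLD (fun y hy => d1coord a y (hHB hy)) 0 hx,
      CNear_flux_congr hR W₂.toLD (fun y hy => d2coord a y (hHB hy)) 0 hx] at h1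
    exact h1
  have hh : ∀ x ∈ HB z r, x 0 = 0 → W₁.h x = 1 ∧ W₂.h x = 1 := by
    intro x hx hx0
    obtain ⟨h1, h2, h3, h4, -⟩ := c1.bd x hx hx0
    obtain ⟨k1, k2, k3, k4, -⟩ := c2.bd x hx hx0
    have e1 := c1.pull.h_eq x h1
    have e2 := c2.pull.h_eq x k1
    rw [h2, h4] at e1
    rw [k2, k4] at e2
    constructor
    · rw [← e1]
      show ContinuousLinearMap.adjoint (1 : EndF N) * (1 : EndF N) * 1 = 1
      rw [mul_one, mul_one]
      exact star_one (EndF N)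
    · rw [← e2]
      show ContinuousLinearMap.adjoint (1 : EndF N) * (1 : EndF N) * 1 = 1
      rw [mul_one, mul_one]
      exact star_one (EndF N)
  obtain ⟨hκ, hjet⟩ := hDBd n N κ₁ κ₂ cp j0 W₁ W₂ z r C hn hr b1.z0 c1.model c2.model hh hc hfluxv
    hfluxc hC
  refine ⟨hκ, ?_⟩
  subst hκ
  have hEq := hRig n N κ₁ cp j0 W₁ W₂ z r hn hr b1.z0 c1.model c2.model hjet
  have hlocP := hLoc n N M
  -- solutions in model coordinates
  have hR0 := CNear_relHB z r₀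
  have hsol1 : ∀ u ∈ PP P Q Γ, Sol W₁.toLD (HB z r)
      (fun y => Ring.inverse (S₁ (Y₁ y)) (lu (𝓡∂ n) q u.1 (Y₁ y))) := by
    intro u hu
    obtain ⟨f, hf, hf1, hf2⟩ := hu
    have h1 := hHarm n N M P f u.1 hf1 q
    have hsm : ContDiffOn ℝ ∞ (fun y => Ring.inverse (S₁ (Y₁ y)) (lu (𝓡∂ n) q u.1 (Y₁ y)))
        (HB z r) := by
      refine smooth_eval (smooth_ringInverse (c1.pull.smS.comp c1.pull.diffeo.smY
        c1.pull.diffeo.mapsY) fun y hy => c1.pull.unit _ (c1.pull.diffeo.mapsY hy)) ?_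
      exact (h1.1.mono c1.sub).comp c1.pull.diffeo.smY c1.pull.diffeo.mapsY
    refine hBSol n N (P.loc q) W₁.toLD D₁' (HB z r) X₁ Y₁ S₁ c1.rel hR
      (CNear_ok_mono (hlocP.2.1 P q) c1.sub) c1.model.ok c1.pull _ ?_ hsm
    refine CNear_Sol_congr c1.rel (c := lu (𝓡∂ n) q u.1) ?_ ⟨h1.1.mono c1.sub, fun x hx =>
      h1.2 x (c1.sub hx)⟩
    intro x hx
    show lu (𝓡∂ n) q u.1 x =
      (S₁ x * Ring.inverse (S₁ (Y₁ (X₁ x)))) (lu (𝓡∂ n) q u.1 (Y₁ (X₁ x)))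
    rw [c1.pull.diffeo.inv1 x hx, Ring.mul_inverse_cancel _ (c1.pull.unit x hx)]
    rfl
  have hsol2 : ∀ u ∈ PP P Q Γ, Sol W₂.toLD (HB z r)
      (fun y => Ring.inverse (S₂ (Y₂ y)) (lu (𝓡∂ n) q u.2 (Y₂ y))) := by
    intro u hu
    obtain ⟨f, hf, hf1, hf2⟩ := hu
    have h1 := hHarm n N M Q f u.2 hf2 q
    have hsm : ContDiffOn ℝ ∞ (fun y => Ring.inverse (S₂ (Y₂ y)) (lu (𝓡∂ n) q u.2 (Y₂ y)))
        (HB z r) := by
      refine smooth_eval (smooth_ringInverse (c2.pull.smS.comp c2.pull.diffeo.smY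
        c2.pull.diffeo.mapsY) fun y hy => c2.pull.unit _ (c2.pull.diffeo.mapsY hy)) ?_
      exact (h1.1.mono c2.sub).comp c2.pull.diffeo.smY c2.pull.diffeo.mapsY
    refine hBSol n N (Q.loc q) W₂.toLD D₂' (HB z r) X₂ Y₂ S₂ c2.rel hR
      (CNear_ok_mono (hlocP.2.1 Q q) c2.sub) c2.model.ok c2.pull _ ?_ hsm
    refine CNear_Sol_congr c2.rel (c := lu (𝓡∂ n) q u.2) ?_ ⟨h1.1.mono c2.sub, fun x hx =>
      h1.2 x (c2.sub hx)⟩
    intro x hx
    show lu (𝓡∂ n) q u.2 x =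
      (S₂ x * Ring.inverse (S₂ (Y₂ (X₂ x)))) (lu (𝓡∂ n) q u.2 (Y₂ (X₂ x)))
    rw [c2.pull.diffeo.inv1 x hx, Ring.mul_inverse_cancel _ (c2.pull.unit x hx)]
    rfl
  have hsolEq : ∀ u ∈ PP P Q Γ, ∀ x ∈ HB z r,
      Ring.inverse (S₁ (Y₁ x)) (lu (𝓡∂ n) q u.1 (Y₁ x)) =
        Ring.inverse (S₂ (Y₂ x)) (lu (𝓡∂ n) q u.2 (Y₂ x)) := by
    intro u hu x hx
    have k1 := hsol1 u hu
    have k2 := hsol2 u hu
    have k3 : Sol W₁.toLD (HB z r)
        (fun y => Ring.inverse (S₁ (Y₁ y)) (lu (𝓡∂ n) q u.1 (Y₁ y)) -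
          Ring.inverse (S₂ (Y₂ y)) (lu (𝓡∂ n) q u.2 (Y₂ y))) := by
      refine ⟨k1.1.sub k2.1, fun y hy => ?_⟩
      rw [CNear_Lop_sub hR c1.model.ok k1.1 k2.1 hy, k1.2 y hy,
        CNear_Lop_data hR hEq.g hEq.B _ hy, k2.2 y hy, sub_zero]
    have k4 := hLin n N W₁.toLD z r hr b1.z0 c1.model.ok _ k3 (fun y hy hy0 => by
      obtain ⟨e1, e2⟩ := hdat u hu y hy hy0
      refine ⟨sub_eq_zero.2 e1, ?_⟩
      rw [CNear_flux_sub hR W₁.toLD k1.1 k2.1 0 hy, e2, CNear_flux_data hEq.g hEq.B _ 0 hy,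
        sub_self]) x hx
    exact sub_eq_zero.1 k4
  obtain ⟨O, φ, V, hO, hO'⟩ := hMatch n N M P Q Γ q q z r W₁.toLD W₂.toLD D₁' D₂' X₁ Y₁ X₂ Y₂ S₁ S₂
    c1.rel c2.rel c1.sub c2.sub c1.pull c2.pull hEq.g hEq.B hEq.h hsolEq
  refine ⟨O, φ, V, hO, ?_⟩
  have hz : z ∈ HB z r := ⟨Metric.mem_ball_self hr, by show 0 ≤ z 0; rw [b1.z0]⟩
  obtain ⟨x, hx, hx0⟩ := CNear_pos_point c2.rel (c2.bd z hz b1.z0).1
  exact ⟨_, hO' x hx hx0⟩

end Vale.Agent.P088.EYM.G

end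

end

section

open Bundle Manifold MeasureTheory Set Filter Topology

open scoped ContDiff

noncomputable section

set_option linter.all false

namespace Vale.Agent.P088.EYM.G

universe u

section Loc

variable {n N : ℕ} [NeZero n]

end Loc

section Man

variable {n N : ℕ} [NeZero n] {M : Type u} [TopologicalSpace M]
  [ChartedSpace (EuclideanHalfSpace n) M] [IsManifold (𝓡∂ n) ∞ M] [T2Space M] [CompactSpace M]
  [ConnectedSpace M] [MeasurableSpace M] [BorelSpace M]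

/-- The model near an interior point. -/
theorem cClosed_model (hBM : BModel_statement) (hHarm : CHarm_statement.{u})
    (hU : CUniq_statement.{u}) (hLoc : CLoc_statement.{u}) (hN : 0 < N) (P : One n N M)
    {κ : ℝ} {cp : Cpl n N} (hP : EYMm κ cp P.g P.A) (hb : ((𝓡∂ n).boundary M).Nonempty) (j0 : Fin N)
    {x : M} (hx : x ∈ Mi n M) (s : Fin N → M → Fib N) (t : Fin n → M → Fib N)
    (hs : ∀ j, ∃ f, P.Harm f (s j)) (ht : ∀ a, ∃ f, P.Harm f (t a))
    (hu : IsUnit (frm n x s (xc n x x)))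
    (hd : (Jac (Xco j0 (frm n x s) (fun a => lu (𝓡∂ n) x (t a))) (xc n x x)).det ≠ 0)
    (hpos : 0 < Xco j0 (frm n x s) (fun a => lu (𝓡∂ n) x (t a)) (xc n x x) 0) :
    ∃ (Y : E n → E n) (W : Model n N) (r₀ : ℝ), 0 < r₀ ∧ ∀ r, 0 < r → r ≤ r₀ →
      ∃ D₁ ⊆ tg n x, RelOpen D₁ ∧ xc n x x ∈ D₁ ∧
        IsPull (P.loc x) W.toLD D₁
          (HB (Xco j0 (frm n x s) (fun a => lu (𝓡∂ n) x (t a)) (xc n x x)) r)
          (Xco j0 (frm n x s) (fun a => lu (𝓡∂ n) x (t a))) Y (frm n x s) ∧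
        IsModel κ cp j0 W (HB (Xco j0 (frm n x s) (fun a => lu (𝓡∂ n) x (t a)) (xc n x x)) r) ∧
        ∀ y ∈ D₁, ∀ a, lu (𝓡∂ n) x (t a) y =
          frm n x s y (W.c a (Xco j0 (frm n x s) (fun a => lu (𝓡∂ n) x (t a)) y)) := by
  have hss : ∀ j, SmS n (s j) := fun j => (hs j).choose_spec.smooth
  refine hBM n N (P.loc x) (tg n x) κ cp j0 ((hLoc n N M).1 x) ((hLoc n N M).2.1 P x) (hP x)
    (frm n x s) (fun a => lu (𝓡∂ n) x (t a)) (cClosed_frm_smooth hLoc x s hss) ?_ ?_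
    (xc n x x) ((xc n x).map_source (mem_extChartAt_source x)) hu hd
    (Or.inl ⟨cClosed_pos hLoc hx, hpos⟩)
  · intro v
    obtain ⟨f, hf⟩ := cClosed_harm_sum hU hN P hb s hs v
    have h1 := hHarm n N M P f _ hf x
    have h2 : (fun y => frm n x s y v) = lu (𝓡∂ n) x (∑ j, v j • s j) :=
      funext fun y => cClosed_frm_apply x s y v
    rw [h2]
    exact h1
  · intro a
    obtain ⟨f, hf⟩ := ht a
    exact hHarm n N M P f _ hf x

end Man

theorem cClosed : CLim_statement.{u} → CCoord_statement.{u} → CModEq_statement.{u} →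
    BModel_statement → BRigInt_statement → LinInt_statement → BSol_statement →
    CMatch_statement.{u} → CHarm_statement.{u} → CUniq_statement.{u} → CLoc_statement.{u} →
    CClosed_statement.{u} := by
  intro hLim hCoord hModEq hBM hRig hLin hBSol hMatch hHarm hU hLoc
  intro n N _ M _ _ _ _ _ _ _ _ P Q Γ κ cp hn hN hΓ hΓ' hS hP hQ x₀ hx₀ hcl
  have hb := cClosed_bdry hΓ hΓ'
  obtain ⟨x₀', V₀, x, O, φ, V, hx₀', hV₀, hk, hx, hφ, hV, hlim⟩ :=
    hLim n N M P Q Γ hn hN hΓ hΓ' hS x₀ hx₀ hcl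
  obtain ⟨j0, s, t, hs, ht, hu1, hu2, hd1, hd2, hpos, heq⟩ :=
    hCoord n N M P Q Γ x₀ x₀' V₀ x O φ V hn hN hΓ hΓ' hS hx₀ hx₀' hV₀ hk hx hφ hV hlim
  have hpos' := hpos
  rw [heq] at hpos'
  have hs1 : ∀ j, ∃ f, P.Harm f (s j).1 := fun j => by
    obtain ⟨f, _, h1, _⟩ := hs j; exact ⟨f, h1⟩
  have hs2 : ∀ j, ∃ f, Q.Harm f (s j).2 := fun j => by
    obtain ⟨f, _, _, h1⟩ := hs j; exact ⟨f, h1⟩
  have ht1 : ∀ j, ∃ f, P.Harm f (t j).1 := fun j => by
    obtain ⟨f, _, h1, _⟩ := ht j; exact ⟨f, h1⟩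
  have ht2 : ∀ j, ∃ f, Q.Harm f (t j).2 := fun j => by
    obtain ⟨f, _, _, h1⟩ := ht j; exact ⟨f, h1⟩
  obtain ⟨Y₁, W₁, r₁, hr₁, h₁⟩ := cClosed_model hBM hHarm hU hLoc hN P hP hb j0 hx₀'
    (fun j => (s j).1) (fun a => (t a).1) hs1 ht1 hu1 hd1 hpos
  obtain ⟨Y₂, W₂, r₂, hr₂, h₂⟩ := cClosed_model hBM hHarm hU hLoc hN Q hQ hb j0 hx₀
    (fun j => (s j).2) (fun a => (t a).2) hs2 ht2 hu2 hd2 hpos'
  rw [← heq] at h₂
  set ζ := Xco j0 (frm n x₀' fun j => (s j).1) (fun a => lu (𝓡∂ n) x₀' (t a).1)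
    (xc n x₀' x₀') with hζ
  obtain ⟨r, hr, hra, hrb, hrc⟩ : ∃ r, 0 < r ∧ r ≤ r₁ ∧ r ≤ r₂ ∧ r ≤ ζ 0 :=
    ⟨min (min r₁ r₂) (ζ 0), lt_min (lt_min hr₁ hr₂) hpos,
      (min_le_left _ _).trans (min_le_left _ _), (min_le_left _ _).trans (min_le_right _ _),
      min_le_right _ _⟩
  obtain ⟨D₁, hD₁s, hD₁, hz₁, hpull₁, hmod₁, hc₁⟩ := h₁ r hr hra
  obtain ⟨D₂, hD₂s, hD₂, hz₂, hpull₂, hmod₂, hc₂⟩ := h₂ r hr hrb
  obtain ⟨hHB, hHBpos⟩ := cClosed_HB (n := n) hrc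
  have hHBo : RelOpen (HB ζ r) := cClosed_relOpen_HB ζ r
  have hHBopen : IsOpen (HB ζ r) := by rw [hHB]; exact Metric.isOpen_ball
  have hHBpre : IsPreconnected (HB ζ r) := by
    rw [hHB]; exact (convex_ball ζ r).isPreconnected
  -- a large index
  have ev1 : ∀ᶠ k in atTop, x k ∈ (xc n x₀).source ∧ xc n x₀ (x k) ∈ D₂ := by
    have e1 : ∀ᶠ k in atTop, x k ∈ (xc n x₀).source :=
      hx.eventually ((isOpen_extChartAt_source x₀).mem_nhds (mem_extChartAt_source x₀))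
    have e2 : Tendsto (fun k => xc n x₀ (x k)) atTop (𝓝 (xc n x₀ x₀)) :=
      (continuousAt_extChartAt x₀).tendsto.comp hx
    obtain ⟨O₂, hO₂, rfl⟩ := hD₂
    have e3 := e2.eventually (hO₂.mem_nhds hz₂.1)
    filter_upwards [e1, e3] with k h1 h3
    refine ⟨h1, h3, ?_⟩
    exact ((hLoc n N M).1 x₀).subset ((xc n x₀).map_source h1)
  have ev2 : ∀ᶠ k in atTop, φ k (x k) ∈ (xc n x₀').source ∧ xc n x₀' (φ k (x k)) ∈ D₁ := by
    have e1 : ∀ᶠ k in atTop, φ k (x k) ∈ (xc n x₀').source :=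
      hφ.eventually ((isOpen_extChartAt_source x₀').mem_nhds (mem_extChartAt_source x₀'))
    have e2 : Tendsto (fun k => xc n x₀' (φ k (x k))) atTop (𝓝 (xc n x₀' x₀')) :=
      (continuousAt_extChartAt x₀').tendsto.comp hφ
    obtain ⟨O₂, hO₂, rfl⟩ := hD₁
    have e3 := e2.eventually (hO₂.mem_nhds hz₁.1)
    filter_upwards [e1, e3] with k h1 h3
    refine ⟨h1, h3, ?_⟩
    exact ((hLoc n N M).1 x₀').subset ((xc n x₀').map_source h1)
  obtain ⟨k, ⟨hk1, hk2⟩, hk3, hk4⟩ := (ev1.and ev2).exists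
  obtain ⟨U, hUo, hUs, hUn, hUeq, hUu⟩ := hModEq n N M P Q Γ j0 s t x₀' x₀ ζ r W₁ W₂ D₁ D₂ Y₁ Y₂
    hs ht hD₁ hD₂ hD₁s hD₂s hpull₁ hpull₂ hc₁ hc₂ (O k) (φ k) (V k) (hk k).1 (x k) (hk k).2
    hk1 hk2 hk3 hk4
  have hEq : EqOnM W₁ W₂ (HB ζ r) :=
    hRig n N κ cp j0 W₁ W₂ (HB ζ r) hn hHBopen hHBpos hHBpre hmod₁ hmod₂ U hUo hUs hUn hUeq
  have hL₁ : (P.loc x₀').Ok D₁ := by
    have := (hLoc n N M).2.1 P x₀'
    exact ⟨fun i j => (this.g_smooth i j).mono hD₁s, fun y hy => this.g_pos y (hD₁s hy),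
      fun i => (this.B_smooth i).mono hD₁s, this.h_smooth.mono hD₁s,
      fun y hy => this.h_adj y (hD₁s hy), fun y hy => this.h_pos y (hD₁s hy),
      fun y hy => this.compat y (hD₁s hy)⟩
  have hL₂ : (Q.loc x₀).Ok D₂ := by
    have := (hLoc n N M).2.1 Q x₀
    exact ⟨fun i j => (this.g_smooth i j).mono hD₂s, fun y hy => this.g_pos y (hD₂s hy),
      fun i => (this.B_smooth i).mono hD₂s, this.h_smooth.mono hD₂s,
      fun y hy => this.h_adj y (hD₂s hy), fun y hy => this.h_pos y (hD₂s hy),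
      fun y hy => this.compat y (hD₂s hy)⟩
  have hsec : ∀ u ∈ PP P Q Γ, ∀ y ∈ HB ζ r,
      Ring.inverse (frm n x₀' (fun j => (s j).1) (Y₁ y)) (lu (𝓡∂ n) x₀' u.1 (Y₁ y)) =
      Ring.inverse (frm n x₀ (fun j => (s j).2) (Y₂ y)) (lu (𝓡∂ n) x₀ u.2 (Y₂ y)) := by
    intro u hu
    obtain ⟨f, _, hf1, hf2⟩ := hu
    have a1 : Sol (P.loc x₀') D₁ (lu (𝓡∂ n) x₀' u.1) := by
      have := hHarm n N M P f _ hf1 x₀'
      exact ⟨this.1.mono hD₁s, fun y hy => this.2 y (hD₁s hy)⟩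
    have a2 : Sol (Q.loc x₀) D₂ (lu (𝓡∂ n) x₀ u.2) := by
      have := hHarm n N M Q f _ hf2 x₀
      exact ⟨this.1.mono hD₂s, fun y hy => this.2 y (hD₂s hy)⟩
    have b1 := cClosed_tr hBSol hD₁ hHBo hL₁ hmod₁.ok hpull₁ a1
    have b2 := cClosed_tr hBSol hD₂ hHBo hL₂ hmod₂.ok hpull₂ a2
    have b3 : Sol W₁.toLD (HB ζ r)
        (fun y => Ring.inverse (frm n x₀ (fun j => (s j).2) (Y₂ y)) (lu (𝓡∂ n) x₀ u.2 (Y₂ y))) :=
      cClosed_sol_congr hHBo hEq.g hEq.B (fun _ _ => rfl) b2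
    have b4 := cClosed_sol_sub hHBo hmod₁.ok b1 b3
    have b5 := hLin n N W₁.toLD (HB ζ r) hHBopen inter_subset_right hmod₁.ok hHBpre _ b4 U hUo hUs
      hUn (fun y hy => sub_eq_zero.2 (hUu u ⟨f, by assumption, hf1, hf2⟩ y hy))
    intro y hy
    exact sub_eq_zero.1 (b5 y hy)
  obtain ⟨O', φ', V', hM, hO'⟩ := hMatch n N M P Q Γ x₀' x₀ ζ r W₁.toLD W₂.toLD D₁ D₂ _ Y₁ _ Y₂ _ _
    hD₁ hD₂ hD₁s hD₂s hpull₁ hpull₂ hEq.g hEq.B hEq.h hsec
  refine ⟨O', φ', V', hM, ?_⟩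
  have := hO' (xc n x₀ x₀) hz₂ (cClosed_pos hLoc hx₀)
  rwa [extChartAt_to_inv] at this

end Vale.Agent.P088.EYM.G

end

end

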