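import Vale.Agent.P088.H820.Defs
import Vale.Agent.P088.Bdl.B3

/-!
# P088: the couplings `a(s) T + b(s) g` are natural; the Einstein-Yang-Mills equations
-/

open Manifold MeasureTheory Set Filter Topology
open scoped ContDiff Matrix

noncomputable section

namespace Vale.Agent.P088.B

universe u

variable {n N : ℕ}

/-- the stress term -/
def stT (G : Matrix (Fin n) (Fin n) ℝ) (F : Fin n → Fin n → Matrix (Fin N) (Fin N) ℂ) :
    Matrix (Fin n) (Fin n) ℝ := fun j k => -∑ a, ∑ b, (F j a * F k b).trace.re * G⁻¹ a b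

theorem pairCoupling_eq (a b : ℝ → ℝ) (G : Matrix (Fin n) (Fin n) ℝ)
    (F : Fin n → Fin n → Matrix (Fin N) (Fin N) ℂ) :
    pairCoupling a b G F = a (G⁻¹ * stT G F).trace • stT G F + b (G⁻¹ * stT G F).trace • G := rfl

theorem sum3 {ι : Type*} [Fintype ι] (f : ι → ι → ι → ℝ) :
    ∑ a, ∑ b, ∑ p, f a b p = ∑ p, ∑ a, ∑ b, f a b p := by
  have h1 : ∀ a, ∑ b, ∑ p, f a b p = ∑ p, ∑ b, f a b p := fun a => Finset.sum_comm
  rw [Finset.sum_congr rfl fun a _ => h1 a, Finset.sum_comm]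

theorem sum6 {ι : Type*} [Fintype ι] (f : ι → ι → ι → ι → ι → ι → ℝ) :
    ∑ a, ∑ b, ∑ p, ∑ q, ∑ r, ∑ s, f a b p q r s = ∑ p, ∑ q, ∑ r, ∑ s, ∑ a, ∑ b, f a b p q r s := by
  rw [sum3 fun a b p => ∑ q, ∑ r, ∑ s, f a b p q r s]
  refine Finset.sum_congr rfl fun p _ => ?_
  rw [sum3 fun a b q => ∑ r, ∑ s, f a b p q r s]
  refine Finset.sum_congr rfl fun q _ => ?_
  rw [sum3 fun a b r => ∑ s, f a b p q r s]
  refine Finset.sum_congr rfl fun r _ => ?_
  rw [sum3 fun a b s => f a b p q r s]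

theorem re_trace_smul (c : ℝ) (A : Matrix (Fin N) (Fin N) ℂ) :
    (c • A).trace.re = c * A.trace.re := by
  rw [Matrix.trace_smul, Complex.smul_re, smul_eq_mul]

theorem re_trace_sum {ι : Type*} (s : Finset ι) (A : ι → Matrix (Fin N) (Fin N) ℂ) :
    (∑ i ∈ s, A i).trace.re = ∑ i ∈ s, (A i).trace.re := by
  rw [Matrix.trace_sum, Complex.re_sum]

theorem stT_cov (G : Matrix (Fin n) (Fin n) ℝ) (F : Fin n → Fin n → Matrix (Fin N) (Fin N) ℂ)
    {J : Matrix (Fin n) (Fin n) ℝ} (hJ : IsUnit J) :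
    stT (Jᵀ * G * J) (fun i j => ∑ a, ∑ b, (J a i * J b j) • F a b) = Jᵀ * stT G F * J := by
  have hdet : IsUnit J.det := (Matrix.isUnit_iff_isUnit_det J).1 hJ
  have hJJ : J * (Jᵀ * G * J)⁻¹ * Jᵀ = G⁻¹ := by
    have hdT : IsUnit Jᵀ.det := by rwa [Matrix.det_transpose]
    rw [Matrix.mul_inv_rev, Matrix.mul_inv_rev]
    calc J * (J⁻¹ * (G⁻¹ * (Jᵀ)⁻¹)) * Jᵀ = (J * J⁻¹) * G⁻¹ * ((Jᵀ)⁻¹ * Jᵀ) := by
          simp only [Matrix.mul_assoc]
      _ = G⁻¹ := by
          rw [Matrix.mul_nonsing_inv _ hdet, Matrix.nonsing_inv_mul _ hdT, one_mul, mul_one]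
  have hen : ∀ q s, ∑ a, ∑ b, J q a * (Jᵀ * G * J)⁻¹ a b * J s b = G⁻¹ q s := by
    intro q s
    have := congrFun (congrFun hJJ q) s
    rw [Matrix.mul_apply] at this
    rw [← this, Finset.sum_comm]
    refine Finset.sum_congr rfl fun b _ => ?_
    rw [Matrix.mul_apply, Finset.sum_mul]
    rfl
  have htr : ∀ a b j k, ((∑ p, ∑ q, (J p j * J q a) • F p q) *
      (∑ r, ∑ s, (J r k * J s b) • F r s)).trace.re =
      ∑ p, ∑ q, ∑ r, ∑ s, (J p j * J q a * (J r k * J s b)) * (F p q * F r s).trace.re := by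
    intro a b j k
    rw [Finset.sum_mul, re_trace_sum]
    refine Finset.sum_congr rfl fun p _ => ?_
    rw [Finset.sum_mul, re_trace_sum]
    refine Finset.sum_congr rfl fun q _ => ?_
    rw [Finset.mul_sum, re_trace_sum]
    refine Finset.sum_congr rfl fun r _ => ?_
    rw [Finset.mul_sum, re_trace_sum]
    refine Finset.sum_congr rfl fun s _ => ?_
    rw [smul_mul_smul_comm, re_trace_smul]
  ext j k
  have hL : stT (Jᵀ * G * J) (fun i j => ∑ a, ∑ b, (J a i * J b j) • F a b) j k =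
      -∑ a, ∑ b, ∑ p, ∑ q, ∑ r, ∑ s, (J p j * J r k * (F p q * F r s).trace.re) *
        (J q a * (Jᵀ * G * J)⁻¹ a b * J s b) := by
    unfold stT
    congr 1
    refine Finset.sum_congr rfl fun a _ => Finset.sum_congr rfl fun b _ => ?_
    rw [htr a b j k, Finset.sum_mul]
    refine Finset.sum_congr rfl fun p _ => ?_
    rw [Finset.sum_mul]
    refine Finset.sum_congr rfl fun q _ => ?_
    rw [Finset.sum_mul]
    refine Finset.sum_congr rfl fun r _ => ?_
    rw [Finset.sum_mul]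
    refine Finset.sum_congr rfl fun s _ => ?_
    ring
  have hR : (Jᵀ * stT G F * J) j k = -∑ p, ∑ q, ∑ r, ∑ s,
      (J p j * J r k * (F p q * F r s).trace.re) * G⁻¹ q s := by
    rw [Matrix.mul_apply]
    simp only [Matrix.mul_apply, Matrix.transpose_apply, Finset.sum_mul]
    rw [Finset.sum_comm, ← Finset.sum_neg_distrib]
    refine Finset.sum_congr rfl fun p _ => ?_
    rw [Finset.sum_comm, ← Finset.sum_neg_distrib]
    refine Finset.sum_congr rfl fun r _ => ?_
    unfold stT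
    rw [mul_neg, neg_mul, Finset.mul_sum, Finset.sum_mul]
    congr 1
    refine Finset.sum_congr rfl fun q _ => ?_
    rw [Finset.mul_sum, Finset.sum_mul]
    refine Finset.sum_congr rfl fun s _ => ?_
    ring
  rw [hL, hR, sum6]
  congr 1
  refine Finset.sum_congr rfl fun p _ => Finset.sum_congr rfl fun q _ =>
    Finset.sum_congr rfl fun r _ => Finset.sum_congr rfl fun s _ => ?_
  simp only [← Finset.mul_sum, hen]

theorem tr_cov (G T : Matrix (Fin n) (Fin n) ℝ) {J : Matrix (Fin n) (Fin n) ℝ} (hJ : IsUnit J) :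
    ((Jᵀ * G * J)⁻¹ * (Jᵀ * T * J)).trace = (G⁻¹ * T).trace := by
  have hdet : IsUnit J.det := (Matrix.isUnit_iff_isUnit_det J).1 hJ
  have hdT : IsUnit Jᵀ.det := by rwa [Matrix.det_transpose]
  rw [Matrix.mul_inv_rev, Matrix.mul_inv_rev]
  calc (J⁻¹ * (G⁻¹ * (Jᵀ)⁻¹) * (Jᵀ * T * J)).trace =
      (J⁻¹ * (G⁻¹ * (((Jᵀ)⁻¹ * Jᵀ) * T * J))).trace := by simp only [Matrix.mul_assoc]
    _ = ((G⁻¹ * T * J) * J⁻¹).trace := by
        rw [Matrix.nonsing_inv_mul _ hdT, one_mul, Matrix.trace_mul_comm]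
        simp only [Matrix.mul_assoc]
    _ = (G⁻¹ * T).trace := by
        rw [Matrix.mul_assoc, Matrix.mul_nonsing_inv _ hdet, mul_one]

theorem stT_inv (G : Matrix (Fin n) (Fin n) ℝ) (F : Fin n → Fin n → Matrix (Fin N) (Fin N) ℂ)
    {U : Matrix (Fin N) (Fin N) ℂ} (hU : Uᴴ * U = 1) :
    stT G (fun i j => Uᴴ * F i j * U) = stT G F := by
  have hU' : U * Uᴴ = 1 := mul_eq_one_comm.1 hU
  funext j k
  unfold stT
  congr 1
  refine Finset.sum_congr rfl fun a _ => Finset.sum_congr rfl fun b _ => ?_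
  congr 2
  calc (Uᴴ * F j a * U * (Uᴴ * F k b * U)).trace = (Uᴴ * (F j a * (U * Uᴴ) * F k b * U)).trace := by
        simp only [Matrix.mul_assoc]
    _ = (F j a * F k b * U * Uᴴ).trace := by
        rw [hU', mul_one, Matrix.trace_mul_comm]
    _ = (F j a * F k b).trace := by
        rw [Matrix.mul_assoc, hU', mul_one]

/-! ### locally Lipschitz functions -/

section LL

variable {X : Type*} [PseudoMetricSpace X] {s : Set X} {f g : X → ℝ}

theorem ll_mul (hf : LocallyLipschitzOn s f) (hg : LocallyLipschitzOn s g) :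
    LocallyLipschitzOn s (fun x => f x * g x) := by
  intro x hx
  obtain ⟨K₁, t₁, ht₁, h₁⟩ := hf hx
  obtain ⟨K₂, t₂, ht₂, h₂⟩ := hg hx
  have b₁ : {y | |f y| < |f x| + 1} ∈ 𝓝[s] x :=
    ((hf.continuousOn x hx).abs).eventually (gt_mem_nhds (lt_add_one _))
  have b₂ : {y | |g y| < |g x| + 1} ∈ 𝓝[s] x :=
    ((hg.continuousOn x hx).abs).eventually (gt_mem_nhds (lt_add_one _))
  refine ⟨Real.toNNReal ((|f x| + 1) * K₂ + (|g x| + 1) * K₁), t₁ ∩ t₂ ∩
    ({y | |f y| < |f x| + 1} ∩ {y | |g y| < |g x| + 1}),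
    inter_mem (inter_mem ht₁ ht₂) (inter_mem b₁ b₂), ?_⟩
  refine LipschitzOnWith.of_dist_le_mul fun y hy z hz => ?_
  have d₁ := h₁.dist_le_mul y hy.1.1 z hz.1.1
  have d₂ := h₂.dist_le_mul y hy.1.2 z hz.1.2
  have c₁ : |f y| ≤ |f x| + 1 := le_of_lt hy.2.1
  have c₂ : |g z| ≤ |g x| + 1 := le_of_lt hz.2.2
  rw [Real.dist_eq] at d₁ d₂ ⊢
  rw [Real.coe_toNNReal _ (by positivity)]
  have e : f y * g y - f z * g z = f y * (g y - g z) + g z * (f y - f z) := by ring
  rw [e]
  calc |f y * (g y - g z) + g z * (f y - f z)| ≤ |f y| * |g y - g z| + |g z| * |f y - f z| := by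
        refine (abs_add_le _ _).trans (le_of_eq ?_)
        rw [abs_mul, abs_mul]
    _ ≤ (|f x| + 1) * (K₂ * dist y z) + (|g x| + 1) * (K₁ * dist y z) := by
        refine add_le_add (mul_le_mul c₁ d₂ (abs_nonneg _) (by positivity))
          (mul_le_mul c₂ d₁ (abs_nonneg _) (by positivity))
    _ = _ := by ring

theorem ll_add (hf : LocallyLipschitzOn s f) (hg : LocallyLipschitzOn s g) :
    LocallyLipschitzOn s (fun x => f x + g x) := hf.add hg

theorem ll_comp {a : ℝ → ℝ} (ha : LocallyLipschitz a) (hf : LocallyLipschitzOn s f) :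
    LocallyLipschitzOn s (fun x => a (f x)) := by
  intro x hx
  obtain ⟨K₁, t₁, ht₁, h₁⟩ := hf hx
  obtain ⟨K₂, t₂, ht₂, h₂⟩ := ha (f x)
  refine ⟨K₂ * K₁, t₁ ∩ f ⁻¹' t₂, inter_mem ht₁ ((hf.continuousOn x hx) ht₂), ?_⟩
  exact h₂.comp (h₁.mono inter_subset_left) fun y hy => hy.2

end LL

theorem ll_of_smooth {X : Type*} [NormedAddCommGroup X] [NormedSpace ℝ X] {s O : Set X}
    (hO : IsOpen O) (hs : s ⊆ O) {f : X → ℝ} (hf : ContDiffOn ℝ ∞ f O) :
    LocallyLipschitzOn s f := by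
  intro x hx
  have h1 : ContDiffAt ℝ 1 f x :=
    ((hf x (hs hx)).contDiffAt (hO.mem_nhds (hs hx))).of_le (by simp only [WithTop.one_le_coe, le_top])
  obtain ⟨K, t, ht, h⟩ := h1.exists_lipschitzOnWith
  exact ⟨K, t, mem_nhdsWithin_of_mem_nhds ht, h⟩

/-- The couplings `a(s) T + b(s) g` are natural. -/
theorem natural_pair {a b : ℝ → ℝ} (ha : LocallyLipschitz a) (hb : LocallyLipschitz b) :
    Natural (n := n) (N := N) (pairCoupling a b) where
  cov := by
    intro G F J hv hJ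
    rw [pairCoupling_eq, pairCoupling_eq, stT_cov G F hJ, tr_cov G _ hJ, mul_add, add_mul,
      mul_smul_comm, smul_mul_assoc, mul_smul_comm, smul_mul_assoc]
  inv := by
    intro G F U hv hU
    rw [pairCoupling_eq, pairCoupling_eq, stT_inv G F hU]
  lip := by
    intro j k
    set O : Set ((Fin n → Fin n → ℝ) × (Fin n → Fin n → Fin N → Fin N → ℂ)) :=
      {x | (Matrix.of x.1).det ≠ 0} with hO
    have hG : ∀ i j, ContDiff ℝ ∞ (fun x : (Fin n → Fin n → ℝ) ×
        (Fin n → Fin n → Fin N → Fin N → ℂ) => Matrix.of x.1 i j) := by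
      intro i j
      have h := ((ContinuousLinearMap.proj (R := ℝ) (φ := fun _ : Fin n => ℝ) j).comp
        ((ContinuousLinearMap.proj (R := ℝ) (φ := fun _ : Fin n => Fin n → ℝ) i).comp
        (ContinuousLinearMap.fst ℝ (Fin n → Fin n → ℝ)
          (Fin n → Fin n → Fin N → Fin N → ℂ)))).contDiff (n := ∞)
      exact h
    have hF : ∀ i j c d, ContDiff ℝ ∞ (fun x : (Fin n → Fin n → ℝ) ×
        (Fin n → Fin n → Fin N → Fin N → ℂ) => x.2 i j c d) := by
      intro i j c d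
      have h := ((ContinuousLinearMap.proj (R := ℝ) (φ := fun _ : Fin N => ℂ) d).comp
        ((ContinuousLinearMap.proj (R := ℝ) (φ := fun _ : Fin N => Fin N → ℂ) c).comp
        ((ContinuousLinearMap.proj (R := ℝ) (φ := fun _ : Fin n => Fin N → Fin N → ℂ) j).comp
        ((ContinuousLinearMap.proj (R := ℝ)
          (φ := fun _ : Fin n => Fin n → Fin N → Fin N → ℂ) i).comp
        (ContinuousLinearMap.snd ℝ (Fin n → Fin n → ℝ)
          (Fin n → Fin n → Fin N → Fin N → ℂ)))))).contDiff (n := ∞)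
      exact h
    have hdet : Continuous (fun x : (Fin n → Fin n → ℝ) ×
        (Fin n → Fin n → Fin N → Fin N → ℂ) => (Matrix.of x.1).det) := by
      have := contDiffOn_det (s := univ) (G := fun x : (Fin n → Fin n → ℝ) ×
        (Fin n → Fin n → Fin N → Fin N → ℂ) => Matrix.of x.1) (fun i j => (hG i j).contDiffOn)
      exact (contDiffOn_univ.1 this).continuous
    have hOo : IsOpen O := isOpen_ne_fun hdet continuous_const
    have hsO : {x : (Fin n → Fin n → ℝ) × (Fin n → Fin n → Fin N → Fin N → ℂ) |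
        IsVal x.1 x.2} ⊆ O := fun x hx => hx.1.det_pos.ne'
    have hi : ∀ i j, ContDiffOn ℝ ∞ (fun x : (Fin n → Fin n → ℝ) ×
        (Fin n → Fin n → Fin N → Fin N → ℂ) => (Matrix.of x.1)⁻¹ i j) O := fun i j =>
      contDiffOn_inv_entry (fun i j => (hG i j).contDiffOn) (fun y hy => hy) i j
    have hT : ∀ j k, ContDiffOn ℝ ∞ (fun x : (Fin n → Fin n → ℝ) ×
        (Fin n → Fin n → Fin N → Fin N → ℂ) => stT x.1 x.2 j k) O := by
      intro j k
      refine (ContDiffOn.sum fun c _ => ContDiffOn.sum fun d _ => ContDiffOn.mul ?_ (hi c d)).neg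
      have h1 : ∀ x : (Fin n → Fin n → ℝ) × (Fin n → Fin n → Fin N → Fin N → ℂ),
          (Matrix.of (x.2 j c) * Matrix.of (x.2 k d) : Matrix (Fin N) (Fin N) ℂ).trace.re =
          ∑ p, ∑ q, (x.2 j c p q * x.2 k d q p).re := by
        intro x
        simp only [Matrix.trace, Matrix.diag_apply, Matrix.mul_apply, Complex.re_sum,
          Matrix.of_apply]
      change ContDiffOn ℝ ∞ (fun x : (Fin n → Fin n → ℝ) ×
        (Fin n → Fin n → Fin N → Fin N → ℂ) =>
          (Matrix.of (x.2 j c) * Matrix.of (x.2 k d) : Matrix (Fin N) (Fin N) ℂ).trace.re) O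
      simp only [h1]
      refine ContDiffOn.sum fun p _ => ContDiffOn.sum fun q _ => ?_
      exact Complex.reCLM.contDiff.comp_contDiffOn
        (((hF j c p q).mul (hF k d q p)).contDiffOn)
    have hs : ContDiffOn ℝ ∞ (fun x : (Fin n → Fin n → ℝ) ×
        (Fin n → Fin n → Fin N → Fin N → ℂ) => ((Matrix.of x.1)⁻¹ * stT x.1 x.2).trace) O := by
      simp only [Matrix.trace, Matrix.diag_apply, Matrix.mul_apply]
      exact ContDiffOn.sum fun p _ => ContDiffOn.sum fun q _ => (hi p q).mul (hT q p)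
    have ls := ll_of_smooth hOo hsO hs
    exact ll_add (ll_mul (ll_comp ha ls) (ll_of_smooth hOo hsO (hT j k)))
      (ll_mul (ll_comp hb ls) (ll_of_smooth hOo hsO (hG j k).contDiffOn))

/-- The Einstein-Yang-Mills equations are the coupled equations with `a = α`, `b(s) = β s`. -/
theorem eym_iff {M : Type u} {Z : At n M} (κ α β : ℝ) (P : Pair Z N) :
    EYM κ α β P ↔ Coupled κ (pairCoupling (fun _ => α) (fun s => β * s)) P := by
  refine forall_congr' fun p => forall_congr' fun x => forall_congr' fun hx => ?_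
  refine and_congr_left fun _ => ?_
  rw [pairCoupling_eq, ← add_assoc]
  rfl

end Vale.Agent.P088.B
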