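import Vale.Agent.P088.Bdl.B12

/-!
# P088, general natural couplings: abstract form of the equations and the frozen statements
-/

section

open MeasureTheory Set Filter Topology
open scoped ContDiff

noncomputable section

namespace Vale.Agent.P088.EYM.G

variable {n N : ℕ} [NeZero n]

/-- A natural coupling (abstract form): covariant under changes of coordinates and locally
Lipschitz. -/
structure Cpl (n N : ℕ) where
  f : Matrix (Fin n) (Fin n) ℝ → (Fin n → Fin n → EndF N) → Fin n → Fin n → ℝ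
  nat : ∀ (G J : Matrix (Fin n) (Fin n) ℝ) (F : Fin n → Fin n → EndF N), G.PosDef → IsUnit J →
    ∀ j k, f (J.transpose * G * J) (fun i j => ∑ p, ∑ q, (J p i * J q j) • F p q) j k =
      ∑ p, ∑ q, J p j * J q k * f G F p q
  lip : ∀ (G : Matrix (Fin n) (Fin n) ℝ) (F : Fin n → Fin n → EndF N), G.PosDef →
    ∃ C δ : ℝ, 0 < δ ∧ ∀ (G₁ G₂ : Matrix (Fin n) (Fin n) ℝ) (F₁ F₂ : Fin n → Fin n → EndF N),
      G₁.PosDef → G₂.PosDef →
      (∀ i j, |G₁ i j - G i j| < δ) → (∀ i j, |G₂ i j - G i j| < δ) →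
      (∀ i j, ‖F₁ i j - F i j‖ < δ) → (∀ i j, ‖F₂ i j - F i j‖ < δ) →
      ∀ t : ℝ, (∀ i j, |G₁ i j - G₂ i j| ≤ t) → (∀ i j, ‖F₁ i j - F₂ i j‖ ≤ t) →
      ∀ i j, |f G₁ F₁ i j - f G₂ F₂ i j| ≤ C * t

/-- The curvature in the frame `S`. -/
def curS (L : LD n N) (S : EndF N) (x : E n) (a b : Fin n) : EndF N :=
  S * cur L.B a b x * Ring.inverse S

/-- The coupled equations on `D`: in every unitary frame `S` (`S^* S = h`). -/
structure EYMeq (κ : ℝ) (cp : Cpl n N) (L : LD n N) (D : Set (E n)) : Prop where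
  ein : ∀ x ∈ D, ∀ S : EndF N, IsUnit S → ContinuousLinearMap.adjoint S * S = L.h x → ∀ j k,
    ric L.g j k x = κ * L.g x j k + cp.f (L.g x) (curS L S x) j k
  ym : ∀ x ∈ D, ∀ k, ymE L k x = 0

/-- `W` is a model on `D`: the constant sections and the `c_a` are solutions, the real part of the
component `j0` of `c_a` is the coordinate `x_a`, and the equations hold. -/
structure IsModel (κ : ℝ) (cp : Cpl n N) (j0 : Fin N) (W : Model n N) (D : Set (E n)) : Prop where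
  ok : W.toLD.Ok D
  frame : ∀ v : Fib N, Sol W.toLD D (fun _ => v)
  sol : ∀ a, Sol W.toLD D (W.c a)
  re : ∀ a, ∀ x ∈ D, (W.c a x j0).re = x a
  eqs : EYMeq κ cp W.toLD D

/-- transport of the structure: the pushed forward data exist, are smooth, and solve the Einstein
and Yang-Mills equations. -/
def BPush_statement : Prop :=
  ∀ (n N : ℕ) [NeZero n] (L : LD n N) (D D' : Set (E n)) (X Y : E n → E n)
    (S : E n → EndF N), RelOpen D → RelOpen D' → L.Ok D → IsDiffeo D D' X Y →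
    ContDiffOn ℝ ∞ S D → (∀ x ∈ D, IsUnit (S x)) →
    ∃ L' : LD n N, L'.Ok D' ∧ IsPull L L' D D' X Y S ∧
      ∀ κ cp, EYMeq κ cp L D → EYMeq κ cp L' D'

/-- Existence of a model near `z` in solution coordinates. -/
def BModel_statement : Prop :=
  ∀ (n N : ℕ) [NeZero n] (L : LD n N) (D : Set (E n)) (κ : ℝ) (cp : Cpl n N) (j0 : Fin N), RelOpen D →
    L.Ok D → EYMeq κ cp L D → ∀ (S : E n → EndF N) (T : Fin n → E n → Fib N),
    ContDiffOn ℝ ∞ S D → (∀ v, Sol L D (fun x => S x v)) → (∀ a, Sol L D (T a)) →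
    ∀ z ∈ D, IsUnit (S z) → (Jac (Xco j0 S T) z).det ≠ 0 →
    ((0 < z 0 ∧ 0 < Xco j0 S T z 0) ∨
      (z 0 = 0 ∧ 0 < pd 0 (fun x => Xco j0 S T x 0) z ∧
        ∃ r > 0, ∀ x ∈ HB z r, x 0 = 0 → Xco j0 S T x 0 = 0)) →
    ∃ (Y : E n → E n) (W : Model n N) (r₀ : ℝ), 0 < r₀ ∧ ∀ r, 0 < r → r ≤ r₀ →
      ∃ D₁ ⊆ D, RelOpen D₁ ∧ z ∈ D₁ ∧
        IsPull L W.toLD D₁ (HB (Xco j0 S T z) r) (Xco j0 S T) Y S ∧
        IsModel κ cp j0 W (HB (Xco j0 S T z) r) ∧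
        ∀ x ∈ D₁, ∀ a, T a x = S x (W.c a (Xco j0 S T x))

/-- Rigidity of models, interior. -/
def BRigInt_statement : Prop :=
  ∀ (n N : ℕ) [NeZero n] (κ : ℝ) (cp : Cpl n N) (j0 : Fin N) (W₁ W₂ : Model n N) (D : Set (E n)),
    3 ≤ n → IsOpen D → D ⊆ {x | 0 < x 0} → IsPreconnected D →
    IsModel κ cp j0 W₁ D → IsModel κ cp j0 W₂ D → ∀ U : Set (E n), IsOpen U → U ⊆ D →
    U.Nonempty → EqOnM W₁ W₂ U → EqOnM W₁ W₂ D

/-- Rigidity of models, from the boundary. -/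
def BRigBd_statement : Prop :=
  ∀ (n N : ℕ) [NeZero n] (κ : ℝ) (cp : Cpl n N) (j0 : Fin N) (W₁ W₂ : Model n N) (z : E n) (r : ℝ),
    3 ≤ n → 0 < r → z 0 = 0 → IsModel κ cp j0 W₁ (HB z r) → IsModel κ cp j0 W₂ (HB z r) →
    (∀ x ∈ HB z r, x 0 = 0 → JetEq W₁ W₂ x) → EqOnM W₁ W₂ (HB z r)

/-- Boundary determination. -/
def DBd_statement : Prop :=
  ∀ (n N : ℕ) [NeZero n] (κ₁ κ₂ : ℝ) (cp : Cpl n N) (j0 : Fin N) (W₁ W₂ : Model n N) (z : E n) (r C : ℝ),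
    3 ≤ n → 0 < r → z 0 = 0 → IsModel κ₁ cp j0 W₁ (HB z r) → IsModel κ₂ cp j0 W₂ (HB z r) →
    (∀ x ∈ HB z r, x 0 = 0 → W₁.h x = 1 ∧ W₂.h x = 1) →
    (∀ x ∈ HB z r, x 0 = 0 → ∀ a, W₁.c a x = W₂.c a x) →
    (∀ x ∈ HB z r, x 0 = 0 → ∀ v : Fib N,
      flux W₁.toLD 0 (fun _ => v) x = flux W₂.toLD 0 (fun _ => v) x) →
    (∀ x ∈ HB z r, x 0 = 0 → ∀ a, flux W₁.toLD 0 (W₁.c a) x = flux W₂.toLD 0 (W₂.c a) x) →
    ERel W₁.toLD W₂.toLD z r C →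
    κ₁ = κ₂ ∧ ∀ x ∈ HB z r, x 0 = 0 → JetEq W₁ W₂ x

end Vale.Agent.P088.EYM.G

end

end

section

open Bundle Manifold MeasureTheory Set Filter Topology

open scoped ContDiff

noncomputable section

namespace Vale.Agent.P088.EYM.G

universe u

variable {n N : ℕ} [NeZero n] {M : Type u} [TopologicalSpace M]
  [ChartedSpace (EuclideanHalfSpace n) M] [IsManifold (𝓡∂ n) ∞ M]

/-- The Einstein and Yang-Mills equations on `M`. -/
def EYMm (κ : ℝ) (cp : Cpl n N) (g : Metric (𝓡∂ n) M) (A : Connection (𝓡∂ n) N M) : Prop :=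
  ∀ p : M, EYMeq κ cp (locM g A p) (tg n p)

variable [MeasurableSpace M]

end Vale.Agent.P088.EYM.G

end

end

section

open Bundle Manifold MeasureTheory Set Filter Topology

open scoped ContDiff

noncomputable section

namespace Vale.Agent.P088.EYM.G

universe u

/-- The model of `P` near a boundary point, of radius `r`. -/
structure BdM {n N : ℕ} [NeZero n] {M : Type u} [TopologicalSpace M]
    [ChartedSpace (EuclideanHalfSpace n) M] [IsManifold (𝓡∂ n) ∞ M] [MeasurableSpace M]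
    (P : One n N M) (Γ : Set M) (q : M) (z : E n) (r κ : ℝ) (cp : Cpl n N) (j0 : Fin N) (W : Model n N)
    (D : Set (E n)) (X Y : E n → E n) (S : E n → EndF N) (s : Fin N → M → Fib N)
    (t : Fin n → M → Fib N) : Prop where
  rel : RelOpen D
  sub : D ⊆ tg n q
  z0 : z 0 = 0
  rpos : 0 < r
  pull : IsPull (P.loc q) W.toLD D (HB z r) X Y S
  model : IsModel κ cp j0 W (HB z r)
  bd : ∀ y ∈ HB z r, y 0 = 0 → y ∈ D ∧ X y = y ∧ Y y = y ∧ S y = 1 ∧ (xc n q).symm y ∈ Γ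
  bdD : ∀ x ∈ D, x 0 = 0 → x ∈ HB z r
  frame : ∀ x ∈ D, ∀ v : Fib N, S x v = ∑ j, v j • lu (𝓡∂ n) q (s j) x
  coord : ∀ x ∈ D, ∀ a, lu (𝓡∂ n) q (t a) x = S x (W.c a (X x))

/-- Both models near the boundary point. -/
def CSetup_statement : Prop :=
  ∀ (n N : ℕ) [NeZero n] (M : Type u) [TopologicalSpace M] [ChartedSpace (EuclideanHalfSpace n) M]
    [IsManifold (𝓡∂ n) ∞ M] [T2Space M] [CompactSpace M] [ConnectedSpace M] [MeasurableSpace M]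
    [BorelSpace M] (P Q : One n N M) (Γ : Set M) (κ₁ κ₂ : ℝ) (cp : Cpl n N), 2 ≤ n → 0 < N → RelBd n Γ →
    Γ.Nonempty → SameD P Q Γ → EYMm κ₁ cp P.g P.A → EYMm κ₂ cp Q.g Q.A →
    ∃ (j0 : Fin N) (q : M) (z : E n) (r₀ : ℝ) (s : Fin N → (M → Fib N) × (M → Fib N))
      (t : Fin n → (M → Fib N) × (M → Fib N)) (W₁ W₂ : Model n N) (X₁ Y₁ X₂ Y₂ : E n → E n)
      (S₁ S₂ : E n → EndF N), 0 < r₀ ∧ (∀ j, s j ∈ PP P Q Γ) ∧ (∀ a, t a ∈ PP P Q Γ) ∧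
      ∀ r, 0 < r → r ≤ r₀ → ∃ D₁ D₂ : Set (E n),
        BdM P Γ q z r κ₁ cp j0 W₁ D₁ X₁ Y₁ S₁ (fun j => (s j).1) (fun a => (t a).1) ∧
        BdM Q Γ q z r κ₂ cp j0 W₂ D₂ X₂ Y₂ S₂ (fun j => (s j).2) (fun a => (t a).2)

/-- The energy relation for one pair. -/
def CRel1_statement : Prop :=
  ∀ (n N : ℕ) [NeZero n] (M : Type u) [TopologicalSpace M] [ChartedSpace (EuclideanHalfSpace n) M]
    [IsManifold (𝓡∂ n) ∞ M] [T2Space M] [CompactSpace M] [ConnectedSpace M] [MeasurableSpace M]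
    [BorelSpace M] (P : One n N M) (Γ : Set M) (q : M) (z : E n) (r₀ κ : ℝ) (cp : Cpl n N) (j0 : Fin N)
    (W : Model n N) (D : Set (E n)) (X Y : E n → E n) (S : E n → EndF N) (s : Fin N → M → Fib N)
    (t : Fin n → M → Fib N), BdM P Γ q z r₀ κ cp j0 W D X Y S s t → P.HasSol Γ →
    RelBd n Γ → Γ.Nonempty → ∀ r, 0 < r → r < r₀ → ∃ C : ℝ, 0 ≤ C ∧
      ∃ Z : (E n → Fib N) → M → Fib N,
        (∀ c, TstH z r c → SmS n (Z c) ∧ tsupport (Z c) ⊆ (xc n q).symm '' D ∧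
          (∀ x ∈ D, (X x ∈ Metric.ball z r → Z c ((xc n q).symm x) = S x (c (X x))) ∧
            (X x ∉ Metric.ball z r → Z c ((xc n q).symm x) = 0)) ∧
          (∀ y ∈ HB z r, y 0 = 0 → Z c ((xc n q).symm y) = c y) ∧
          (∀ m ∈ (𝓡∂ n).boundary M, (∀ y ∈ HB z r, y 0 = 0 → m ≠ (xc n q).symm y) → Z c m = 0) ∧
          IsBdryData (𝓡∂ n) Γ (Z c)) ∧
        (∀ c, TstH z r c → ∀ v : M → Fib N, SmS n v → ∀ d : E n → Fib N,
          ContDiffOn ℝ ∞ d (HB z r₀) → (∀ x ∈ D, lu (𝓡∂ n) q v x = S x (d (X x))) →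
          P.E (Z c) v = En W.toLD (HB z r) c d) ∧
        ∀ c d, TstH z r c → TstH z r d →
          ∀ u v : M → Fib N, P.Harm (Z c) u → P.Harm (Z d) v →
            ‖En W.toLD (HB z r) c d - P.E u v‖ ≤ C * Rem W.toLD z r c * Rem W.toLD z r d ∧
            (P.E u u).re ≤ (En W.toLD (HB z r) c c).re

/-- The energy relation and the equality of the fluxes. -/
def CERel_statement : Prop :=
  ∀ (n N : ℕ) [NeZero n] (M : Type u) [TopologicalSpace M] [ChartedSpace (EuclideanHalfSpace n) M]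
    [IsManifold (𝓡∂ n) ∞ M] [T2Space M] [CompactSpace M] [ConnectedSpace M] [MeasurableSpace M]
    [BorelSpace M] (P Q : One n N M) (Γ : Set M) (q : M) (z : E n) (r₀ κ₁ κ₂ : ℝ) (cp : Cpl n N)
    (j0 : Fin N) (W₁ W₂ : Model n N) (D₁ D₂ : Set (E n)) (X₁ Y₁ X₂ Y₂ : E n → E n)
    (S₁ S₂ : E n → EndF N) (s : Fin N → (M → Fib N) × (M → Fib N))
    (t : Fin n → (M → Fib N) × (M → Fib N)),
    BdM P Γ q z r₀ κ₁ cp j0 W₁ D₁ X₁ Y₁ S₁ (fun j => (s j).1) (fun a => (t a).1) →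
    BdM Q Γ q z r₀ κ₂ cp j0 W₂ D₂ X₂ Y₂ S₂ (fun j => (s j).2) (fun a => (t a).2) →
    (∀ j, s j ∈ PP P Q Γ) → (∀ a, t a ∈ PP P Q Γ) → RelBd n Γ → Γ.Nonempty → SameD P Q Γ →
    ∀ r, 0 < r → r < r₀ →
      (∃ C : ℝ, ERel W₁.toLD W₂.toLD z r C) ∧
      ∀ u ∈ PP P Q Γ, ∀ x ∈ HB z r, x 0 = 0 →
        (fun y => Ring.inverse (S₁ (Y₁ y)) (lu (𝓡∂ n) q u.1 (Y₁ y))) x =
          (fun y => Ring.inverse (S₂ (Y₂ y)) (lu (𝓡∂ n) q u.2 (Y₂ y))) x ∧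
        flux W₁.toLD 0 (fun y => Ring.inverse (S₁ (Y₁ y)) (lu (𝓡∂ n) q u.1 (Y₁ y))) x =
          flux W₂.toLD 0 (fun y => Ring.inverse (S₂ (Y₂ y)) (lu (𝓡∂ n) q u.2 (Y₂ y))) x

/-- Match near the boundary. -/
def CNear_statement : Prop :=
  ∀ (n N : ℕ) [NeZero n] (M : Type u) [TopologicalSpace M] [ChartedSpace (EuclideanHalfSpace n) M]
    [IsManifold (𝓡∂ n) ∞ M] [T2Space M] [CompactSpace M] [ConnectedSpace M] [MeasurableSpace M]
    [BorelSpace M] (P Q : One n N M) (Γ : Set M) (κ₁ κ₂ : ℝ) (cp : Cpl n N), 3 ≤ n → 0 < N → RelBd n Γ →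
    Γ.Nonempty → SameD P Q Γ → EYMm κ₁ cp P.g P.A → EYMm κ₂ cp Q.g Q.A →
    κ₁ = κ₂ ∧ ∃ (O : Set M) (φ : M → M) (V : M → EndF N), LMatch P Q Γ O φ V ∧ O.Nonempty

/-- Limits of good points, part 2: good points are closed in the interior. -/
def CClosed_statement : Prop :=
  ∀ (n N : ℕ) [NeZero n] (M : Type u) [TopologicalSpace M] [ChartedSpace (EuclideanHalfSpace n) M]
    [IsManifold (𝓡∂ n) ∞ M] [T2Space M] [CompactSpace M] [ConnectedSpace M] [MeasurableSpace M]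
    [BorelSpace M] (P Q : One n N M) (Γ : Set M) (κ : ℝ) (cp : Cpl n N), 3 ≤ n → 0 < N → RelBd n Γ →
    Γ.Nonempty → SameD P Q Γ → EYMm κ cp P.g P.A → EYMm κ cp Q.g Q.A →
    ∀ x₀ ∈ Mi n M, x₀ ∈ closure (Gd P Q Γ) → x₀ ∈ Gd P Q Γ

/-- The global match on the interior. -/
def CGlobal_statement : Prop :=
  ∀ (n N : ℕ) [NeZero n] (M : Type u) [TopologicalSpace M] [ChartedSpace (EuclideanHalfSpace n) M]
    [IsManifold (𝓡∂ n) ∞ M] [T2Space M] [CompactSpace M] [ConnectedSpace M] [MeasurableSpace M]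
    [BorelSpace M] (P Q : One n N M) (Γ : Set M) (κ₁ κ₂ : ℝ) (cp : Cpl n N), 3 ≤ n → 0 < N → RelBd n Γ →
    Γ.Nonempty → SameD P Q Γ → EYMm κ₁ cp P.g P.A → EYMm κ₂ cp Q.g Q.A →
    ∃ (Φ Ψ : M → M) (V V' : M → EndF N),
      (∀ x ∈ Mi n M, ∃ O, x ∈ O ∧ LMatch P Q Γ O Φ V) ∧
      (∀ x ∈ Mi n M, ∃ O, x ∈ O ∧ LMatch Q P Γ O Ψ V') ∧
      ∀ x ∈ Mi n M, Φ (Ψ x) = x ∧ Ψ (Φ x) = x

/-- The main theorem in abstract form. -/
def CMain_statement : Prop :=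
  ∀ (n N : ℕ) [NeZero n] (M : Type u) [TopologicalSpace M] [ChartedSpace (EuclideanHalfSpace n) M]
    [IsManifold (𝓡∂ n) ∞ M] [T2Space M] [CompactSpace M] [ConnectedSpace M] [MeasurableSpace M]
    [BorelSpace M] (P Q : One n N M) (Γ : Set M) (κ₁ κ₂ : ℝ) (cp : Cpl n N), 3 ≤ n → 0 < N → RelBd n Γ →
    Γ.Nonempty → SameD P Q Γ → EYMm κ₁ cp P.g P.A → EYMm κ₂ cp Q.g Q.A →
    GaugeEquivalent Γ P.g P.A Q.g Q.A

end Vale.Agent.P088.EYM.G

end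

end

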