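import Vale.Agent.P088.H820.Sq

/-!
# P088, general natural couplings: the elliptic inequality for two models and rigidity
(adapted from `Vale.Agent.P088.Bdl.B4`)
-/

section

open MeasureTheory Set Filter Topology

open scoped ContDiff

noncomputable section

namespace Vale.Agent.P088.EYM.G

set_option linter.unusedSectionVars false

variable {n N : ℕ} [NeZero n]

section Exp

variable {D : Set (E n)} {L : LD n N} {c : E n → Fib N} {x : E n}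

end Exp

section Mod

/-- `∑ g^{ij} Γ^a_{ij} = H^a` -/
theorem model_harm {κ : ℝ} {cp : Cpl n N} {j0 : Fin N} {W : Model n N} {D : Set (E n)} (hD : RelOpen D)
    (hW : IsModel κ cp j0 W D) {x : E n} (hx : x ∈ D) (a : Fin n) :
    ∑ i, ∑ j, (W.g x)⁻¹ i j * chr W.g a i j x = Hco W j0 a x := by
  have hf : ∀ v : Fib N, Lop W.toLD (fun _ => v) x = 0 := fun v => (hW.frame v).2 x hx
  have hc := (hW.sol a).1
  have h1 := eqs_c hD hW.ok hf hc ((hW.sol a).2 x hx) hx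
  have hT : EqOn (fun y => eqsRe j0 (W.c a y)) (fun y => y a) D := fun y hy => hW.re a y hy
  have hT1 : ∀ k, ∀ y ∈ D, eqsRe j0 (pd k (W.c a) y) = if k = a then 1 else 0 := by
    intro k y hy
    rw [← hD.pd_clm (eqsRe j0) hc hy k, hD.pd_congr hT hy k, eqs_pd_coord (hD.subset hy)]
  have hT2 : ∀ j k, eqsRe j0 (pd j (pd k (W.c a)) x) = 0 := by
    intro j k
    rw [← hD.pd_clm (eqsRe j0) (hD.pd_smooth hc k) hx j]
    have h2 : EqOn (fun y => eqsRe j0 (pd k (W.c a) y)) (fun _ => if k = a then (1 : ℝ) else 0) D :=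
      fun y hy => hT1 k y hy
    rw [hD.pd_congr h2 hx j, pd_const]
  have h3 := congrArg (eqsRe j0) h1
  rw [map_sub] at h3
  simp only [map_sum, map_smul, hT2, hT1 _ x hx, smul_eq_mul, mul_zero, Finset.sum_const_zero,
    mul_ite, mul_one, Finset.sum_ite_eq', Finset.mem_univ, if_true] at h3
  rw [Hco, ← eqsRe_apply]
  simp only [map_sum, map_smul, smul_eq_mul]
  change eqsH W.g a x = _
  (clear κ cp D hD hW hx hf hc h1 hT hT1 hT2; linarith)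

theorem model_c {κ : ℝ} {cp : Cpl n N} {j0 : Fin N} {W : Model n N} {D : Set (E n)} (hD : RelOpen D)
    (hW : IsModel κ cp j0 W D) {x : E n} (hx : x ∈ D) (a : Fin n) :
    ∑ j, ∑ k, (W.g x)⁻¹ j k • pd j (pd k (W.c a)) x =
      ∑ k, Hco W j0 k x • pd k (W.c a) x -
        ∑ j, ∑ k, (2 * (W.g x)⁻¹ j k) • W.B j x (pd k (W.c a) x) := by
  have hf : ∀ v : Fib N, Lop W.toLD (fun _ => v) x = 0 := fun v => (hW.frame v).2 x hx
  have h1 := eqs_c hD hW.ok hf (hW.sol a).1 ((hW.sol a).2 x hx) hx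
  rw [h1]
  congr 1
  exact Finset.sum_congr rfl fun k _ => by
    rw [← model_harm hD hW hx k]
    rfl

theorem model_B {κ : ℝ} {cp : Cpl n N} {j0 : Fin N} {W : Model n N} {D : Set (E n)} (hD : RelOpen D)
    (hW : IsModel κ cp j0 W D) {x : E n} (hx : x ∈ D) :
    ∑ j, ∑ k, (W.g x)⁻¹ j k • pd j (W.B k) x =
      ∑ k, Hco W j0 k x • W.B k x - ∑ j, ∑ k, (W.g x)⁻¹ j k • (W.B j x * W.B k x) := by
  have hL := hW.ok
  ext1 v
  have h1 : Lop W.toLD (fun _ => v) x = 0 := (hW.frame v).2 x hx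
  rw [eqs_frame hD hL v hx] at h1
  simp only [Finset.sum_add_distrib] at h1
  have hs := eqs_sqrt_pos (hL.g_pos x hx)
  set s := Real.sqrt (W.g x).det with hs'
  have e1 : ∑ j, ∑ k, gg W.g j k x • pd j (W.B k) x v =
      s • ∑ j, ∑ k, (W.g x)⁻¹ j k • pd j (W.B k) x v := by
    simp only [Finset.smul_sum, smul_smul]
    rfl
  have e2 : ∑ j, ∑ k, pd j (gg W.g j k) x • W.B k x v =
      -(s • ∑ k, Hco W j0 k x • W.B k x v) := by
    rw [Finset.sum_comm]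
    simp only [← Finset.sum_smul, hD.sum_pd_gg hL.g_smooth hL.g_pos hx, model_harm hD hW hx,
      Finset.smul_sum, smul_smul, ← Finset.sum_neg_distrib, ← neg_smul]
    rfl
  have e3 : ∑ j, ∑ k, gg W.g j k x • W.B j x (W.B k x v) =
      s • ∑ j, ∑ k, (W.g x)⁻¹ j k • W.B j x (W.B k x v) := by
    simp only [Finset.smul_sum, smul_smul]
    rfl
  rw [e1, e2, e3, ← smul_neg, ← smul_add, ← smul_add] at h1
  have h2 := (smul_eq_zero.1 h1).resolve_left hs.ne'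
  simp only [sum_apply, smul_apply, sub_apply, mul_apply_eq_comp]
  rw [← sub_eq_zero, ← h2]
  abel

end Mod

section Ric

variable {D : Set (E n)} {g : E n → Matrix (Fin n) (Fin n) ℝ} {x : E n}

end Ric

end Vale.Agent.P088.EYM.G

end

end

section

open MeasureTheory Set Filter Topology Asymptotics

open scoped ContDiff

noncomputable section

namespace Vale.Agent.P088.EYM.G

set_option linter.unusedSectionVars false

variable {n N : ℕ} [NeZero n]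

variable {V V' : Type*} [NormedAddCommGroup V] [NormedSpace ℝ V] [NormedAddCommGroup V']
  [NormedSpace ℝ V']

theorem Wv_smooth {κ : ℝ} {cp : Cpl n N} {j0 : Fin N} {W : Model n N} {D : Set (E n)} (hD : RelOpen D)
    (hW : IsModel κ cp j0 W D) : ContDiffOn ℝ ∞ (Wv W) D := by
  refine ContDiffOn.prodMk (contDiffOn_pi.2 fun i => contDiffOn_pi.2 fun j => hW.ok.g_smooth i j)
    (ContDiffOn.prodMk (contDiffOn_pi.2 fun i => hW.ok.B_smooth i)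
    (ContDiffOn.prodMk hW.ok.h_smooth (ContDiffOn.prodMk (contDiffOn_pi.2 fun a => (hW.sol a).1)
      (contDiffOn_pi.2 fun a => contDiffOn_pi.2 fun k => hD.pd_smooth (hW.sol a).1 k))))

theorem diffWv_smooth {κ : ℝ} {cp : Cpl n N} {j0 : Fin N} {W₁ W₂ : Model n N} {D : Set (E n)} (hD : RelOpen D)
    (h₁ : IsModel κ cp j0 W₁ D) (h₂ : IsModel κ cp j0 W₂ D) :
    ContDiffOn ℝ ∞ (fun y => Wv W₁ y - Wv W₂ y) D := (Wv_smooth hD h₁).sub (Wv_smooth hD h₂)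

/-- every linear component of `W` is similar to first order -/
theorem sim1_comp {κ : ℝ} {cp : Cpl n N} {j0 : Fin N} {W₁ W₂ : Model n N} {D : Set (E n)} (hD : RelOpen D)
    (h₁ : IsModel κ cp j0 W₁ D) (h₂ : IsModel κ cp j0 W₂ D) {z : E n} (hz : z ∈ D)
    (T : VV n N →L[ℝ] V) :
    Sim1 D z (om W₁ W₂) (fun x => T (Wv W₁ x)) (fun x => T (Wv W₂ x)) :=
  sim1_gen hD hz (Wv_smooth hD h₁) (Wv_smooth hD h₂) T

section Comp

variable {κ : ℝ} {cp : Cpl n N} {j0 : Fin N} {W₁ W₂ : Model n N} {D : Set (E n)} {z : E n}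

theorem s1_g (hD : RelOpen D)
    (h₁ : IsModel κ cp j0 W₁ D) (h₂ : IsModel κ cp j0 W₂ D) (hz : z ∈ D) (i j : Fin n) :
    Sim1 D z (om W₁ W₂) (fun x => W₁.g x i j) (fun x => W₂.g x i j) :=
  sim1_comp hD h₁ h₂ hz ((ContinuousLinearMap.proj (R := ℝ) (φ := fun _ : Fin n => ℝ) j).comp
    ((ContinuousLinearMap.proj (R := ℝ) (φ := fun _ : Fin n => Fin n → ℝ) i).comp
      (ContinuousLinearMap.fst ℝ _ _)))

theorem s1_B (hD : RelOpen D)
    (h₁ : IsModel κ cp j0 W₁ D) (h₂ : IsModel κ cp j0 W₂ D) (hz : z ∈ D) (i : Fin n) :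
    Sim1 D z (om W₁ W₂) (W₁.B i) (W₂.B i) :=
  sim1_comp hD h₁ h₂ hz ((ContinuousLinearMap.proj (R := ℝ) (φ := fun _ : Fin n => EndF N) i).comp
    ((ContinuousLinearMap.fst ℝ _ _).comp (ContinuousLinearMap.snd ℝ _ _)))

theorem s1_h (hD : RelOpen D)
    (h₁ : IsModel κ cp j0 W₁ D) (h₂ : IsModel κ cp j0 W₂ D) (hz : z ∈ D) :
    Sim1 D z (om W₁ W₂) W₁.h W₂.h :=
  sim1_comp hD h₁ h₂ hz ((ContinuousLinearMap.fst ℝ _ _).comp
    ((ContinuousLinearMap.snd ℝ _ _).comp (ContinuousLinearMap.snd ℝ _ _)))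

theorem s1_p (hD : RelOpen D)
    (h₁ : IsModel κ cp j0 W₁ D) (h₂ : IsModel κ cp j0 W₂ D) (hz : z ∈ D) (a k : Fin n) :
    Sim1 D z (om W₁ W₂) (pd k (W₁.c a)) (pd k (W₂.c a)) :=
  sim1_comp hD h₁ h₂ hz ((ContinuousLinearMap.proj (R := ℝ) (φ := fun _ : Fin n => Fib N) k).comp
    ((ContinuousLinearMap.proj (R := ℝ) (φ := fun _ : Fin n => Fin n → Fib N) a).comp
    ((ContinuousLinearMap.snd ℝ _ _).comp ((ContinuousLinearMap.snd ℝ _ _).comp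
    ((ContinuousLinearMap.snd ℝ _ _).comp (ContinuousLinearMap.snd ℝ _ _))))))

theorem s1_gi (hD : RelOpen D)
    (h₁ : IsModel κ cp j0 W₁ D) (h₂ : IsModel κ cp j0 W₂ D) (hz : z ∈ D) (i j : Fin n) :
    Sim1 D z (om W₁ W₂) (fun x => (W₁.g x)⁻¹ i j) (fun x => (W₂.g x)⁻¹ i j) :=
  Sim1.minv hD hz h₁.ok.g_pos h₂.ok.g_pos (fun i j => s1_g hD h₁ h₂ hz i j) i j

theorem s1_twoB (hD : RelOpen D)
    (h₁ : IsModel κ cp j0 W₁ D) (h₂ : IsModel κ cp j0 W₂ D) (hz : z ∈ D) (a : Fin n) :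
    Sim1 D z (om W₁ W₂) (fun x => ∑ j, ∑ k, (2 * (W₁.g x)⁻¹ j k) • W₁.B j x (pd k (W₁.c a) x))
      (fun x => ∑ j, ∑ k, (2 * (W₂.g x)⁻¹ j k) • W₂.B j x (pd k (W₂.c a) x)) :=
  Sim1.sum hD hz _ fun j _ => Sim1.sum hD hz _ fun k _ =>
    Sim1.smul hD hz (Sim1.rsmul hD hz 2 (s1_gi hD h₁ h₂ hz j k))
      (Sim1.eval hD hz (s1_B hD h₁ h₂ hz j) (s1_p hD h₁ h₂ hz a k))

theorem s1_H (hD : RelOpen D)
    (h₁ : IsModel κ cp j0 W₁ D) (h₂ : IsModel κ cp j0 W₂ D) (hz : z ∈ D) (a : Fin n) :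
    Sim1 D z (om W₁ W₂) (Hco W₁ j0 a) (Hco W₂ j0 a) :=
  Sim1.clm hD hz (dfReC j0) (s1_twoB hD h₁ h₂ hz a)

theorem s1_Rc (hD : RelOpen D)
    (h₁ : IsModel κ cp j0 W₁ D) (h₂ : IsModel κ cp j0 W₂ D) (hz : z ∈ D) (a : Fin n) :
    Sim1 D z (om W₁ W₂) (DfRc W₁ j0 a) (DfRc W₂ j0 a) :=
  Sim1.sub hD hz (Sim1.sum hD hz _ fun k _ => Sim1.smul hD hz (s1_H hD h₁ h₂ hz k)
    (s1_p hD h₁ h₂ hz a k)) (s1_twoB hD h₁ h₂ hz a)

theorem s1_RB (hD : RelOpen D)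
    (h₁ : IsModel κ cp j0 W₁ D) (h₂ : IsModel κ cp j0 W₂ D) (hz : z ∈ D) :
    Sim1 D z (om W₁ W₂) (DfRB W₁ j0) (DfRB W₂ j0) :=
  Sim1.sub hD hz (Sim1.sum hD hz _ fun k _ => Sim1.smul hD hz (s1_H hD h₁ h₂ hz k)
    (s1_B hD h₁ h₂ hz k)) (Sim1.sum hD hz _ fun j _ => Sim1.sum hD hz _ fun k _ =>
      Sim1.smul hD hz (s1_gi hD h₁ h₂ hz j k) (Sim1.mul hD hz (s1_B hD h₁ h₂ hz j)
        (s1_B hD h₁ h₂ hz k)))

/-- the second derivatives of `c` are similar -/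
theorem s_ddc (hD : RelOpen D)
    (h₁ : IsModel κ cp j0 W₁ D) (h₂ : IsModel κ cp j0 W₂ D) (hz : z ∈ D) (a j k : Fin n) :
    Sim (𝓝[Hs n] z) (om W₁ W₂) (pd j (pd k (W₁.c a))) (pd j (pd k (W₂.c a))) :=
  (s1_p hD h₁ h₂ hz a k).dsim j

theorem c_smooth (h₁ : IsModel κ cp j0 W₁ D) (a : Fin n) : ContDiffOn ℝ ∞ (W₁.c a) D :=
  (h₁.sol a).1

theorem PP_c_eq (hD : RelOpen D) (h₁ : IsModel κ cp j0 W₁ D) (a : Fin n) :
    EqOn (DfP W₁.g (W₁.c a)) (DfRc W₁ j0 a) D := fun x hx => model_c hD h₁ hx a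

theorem s_PPc (hD : RelOpen D)
    (h₁ : IsModel κ cp j0 W₁ D) (h₂ : IsModel κ cp j0 W₂ D) (hz : z ∈ D) (a : Fin n) :
    Sim (𝓝[Hs n] z) (om W₁ W₂) (DfP W₁.g (W₁.c a)) (DfP W₂.g (W₂.c a)) := by
  refine Sim.congr (s1_Rc hD h₁ h₂ hz a).sim ?_ ?_
  · filter_upwards [hD.mem_nhds hz] with x hx
    exact (PP_c_eq hD h₁ a hx).symm
  · filter_upwards [hD.mem_nhds hz] with x hx
    exact (PP_c_eq hD h₂ a hx).symm

/-- derivative of the principal part -/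
theorem pd_PP (hD : RelOpen D) (h₁ : IsModel κ cp j0 W₁ D) {f : E n → V}
    (hf : ContDiffOn ℝ ∞ f D) {x : E n} (hx : x ∈ D) (m : Fin n) :
    DfP W₁.g (pd m f) x = pd m (DfP W₁.g f) x -
      ∑ j, ∑ k, pd m (fun y => (W₁.g y)⁻¹ j k) x • pd j (pd k f) x := by
  have hi : ∀ j k, ContDiffOn ℝ ∞ (fun y => (W₁.g y)⁻¹ j k) D :=
    fun j k => hD.smM_inv h₁.ok.g_smooth h₁.ok.g_pos j k
  have hs : ∀ j k, ContDiffOn ℝ ∞ (fun y => (W₁.g y)⁻¹ j k • pd j (pd k f) y) D := fun j k =>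
    (hi j k).smul (hD.pd_smooth (hD.pd_smooth hf k) j)
  have e1 : pd m (DfP W₁.g f) x = ∑ j, ∑ k, ((W₁.g x)⁻¹ j k • pd m (pd j (pd k f)) x +
      pd m (fun y => (W₁.g y)⁻¹ j k) x • pd j (pd k f) x) := by
    have e2 : pd m (DfP W₁.g f) x = ∑ j, pd m (fun y => ∑ k, (W₁.g y)⁻¹ j k • pd j (pd k f) y) x :=
      hD.pd_sum _ (fun j _ => ContDiffOn.sum fun k _ => hs j k) hx m
    rw [e2]
    refine Finset.sum_congr rfl fun j _ => ?_
    have e3 : pd m (fun y => ∑ k, (W₁.g y)⁻¹ j k • pd j (pd k f) y) x =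
        ∑ k, pd m (fun y => (W₁.g y)⁻¹ j k • pd j (pd k f) y) x :=
      hD.pd_sum _ (fun k _ => hs j k) hx m
    rw [e3]
    exact Finset.sum_congr rfl fun k _ => hD.pd_smul (hi j k) (hD.pd_smooth (hD.pd_smooth hf k) j) hx m
  rw [e1]
  simp only [Finset.sum_add_distrib, add_sub_cancel_right]
  unfold DfP
  refine Finset.sum_congr rfl fun j _ => Finset.sum_congr rfl fun k _ => ?_
  have e2 : pd j (pd k (pd m f)) x = pd m (pd j (pd k f)) x := by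
    rw [hD.pd_comm (hD.pd_smooth hf k) hx m j]
    exact hD.pd_congr (fun y hy => hD.pd_comm hf hy k m) hx j
  rw [e2]

theorem s_PPp (hD : RelOpen D)
    (h₁ : IsModel κ cp j0 W₁ D) (h₂ : IsModel κ cp j0 W₂ D) (hz : z ∈ D) (a m : Fin n) :
    Sim (𝓝[Hs n] z) (om W₁ W₂) (DfP W₁.g (pd m (W₁.c a))) (DfP W₂.g (pd m (W₂.c a))) := by
  have key : Sim (𝓝[Hs n] z) (om W₁ W₂)
      (fun x => pd m (DfRc W₁ j0 a) x -
        ∑ j, ∑ k, pd m (fun y => (W₁.g y)⁻¹ j k) x • pd j (pd k (W₁.c a)) x)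
      (fun x => pd m (DfRc W₂ j0 a) x -
        ∑ j, ∑ k, pd m (fun y => (W₂.g y)⁻¹ j k) x • pd j (pd k (W₂.c a)) x) :=
    Sim.sub ((s1_Rc hD h₁ h₂ hz a).dsim m) (Sim.sum _ fun j _ => Sim.sum _ fun k _ =>
      Sim.smul ((s1_gi hD h₁ h₂ hz j k).dsim m) (s_ddc hD h₁ h₂ hz a j k))
  refine Sim.congr key ?_ ?_
  · filter_upwards [hD.mem_nhds hz] with x hx
    rw [pd_PP hD h₁ (c_smooth h₁ a) hx m, hD.pd_congr (PP_c_eq hD h₁ a) hx m]
  · filter_upwards [hD.mem_nhds hz] with x hx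
    rw [pd_PP hD h₂ (c_smooth h₂ a) hx m, hD.pd_congr (PP_c_eq hD h₂ a) hx m]

theorem s_PPh (hD : RelOpen D)
    (h₁ : IsModel κ cp j0 W₁ D) (h₂ : IsModel κ cp j0 W₂ D) (hz : z ∈ D) :
    Sim (𝓝[Hs n] z) (om W₁ W₂) (DfP W₁.g W₁.h) (DfP W₂.g W₂.h) := by
  have hk : ∀ k, Sim1 D z (om W₁ W₂)
      (fun x => ContinuousLinearMap.adjoint (W₁.B k x) * W₁.h x + W₁.h x * W₁.B k x)
      (fun x => ContinuousLinearMap.adjoint (W₂.B k x) * W₂.h x + W₂.h x * W₂.B k x) := fun k =>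
    Sim1.add hD hz (Sim1.mul hD hz (Sim1.clm hD hz adjRE (s1_B hD h₁ h₂ hz k))
      (s1_h hD h₁ h₂ hz)) (Sim1.mul hD hz (s1_h hD h₁ h₂ hz) (s1_B hD h₁ h₂ hz k))
  have key := Sim.sum (l := 𝓝[Hs n] z) (w := om W₁ W₂) Finset.univ (F₁ := fun j x => ∑ k, (W₁.g x)⁻¹ j k •
      pd j (fun x => ContinuousLinearMap.adjoint (W₁.B k x) * W₁.h x + W₁.h x * W₁.B k x) x)
      (F₂ := fun j x => ∑ k, (W₂.g x)⁻¹ j k •
      pd j (fun x => ContinuousLinearMap.adjoint (W₂.B k x) * W₂.h x + W₂.h x * W₂.B k x) x)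
      (fun j _ => Sim.sum _ fun k _ =>
    Sim.smul (s1_gi hD h₁ h₂ hz j k).sim ((hk k).dsim j))
  refine Sim.congr key ?_ ?_
  · filter_upwards [hD.mem_nhds hz] with x hx
    refine Finset.sum_congr rfl fun j _ => Finset.sum_congr rfl fun k _ => ?_
    rw [hD.pd_congr (fun y hy => h₁.ok.compat y hy k) hx j]
  · filter_upwards [hD.mem_nhds hz] with x hx
    refine Finset.sum_congr rfl fun j _ => Finset.sum_congr rfl fun k _ => ?_
    rw [hD.pd_congr (fun y hy => h₂.ok.compat y hy k) hx j]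

theorem s_cur (hD : RelOpen D)
    (h₁ : IsModel κ cp j0 W₁ D) (h₂ : IsModel κ cp j0 W₂ D) (hz : z ∈ D) (j k : Fin n) :
    Sim (𝓝[Hs n] z) (om W₁ W₂) (cur W₁.B j k) (cur W₂.B j k) :=
  Sim.add (Sim.sub ((s1_B hD h₁ h₂ hz k).dsim j) ((s1_B hD h₁ h₂ hz j).dsim k))
    (Sim.sub (Sim.mul (s1_B hD h₁ h₂ hz j).sim (s1_B hD h₁ h₂ hz k).sim)
      (Sim.mul (s1_B hD h₁ h₂ hz k).sim (s1_B hD h₁ h₂ hz j).sim))

theorem s_chr (hD : RelOpen D)
    (h₁ : IsModel κ cp j0 W₁ D) (h₂ : IsModel κ cp j0 W₂ D) (hz : z ∈ D) (k i j : Fin n) :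
    Sim (𝓝[Hs n] z) (om W₁ W₂) (chr W₁.g k i j) (chr W₂.g k i j) :=
  Sim.mul (Sim.const _) (Sim.sum _ fun l _ => Sim.mul (s1_gi hD h₁ h₂ hz k l).sim
    (Sim.sub (Sim.add ((s1_g hD h₁ h₂ hz l j).dsim i) ((s1_g hD h₁ h₂ hz l i).dsim j))
      ((s1_g hD h₁ h₂ hz i j).dsim l)))

theorem s_EB (hD : RelOpen D)
    (h₁ : IsModel κ cp j0 W₁ D) (h₂ : IsModel κ cp j0 W₂ D) (hz : z ∈ D) (k : Fin n) :
    Sim (𝓝[Hs n] z) (om W₁ W₂) (DfEB W₁ j0 k) (DfEB W₂ j0 k) := by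
  have hB := fun i => s1_B hD h₁ h₂ hz i
  have hg := fun i j => s1_gi hD h₁ h₂ hz i j
  have hc := fun i j => s_cur hD h₁ h₂ hz i j
  refine Sim.sub (Sim.add (Sim.sub (Sim.sub ((s1_RB hD h₁ h₂ hz).dsim k) ?_) ?_) ?_) ?_
  · exact Sim.sum _ fun i _ => Sim.sum _ fun j _ => Sim.smul ((hg i j).dsim k) ((hB j).dsim i)
  · exact Sim.sum _ fun i _ => Sim.sum _ fun j _ => Sim.smul (hg i j).sim
      ((Sim1.sub hD hz (Sim1.mul hD hz (hB j) (hB k)) (Sim1.mul hD hz (hB k) (hB j))).dsim i)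
  · exact Sim.sum _ fun i _ => Sim.sum _ fun j _ => Sim.smul (hg i j).sim
      (Sim.sum _ fun l _ => Sim.add (Sim.smul (s_chr hD h₁ h₂ hz l i j) (hc l k))
        (Sim.smul (s_chr hD h₁ h₂ hz l i k) (hc j l)))
  · exact Sim.sum _ fun i _ => Sim.sum _ fun j _ => Sim.smul (hg i j).sim
      (Sim.sub (Sim.mul (hB i).sim (hc j k)) (Sim.mul (hc j k) (hB i).sim))

theorem B_smooth' (h₁ : IsModel κ cp j0 W₁ D) (i : Fin n) : ContDiffOn ℝ ∞ (W₁.B i) D :=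
  h₁.ok.B_smooth i

theorem PP_B_eq (hD : RelOpen D) (h₁ : IsModel κ cp j0 W₁ D) (k : Fin n) {x : E n} (hx : x ∈ D) :
    DfP W₁.g (W₁.B k) x = DfEB W₁ j0 k x := by
  have hB := fun i => B_smooth' h₁ i
  have hi : ∀ j k, ContDiffOn ℝ ∞ (fun y => (W₁.g y)⁻¹ j k) D :=
    fun j k => hD.smM_inv h₁.ok.g_smooth h₁.ok.g_pos j k
  -- the mixed term
  have e1 : ∑ i, ∑ j, (W₁.g x)⁻¹ i j • pd i (pd k (W₁.B j)) x = pd k (DfRB W₁ j0) x -
      ∑ i, ∑ j, pd k (fun y => (W₁.g y)⁻¹ i j) x • pd i (W₁.B j) x := by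
    have hs : ∀ i j, ContDiffOn ℝ ∞ (fun y => (W₁.g y)⁻¹ i j • pd i (W₁.B j) y) D := fun i j =>
      (hi i j).smul (hD.pd_smooth (hB j) i)
    have h3 : pd k (DfRB W₁ j0) x = pd k (fun y => ∑ i, ∑ j, (W₁.g y)⁻¹ i j • pd i (W₁.B j) y) x :=
      hD.pd_congr (fun y hy => (model_B hD h₁ hy).symm) hx k
    have h4 : pd k (fun y => ∑ i, ∑ j, (W₁.g y)⁻¹ i j • pd i (W₁.B j) y) x =
        ∑ i, pd k (fun y => ∑ j, (W₁.g y)⁻¹ i j • pd i (W₁.B j) y) x :=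
      hD.pd_sum _ (fun i _ => ContDiffOn.sum fun j _ => hs i j) hx k
    have h5 : ∀ i, pd k (fun y => ∑ j, (W₁.g y)⁻¹ i j • pd i (W₁.B j) y) x =
        ∑ j, pd k (fun y => (W₁.g y)⁻¹ i j • pd i (W₁.B j) y) x := fun i =>
      hD.pd_sum _ (fun j _ => hs i j) hx k
    rw [h3, h4, ← Finset.sum_sub_distrib]
    refine Finset.sum_congr rfl fun i _ => ?_
    rw [h5 i, ← Finset.sum_sub_distrib]
    refine Finset.sum_congr rfl fun j _ => ?_
    rw [hD.pd_smul (hi i j) (hD.pd_smooth (hB j) i) hx k, add_sub_cancel_right,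
      hD.pd_comm (hB j) hx i k]
  -- derivative of the curvature
  have e2 : ∀ i j, pd i (cur W₁.B j k) x = pd i (pd j (W₁.B k)) x - pd i (pd k (W₁.B j)) x +
      pd i (fun y => W₁.B j y * W₁.B k y - W₁.B k y * W₁.B j y) x := by
    intro i j
    have a1 := hD.pd_smooth (hB k) j
    have a2 := hD.pd_smooth (hB j) k
    have a3 : ContDiffOn ℝ ∞ (fun y => W₁.B j y * W₁.B k y - W₁.B k y * W₁.B j y) D :=
      (smooth_mul (hB j) (hB k)).sub (smooth_mul (hB k) (hB j))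
    have b1 := hD.pd_add (a1.sub a2) a3 hx i
    rw [← hD.pd_sub a1 a2 hx i]
    exact b1
  have e3 := h₁.eqs.ym x hx k
  unfold ymE at e3
  simp only [e2, smul_add, smul_sub, Finset.sum_add_distrib, Finset.sum_sub_distrib] at e3
  unfold DfP DfEB
  rw [← e1]
  simp only [smul_sub, Finset.sum_sub_distrib] at e3 ⊢
  simp only [Finset.smul_sum, Finset.sum_add_distrib, smul_add] at e3 ⊢
  refine sub_eq_zero.1 (Eq.trans ?_ e3)
  abel

theorem s_PPB (hD : RelOpen D)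
    (h₁ : IsModel κ cp j0 W₁ D) (h₂ : IsModel κ cp j0 W₂ D) (hz : z ∈ D) (k : Fin n) :
    Sim (𝓝[Hs n] z) (om W₁ W₂) (DfP W₁.g (W₁.B k)) (DfP W₂.g (W₂.B k)) := by
  refine Sim.congr (s_EB hD h₁ h₂ hz k) ?_ ?_
  · filter_upwards [hD.mem_nhds hz] with x hx
    exact (PP_B_eq hD h₁ k hx).symm
  · filter_upwards [hD.mem_nhds hz] with x hx
    exact (PP_B_eq hD h₂ k hx).symm

/-- frames close to a given one, with the difference controlled -/
theorem frames (hD : RelOpen D)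
    (h₁ : IsModel κ cp j0 W₁ D) (h₂ : IsModel κ cp j0 W₂ D) (hz : z ∈ D) (heq : W₁.h z = W₂.h z) :
    ∃ (S₁ S₂ : E n → EndF N) (S₀ : EndF N), IsUnit S₀ ∧
      (∀ x ∈ D, IsUnit (S₁ x) ∧ ContinuousLinearMap.adjoint (S₁ x) * S₁ x = W₁.h x ∧
        IsUnit (S₂ x) ∧ ContinuousLinearMap.adjoint (S₂ x) * S₂ x = W₂.h x) ∧
      Tendsto S₁ (𝓝[Hs n] z) (𝓝 S₀) ∧ Tendsto S₂ (𝓝[Hs n] z) (𝓝 S₀) ∧
      (fun x => S₁ x - S₂ x) =O[𝓝[Hs n] z] om W₁ W₂ := by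
  obtain ⟨S₀, hS₀, hS₀h, -⟩ := sq (h₁.ok.h_adj z hz) (h₁.ok.h_pos z hz)
  have e1 : ∀ x, ∃ S : EndF N, x ∈ D → IsUnit S ∧ ContinuousLinearMap.adjoint S * S = W₁.h x ∧
      ‖S - S₀‖ ≤ ‖Ring.inverse S₀‖ ^ 2 * ‖S₀‖ * ‖W₁.h x - W₁.h z‖ := by
    intro x
    by_cases hx : x ∈ D
    · obtain ⟨S, a, b, c⟩ := sqrel hS₀ (h₁.ok.h_adj x hx) (h₁.ok.h_pos x hx)
      rw [hS₀h] at c
      exact ⟨S, fun _ => ⟨a, b, c⟩⟩
    · exact ⟨0, fun h => absurd h hx⟩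
  choose S₁ hS₁ using e1
  have e2 : ∀ x, ∃ S : EndF N, x ∈ D → IsUnit S ∧ ContinuousLinearMap.adjoint S * S = W₂.h x ∧
      ‖S - S₁ x‖ ≤ ‖Ring.inverse (S₁ x)‖ ^ 2 * ‖S₁ x‖ * ‖W₂.h x - W₁.h x‖ := by
    intro x
    by_cases hx : x ∈ D
    · obtain ⟨S, a, b, c⟩ := sqrel (hS₁ x hx).1 (h₂.ok.h_adj x hx) (h₂.ok.h_pos x hx)
      rw [(hS₁ x hx).2.1] at c
      exact ⟨S, fun _ => ⟨a, b, c⟩⟩
    · exact ⟨0, fun h => absurd h hx⟩
  choose S₂ hS₂ using e2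
  have c1 : Tendsto (fun x => W₁.h x) (𝓝[Hs n] z) (𝓝 (W₁.h z)) :=
    (hD.contDiffWithinAt hz h₁.ok.h_smooth).continuousWithinAt.tendsto
  have c2 : Tendsto (fun x => W₂.h x) (𝓝[Hs n] z) (𝓝 (W₁.h z)) := by
    rw [heq]
    exact (hD.contDiffWithinAt hz h₂.ok.h_smooth).continuousWithinAt.tendsto
  have t1 : Tendsto S₁ (𝓝[Hs n] z) (𝓝 S₀) := by
    rw [tendsto_iff_norm_sub_tendsto_zero]
    have a1 : Tendsto (fun x => ‖Ring.inverse S₀‖ ^ 2 * ‖S₀‖ * ‖W₁.h x - W₁.h z‖)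
        (𝓝[Hs n] z) (𝓝 0) := by
      have := ((tendsto_iff_norm_sub_tendsto_zero.1 c1).const_mul (‖Ring.inverse S₀‖ ^ 2 * ‖S₀‖))
      simpa using this
    refine squeeze_zero' (Eventually.of_forall fun x => norm_nonneg _) ?_ a1
    filter_upwards [hD.mem_nhds hz] with x hx using (hS₁ x hx).2.2
  have t1i : Tendsto (fun x => Ring.inverse (S₁ x)) (𝓝[Hs n] z) (𝓝 (Ring.inverse S₀)) := by
    obtain ⟨u, hu⟩ := hS₀
    have := (NormedRing.inverse_continuousAt u)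
    rw [hu] at this
    exact this.tendsto.comp t1
  have t2' : Tendsto (fun x => ‖Ring.inverse (S₁ x)‖ ^ 2 * ‖S₁ x‖ * ‖W₂.h x - W₁.h x‖)
      (𝓝[Hs n] z) (𝓝 0) := by
    have := ((t1i.norm.pow 2).mul t1.norm).mul (c2.sub c1).norm
    simpa using this
  have t2d : Tendsto (fun x => S₂ x - S₁ x) (𝓝[Hs n] z) (𝓝 0) := by
    rw [tendsto_zero_iff_norm_tendsto_zero]
    refine squeeze_zero' (Eventually.of_forall fun x => norm_nonneg _) ?_ t2'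
    filter_upwards [hD.mem_nhds hz] with x hx using (hS₂ x hx).2.2
  have t2 : Tendsto S₂ (𝓝[Hs n] z) (𝓝 S₀) := by
    have := t2d.add t1
    simpa using this
  refine ⟨S₁, S₂, S₀, hS₀, fun x hx => ⟨(hS₁ x hx).1, (hS₁ x hx).2.1, (hS₂ x hx).1,
    (hS₂ x hx).2.1⟩, t1, t2, ?_⟩
  have b1 : (fun x => ‖Ring.inverse (S₁ x)‖ ^ 2 * ‖S₁ x‖) =O[𝓝[Hs n] z] (fun _ => (1 : ℝ)) :=
    ((t1i.norm.pow 2).mul t1.norm).isBigO_one ℝ
  have b2 : (fun x => ‖W₂.h x - W₁.h x‖) =O[𝓝[Hs n] z] om W₁ W₂ := by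
    have := (s1_h hD h₁ h₂ hz).sim.d
    refine IsBigO.norm_left ?_
    exact (IsBigO.neg_left this).congr_left fun x => by simp
  have b3 : (fun x => ‖Ring.inverse (S₁ x)‖ ^ 2 * ‖S₁ x‖ * ‖W₂.h x - W₁.h x‖) =O[𝓝[Hs n] z]
      om W₁ W₂ := by
    have := b1.mul b2
    simpa only [one_mul] using this
  have b4 : (fun x => S₁ x - S₂ x) =O[𝓝[Hs n] z]
      (fun x => ‖Ring.inverse (S₁ x)‖ ^ 2 * ‖S₁ x‖ * ‖W₂.h x - W₁.h x‖) := by
    refine IsBigO.of_bound 1 ?_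
    filter_upwards [hD.mem_nhds hz] with x hx
    rw [one_mul, norm_sub_rev]
    exact ((hS₂ x hx).2.2).trans (le_abs_self _)
  exact b4.trans b3

theorem om_cont (hD : RelOpen D)
    (h₁ : IsModel κ cp j0 W₁ D) (h₂ : IsModel κ cp j0 W₂ D) (hz : z ∈ D) :
    Tendsto (om W₁ W₂) (𝓝[Hs n] z) (𝓝 (om W₁ W₂ z)) := by
  have hs := diffWv_smooth hD h₁ h₂
  have a1 : Tendsto (fun y => Wv W₁ y - Wv W₂ y) (𝓝[Hs n] z) (𝓝 (Wv W₁ z - Wv W₂ z)) :=
    (hD.contDiffWithinAt hz hs).continuousWithinAt.tendsto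
  have a2 : ∀ j, Tendsto (pd j (fun y => Wv W₁ y - Wv W₂ y)) (𝓝[Hs n] z)
      (𝓝 (pd j (fun y => Wv W₁ y - Wv W₂ y) z)) := fun j =>
    (hD.contDiffWithinAt hz (hD.pd_smooth hs j)).continuousWithinAt.tendsto
  exact a1.norm.add (tendsto_finsetSum _ fun j _ => (a2 j).norm)

theorem ric_smooth {D : Set (E n)} (hD : RelOpen D) {g : E n → Matrix (Fin n) (Fin n) ℝ}
    (hg : SmM g D) (hp : ∀ x ∈ D, (g x).PosDef) (j k : Fin n) : ContDiffOn ℝ ∞ (ric g j k) D := by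
  have hc := fun a b c => Ric_chr_smooth hD hg hp a b c
  unfold ric
  exact ContDiffOn.sum fun i _ => ((hD.pd_smooth (hc _ _ _) _).sub (hD.pd_smooth (hc _ _ _) _)).add
    (ContDiffOn.sum fun l _ => ((hc _ _ _).mul (hc _ _ _)).sub ((hc _ _ _).mul (hc _ _ _)))

theorem s_ric (hD : RelOpen D)
    (h₁ : IsModel κ cp j0 W₁ D) (h₂ : IsModel κ cp j0 W₂ D) (hz : z ∈ D) (j k : Fin n) :
    Sim (𝓝[Hs n] z) (om W₁ W₂) (ric W₁.g j k) (ric W₂.g j k) := by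
  have r₁ := ric_smooth hD h₁.ok.g_smooth h₁.ok.g_pos j k
  have r₂ := ric_smooth hD h₂.ok.g_smooth h₂.ok.g_pos j k
  refine ⟨Diff_bdd hD hz r₁, Diff_bdd hD hz r₂, ?_⟩
  have hzH : z ∈ Hs n := hD.subset hz
  by_cases hom : om W₁ W₂ z = 0
  swap
  · -- the weight does not vanish
    have hpos : 0 < om W₁ W₂ z := lt_of_le_of_ne (Diff_om_nonneg W₁ W₂ z) (Ne.symm hom)
    have h1 : (fun x => ric W₁.g j k x - ric W₂.g j k x) =O[𝓝[Hs n] z] (fun _ => (1 : ℝ)) :=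
      (Diff_bdd hD hz r₁).sub (Diff_bdd hD hz r₂)
    refine h1.trans ?_
    refine IsBigO.of_bound (2 / om W₁ W₂ z) ?_
    have h2 := (om_cont hD h₁ h₂ hz).eventually (lt_mem_nhds (half_lt_self hpos))
    filter_upwards [h2] with x hx
    rw [norm_one, Real.norm_of_nonneg (Diff_om_nonneg W₁ W₂ x), div_mul_eq_mul_div, le_div_iff₀ hpos]
    linarith
  -- the models agree to first order at `z`
  have hzero : ∀ {V : Type} [NormedAddCommGroup V] {f₁ f₂ : E n → V},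
      (fun x => f₁ x - f₂ x) =O[𝓝[Hs n] z] om W₁ W₂ → f₁ z = f₂ z := by
    intro V _ f₁ f₂ hf
    obtain ⟨C, hC⟩ := hf.bound
    have := hC.self_of_nhdsWithin hzH
    rw [hom, norm_zero, mul_zero] at this
    exact sub_eq_zero.1 (norm_le_zero_iff.1 this)
  have hg := fun i j => (s1_g hD h₁ h₂ hz i j).sim
  have hF := fun i j => s_cur hD h₁ h₂ hz i j
  have hhz : W₁.h z = W₂.h z := hzero (s1_h hD h₁ h₂ hz).sim.d
  obtain ⟨S₁, S₂, S₀, hS₀, hS, t1, t2, hSd⟩ := frames hD h₁ h₂ hz hhz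
  have ti : ∀ {S : E n → EndF N}, Tendsto S (𝓝[Hs n] z) (𝓝 S₀) →
      Tendsto (fun x => Ring.inverse (S x)) (𝓝[Hs n] z) (𝓝 (Ring.inverse S₀)) := by
    intro S hT
    obtain ⟨u, hu⟩ := hS₀
    have := NormedRing.inverse_continuousAt u
    rw [hu] at this
    exact this.tendsto.comp hT
  have sS : Sim (𝓝[Hs n] z) (om W₁ W₂) S₁ S₂ := ⟨t1.isBigO_one ℝ, t2.isBigO_one ℝ, hSd⟩
  have sI : Sim (𝓝[Hs n] z) (om W₁ W₂) (fun x => Ring.inverse (S₁ x))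
      (fun x => Ring.inverse (S₂ x)) := by
    refine ⟨(ti t1).isBigO_one ℝ, (ti t2).isBigO_one ℝ, ?_⟩
    have a1 : (fun x => Ring.inverse (S₁ x) * (S₁ x - S₂ x) * Ring.inverse (S₂ x))
        =O[𝓝[Hs n] z] om W₁ W₂ := by
      have := (((ti t1).isBigO_one ℝ).mul hSd).mul ((ti t2).isBigO_one ℝ)
      simpa only [one_mul, mul_one] using this
    refine (IsBigO.neg_left a1).congr' ?_ (EventuallyEq.refl _ _)
    filter_upwards [hD.mem_nhds hz] with x hx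
    obtain ⟨u1, -, u2, -⟩ := hS x hx
    have e1 : Ring.inverse (S₁ x) * S₁ x = 1 := Ring.inverse_mul_cancel _ u1
    have e2 : S₂ x * Ring.inverse (S₂ x) = 1 := Ring.mul_inverse_cancel _ u2
    rw [mul_sub, sub_mul, e1, one_mul, mul_assoc, e2, mul_one]
    abel
  have sC : ∀ a b, Sim (𝓝[Hs n] z) (om W₁ W₂) (fun x => curS W₁.toLD (S₁ x) x a b)
      (fun x => curS W₂.toLD (S₂ x) x a b) := fun a b =>
    Sim.mul (Sim.mul sS (hF a b)) sI
  have hFz : ∀ a b, cur W₁.B a b z = cur W₂.B a b z := fun a b => hzero (hF a b).d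
  have hgz : ∀ a b, W₁.g z a b = W₂.g z a b := fun a b => hzero (hg a b).d
  set F₀ : Fin n → Fin n → EndF N := fun a b => S₀ * cur W₁.B a b z * Ring.inverse S₀ with hF₀
  have cF : ∀ (W : Model n N) (h : IsModel κ cp j0 W D) (a b : Fin n),
      Tendsto (fun x => cur W.B a b x) (𝓝[Hs n] z) (𝓝 (cur W.B a b z)) := fun W h a b =>
    (hD.contDiffWithinAt hz (brEq_cur_smooth hD h.ok.B_smooth a b)).continuousWithinAt.tendsto
  have cg : ∀ (W : Model n N) (h : IsModel κ cp j0 W D) (a b : Fin n),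
      Tendsto (fun x => W.g x a b) (𝓝[Hs n] z) (𝓝 (W.g z a b)) := fun W h a b =>
    (hD.contDiffWithinAt hz (h.ok.g_smooth a b)).continuousWithinAt.tendsto
  have l1 : ∀ a b, Tendsto (fun x => curS W₁.toLD (S₁ x) x a b) (𝓝[Hs n] z) (𝓝 (F₀ a b)) :=
    fun a b => (t1.mul (cF W₁ h₁ a b)).mul (ti t1)
  have l2 : ∀ a b, Tendsto (fun x => curS W₂.toLD (S₂ x) x a b) (𝓝[Hs n] z) (𝓝 (F₀ a b)) := by
    intro a b
    have := (t2.mul (cF W₂ h₂ a b)).mul (ti t2)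
    rw [← hFz a b] at this
    exact this
  have m1 : ∀ a b, Tendsto (fun x => W₁.g x a b) (𝓝[Hs n] z) (𝓝 (W₁.g z a b)) := cg W₁ h₁
  have m2 : ∀ a b, Tendsto (fun x => W₂.g x a b) (𝓝[Hs n] z) (𝓝 (W₁.g z a b)) := by
    intro a b
    rw [hgz a b]
    exact cg W₂ h₂ a b
  obtain ⟨C, δ, hδ, hlip⟩ := cp.lip (W₁.g z) F₀ (h₁.ok.g_pos z hz)
  -- the total difference
  set T : E n → ℝ := fun x => ∑ a, ∑ b, |W₁.g x a b - W₂.g x a b| +
    ∑ a, ∑ b, ‖curS W₁.toLD (S₁ x) x a b - curS W₂.toLD (S₂ x) x a b‖ with hT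
  have hTO : T =O[𝓝[Hs n] z] om W₁ W₂ := by
    refine IsBigO.add ?_ ?_
    · exact IsBigO.fun_sum fun a _ => IsBigO.fun_sum fun b _ => (hg a b).d.norm_left
    · exact IsBigO.fun_sum fun a _ => IsBigO.fun_sum fun b _ => (sC a b).d.norm_left
  have near : ∀ {V : Type} [NormedAddCommGroup V] {f : E n → V} {c : V},
      Tendsto f (𝓝[Hs n] z) (𝓝 c) → ∀ᶠ x in 𝓝[Hs n] z, ‖f x - c‖ < δ := by
    intro V _ f c hf
    have := (tendsto_iff_norm_sub_tendsto_zero.1 hf).eventually (gt_mem_nhds hδ)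
    exact this
  have hev : ∀ᶠ x in 𝓝[Hs n] z, ‖(κ * W₁.g x j k + cp.f (W₁.g x) (curS W₁.toLD (S₁ x) x) j k) -
      (κ * W₂.g x j k + cp.f (W₂.g x) (curS W₂.toLD (S₂ x) x) j k)‖ ≤ (|κ| + |C|) * T x := by
    have n1 : ∀ᶠ x in 𝓝[Hs n] z, ∀ a b, |W₁.g x a b - W₁.g z a b| < δ :=
      eventually_all.2 fun a => eventually_all.2 fun b => near (m1 a b)
    have n2 : ∀ᶠ x in 𝓝[Hs n] z, ∀ a b, |W₂.g x a b - W₁.g z a b| < δ :=
      eventually_all.2 fun a => eventually_all.2 fun b => near (m2 a b)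
    have n3 : ∀ᶠ x in 𝓝[Hs n] z, ∀ a b, ‖curS W₁.toLD (S₁ x) x a b - F₀ a b‖ < δ :=
      eventually_all.2 fun a => eventually_all.2 fun b => near (l1 a b)
    have n4 : ∀ᶠ x in 𝓝[Hs n] z, ∀ a b, ‖curS W₂.toLD (S₂ x) x a b - F₀ a b‖ < δ :=
      eventually_all.2 fun a => eventually_all.2 fun b => near (l2 a b)
    filter_upwards [n1, n2, n3, n4, hD.mem_nhds hz] with x x1 x2 x3 x4 hx
    have T1 : 0 ≤ ∑ a, ∑ b, |W₁.g x a b - W₂.g x a b| :=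
      Finset.sum_nonneg fun a _ => Finset.sum_nonneg fun b _ => abs_nonneg _
    have T2 : 0 ≤ ∑ a, ∑ b, ‖curS W₁.toLD (S₁ x) x a b - curS W₂.toLD (S₂ x) x a b‖ :=
      Finset.sum_nonneg fun a _ => Finset.sum_nonneg fun b _ => norm_nonneg _
    have T3 : ∀ a b, |W₁.g x a b - W₂.g x a b| ≤ T x := by
      intro a b
      have q1 : |W₁.g x a b - W₂.g x a b| ≤ ∑ b, |W₁.g x a b - W₂.g x a b| :=
        Finset.single_le_sum (f := fun b => |W₁.g x a b - W₂.g x a b|)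
          (fun _ _ => abs_nonneg _) (Finset.mem_univ b)
      have q2 : ∑ b, |W₁.g x a b - W₂.g x a b| ≤ ∑ a, ∑ b, |W₁.g x a b - W₂.g x a b| :=
        Finset.single_le_sum (f := fun a => ∑ b, |W₁.g x a b - W₂.g x a b|)
          (fun _ _ => Finset.sum_nonneg fun _ _ => abs_nonneg _) (Finset.mem_univ a)
      exact (q1.trans q2).trans (le_add_of_nonneg_right T2)
    have T4 : ∀ a b, ‖curS W₁.toLD (S₁ x) x a b - curS W₂.toLD (S₂ x) x a b‖ ≤ T x := by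
      intro a b
      have q1 : ‖curS W₁.toLD (S₁ x) x a b - curS W₂.toLD (S₂ x) x a b‖ ≤
          ∑ b, ‖curS W₁.toLD (S₁ x) x a b - curS W₂.toLD (S₂ x) x a b‖ :=
        Finset.single_le_sum (f := fun b =>
          ‖curS W₁.toLD (S₁ x) x a b - curS W₂.toLD (S₂ x) x a b‖)
          (fun _ _ => norm_nonneg _) (Finset.mem_univ b)
      have q2 : ∑ b, ‖curS W₁.toLD (S₁ x) x a b - curS W₂.toLD (S₂ x) x a b‖ ≤
          ∑ a, ∑ b, ‖curS W₁.toLD (S₁ x) x a b - curS W₂.toLD (S₂ x) x a b‖ :=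
        Finset.single_le_sum (f := fun a => ∑ b,
          ‖curS W₁.toLD (S₁ x) x a b - curS W₂.toLD (S₂ x) x a b‖)
          (fun _ _ => Finset.sum_nonneg fun _ _ => norm_nonneg _) (Finset.mem_univ a)
      exact (q1.trans q2).trans (le_add_of_nonneg_left T1)
    have hL := hlip (W₁.g x) (W₂.g x) (curS W₁.toLD (S₁ x) x) (curS W₂.toLD (S₂ x) x)
      (h₁.ok.g_pos x hx) (h₂.ok.g_pos x hx) x1 x2 x3 x4 (T x) T3 T4 j k
    have T0 : 0 ≤ T x := add_nonneg T1 T2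
    rw [Real.norm_eq_abs]
    have e1 : (κ * W₁.g x j k + cp.f (W₁.g x) (curS W₁.toLD (S₁ x) x) j k) -
        (κ * W₂.g x j k + cp.f (W₂.g x) (curS W₂.toLD (S₂ x) x) j k) =
        κ * (W₁.g x j k - W₂.g x j k) + (cp.f (W₁.g x) (curS W₁.toLD (S₁ x) x) j k -
          cp.f (W₂.g x) (curS W₂.toLD (S₂ x) x) j k) := by ring
    rw [e1]
    calc |κ * (W₁.g x j k - W₂.g x j k) + (cp.f (W₁.g x) (curS W₁.toLD (S₁ x) x) j k -
          cp.f (W₂.g x) (curS W₂.toLD (S₂ x) x) j k)|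
        ≤ |κ * (W₁.g x j k - W₂.g x j k)| + |cp.f (W₁.g x) (curS W₁.toLD (S₁ x) x) j k -
          cp.f (W₂.g x) (curS W₂.toLD (S₂ x) x) j k| := abs_add_le _ _
      _ ≤ |κ| * T x + |C| * T x := by
          refine add_le_add ?_ (hL.trans (mul_le_mul_of_nonneg_right (le_abs_self C) T0))
          rw [abs_mul]
          exact mul_le_mul_of_nonneg_left (T3 j k) (abs_nonneg κ)
      _ = (|κ| + |C|) * T x := by ring
  have hfin : (fun x => (κ * W₁.g x j k + cp.f (W₁.g x) (curS W₁.toLD (S₁ x) x) j k) -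
      (κ * W₂.g x j k + cp.f (W₂.g x) (curS W₂.toLD (S₂ x) x) j k)) =O[𝓝[Hs n] z] T := by
    refine IsBigO.of_bound (|κ| + |C|) ?_
    filter_upwards [hev] with x hx
    exact hx.trans (mul_le_mul_of_nonneg_left (le_abs_self _) (by positivity))
  refine (hfin.trans hTO).congr' ?_ (EventuallyEq.refl _ _)
  filter_upwards [hD.mem_nhds hz] with x hx
  obtain ⟨u1, v1, u2, v2⟩ := hS x hx
  rw [h₁.eqs.ein x hx (S₁ x) u1 v1 j k, h₂.eqs.ein x hx (S₂ x) u2 v2 j k]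

theorem lchr_eq (hD : RelOpen D) (h₁ : IsModel κ cp j0 W₁ D) (j : Fin n) :
    EqOn (lchr W₁.g j) (DfLH W₁ j0 j) D := by
  intro x hx
  unfold lchr DfLH
  exact Finset.sum_congr rfl fun l _ => by rw [model_harm hD h₁ hx l]

theorem s1_LH (hD : RelOpen D)
    (h₁ : IsModel κ cp j0 W₁ D) (h₂ : IsModel κ cp j0 W₂ D) (hz : z ∈ D) (j : Fin n) :
    Sim1 D z (om W₁ W₂) (DfLH W₁ j0 j) (DfLH W₂ j0 j) :=
  Sim1.sum hD hz _ fun l _ => Sim1.mul hD hz (s1_g hD h₁ h₂ hz j l) (s1_H hD h₁ h₂ hz l)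

theorem s_LO (hD : RelOpen D)
    (h₁ : IsModel κ cp j0 W₁ D) (h₂ : IsModel κ cp j0 W₂ D) (hz : z ∈ D) (j k : Fin n) :
    Sim (𝓝[Hs n] z) (om W₁ W₂) (DfLO W₁.g j k) (DfLO W₂.g j k) := by
  have hg := fun i j m => (s1_g hD h₁ h₂ hz i j).dsim m
  have hi := fun i j m => (s1_gi hD h₁ h₂ hz i j).dsim m
  have hc := fun a b c => s_chr hD h₁ h₂ hz a b c
  have hh : Sim (𝓝[Hs n] z) (om W₁ W₂) (fun _ => (1 / 2 : ℝ)) (fun _ => (1 / 2 : ℝ)) := Sim.const _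
  refine Sim.add (Sim.sub (Sim.sub (Sim.sub ?_ ?_) ?_) ?_) ?_
  · exact Sim.sum _ fun i _ => Sim.sum _ fun l _ => Sim.mul (Sim.mul hh (hi i l i))
      (Sim.sub (Sim.add (hg l k j) (hg l j k)) (hg j k l))
  · exact Sim.sum _ fun i _ => Sim.sum _ fun l _ => Sim.mul (Sim.mul hh (hi i l j))
      (Sim.sub (Sim.add (hg l k i) (hg l i k)) (hg i k l))
  · exact Sim.sum _ fun a _ => Sim.sum _ fun b _ => Sim.mul (Sim.mul hh (hi a b k))
      (Sim.sub (hg j b a) (Sim.mul hh (hg a b j)))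
  · exact Sim.sum _ fun a _ => Sim.sum _ fun b _ => Sim.mul (Sim.mul hh (hi a b j))
      (Sim.sub (hg k b a) (Sim.mul hh (hg a b k)))
  · exact Sim.sum _ fun i _ => Sim.sum _ fun l _ => Sim.sub (Sim.mul (hc i i l) (hc l j k))
      (Sim.mul (hc i j l) (hc l i k))

/-- the right hand side of the equation of `g_{jk}` -/
def DfEg (W : Model n N) (j0 : Fin N) (j k : Fin n) (x : E n) : ℝ :=
  (pd k (DfLH W j0 j) x + pd j (DfLH W j0 k) x) + 2 * DfLO W.g j k x - 2 * ric W.g j k x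

theorem PP_g_eq (hD : RelOpen D) (h₁ : IsModel κ cp j0 W₁ D) (j k : Fin n) {x : E n} (hx : x ∈ D) :
    DfP W₁.g (fun y => W₁.g y j k) x = DfEg W₁ j0 j k x := by
  have e1 := ric_harm hD h₁.ok.g_smooth h₁.ok.g_pos hx j k
  rw [hD.pd_congr (lchr_eq hD h₁ j) hx k, hD.pd_congr (lchr_eq hD h₁ k) hx j] at e1
  unfold DfP DfEg DfLO
  simp only [smul_eq_mul]
  rw [e1]
  ring

theorem s_PPg (hD : RelOpen D)
    (h₁ : IsModel κ cp j0 W₁ D) (h₂ : IsModel κ cp j0 W₂ D) (hz : z ∈ D) (j k : Fin n) :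
    Sim (𝓝[Hs n] z) (om W₁ W₂) (DfP W₁.g (fun y => W₁.g y j k)) (DfP W₂.g (fun y => W₂.g y j k)) := by
  have h2 : Sim (𝓝[Hs n] z) (om W₁ W₂) (fun _ => (2 : ℝ)) (fun _ => (2 : ℝ)) := Sim.const _
  have key : Sim (𝓝[Hs n] z) (om W₁ W₂) (DfEg W₁ j0 j k) (DfEg W₂ j0 j k) :=
    Sim.sub (Sim.add (Sim.add ((s1_LH hD h₁ h₂ hz j).dsim k) ((s1_LH hD h₁ h₂ hz k).dsim j))
      (Sim.mul h2 (s_LO hD h₁ h₂ hz j k))) (Sim.mul h2 (s_ric hD h₁ h₂ hz j k))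
  refine Sim.congr key ?_ ?_
  · filter_upwards [hD.mem_nhds hz] with x hx
    exact (PP_g_eq hD h₁ j k hx).symm
  · filter_upwards [hD.mem_nhds hz] with x hx
    exact (PP_g_eq hD h₂ j k hx).symm

/-- from similarity of the principal parts to the difference -/
theorem PP_diff (hD : RelOpen D)
    (h₁ : IsModel κ cp j0 W₁ D) (h₂ : IsModel κ cp j0 W₂ D) (hz : z ∈ D) {f₁ f₂ : E n → V}
    (hf₁ : ContDiffOn ℝ ∞ f₁ D) (hf₂ : ContDiffOn ℝ ∞ f₂ D)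
    (h : Sim (𝓝[Hs n] z) (om W₁ W₂) (DfP W₁.g f₁) (DfP W₂.g f₂)) :
    DfP W₁.g (fun y => f₁ y - f₂ y) =O[𝓝[Hs n] z] om W₁ W₂ := by
  have key : (fun x => (DfP W₁.g f₁ x - DfP W₂.g f₂ x) -
      ∑ j, ∑ k, ((W₁.g x)⁻¹ j k - (W₂.g x)⁻¹ j k) • pd j (pd k f₂) x) =O[𝓝[Hs n] z] om W₁ W₂ := by
    refine h.d.sub (IsBigO.fun_sum fun j _ => IsBigO.fun_sum fun k _ => ?_)
    have a1 := (s1_gi hD h₁ h₂ hz j k).sim.d
    have a2 := Diff_bdd hD hz (hD.pd_smooth (hD.pd_smooth hf₂ k) j)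
    have a3 := a1.smul a2
    simpa only [smul_eq_mul, mul_one] using a3
  refine key.congr' ?_ (EventuallyEq.refl _ _)
  filter_upwards [hD.mem_nhds hz] with x hx
  unfold DfP
  rw [← Finset.sum_sub_distrib, ← Finset.sum_sub_distrib]
  refine Finset.sum_congr rfl fun j _ => ?_
  rw [← Finset.sum_sub_distrib, ← Finset.sum_sub_distrib]
  refine Finset.sum_congr rfl fun k _ => ?_
  have e1 : pd j (pd k (fun y => f₁ y - f₂ y)) x = pd j (pd k f₁) x - pd j (pd k f₂) x := by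
    rw [hD.pd_congr (g := fun y => pd k f₁ y - pd k f₂ y) (fun y hy => hD.pd_sub hf₁ hf₂ hy k) hx j]
    exact hD.pd_sub (hD.pd_smooth hf₁ k) (hD.pd_smooth hf₂ k) hx j
  rw [e1]
  simp only [smul_sub, sub_smul]
  abel

/-- The elliptic inequality for the difference of two models. -/
theorem model_diff_aux (hD : RelOpen D)
    (h₁ : IsModel κ cp j0 W₁ D) (h₂ : IsModel κ cp j0 W₂ D) (hz : z ∈ D) :
    DfP W₁.g (fun y => Wv W₁ y - Wv W₂ y) =O[𝓝[Hs n] z] om W₁ W₂ := by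
  have hs := diffWv_smooth hD h₁ h₂
  have main : ∀ {V : Type} [NormedAddCommGroup V] [NormedSpace ℝ V] (T : VV n N →L[ℝ] V)
      (_ : Sim (𝓝[Hs n] z) (om W₁ W₂) (DfP W₁.g (fun y => T (Wv W₁ y)))
        (DfP W₂.g (fun y => T (Wv W₂ y)))),
      (fun x => T (DfP W₁.g (fun y => Wv W₁ y - Wv W₂ y) x)) =O[𝓝[Hs n] z] om W₁ W₂ := by
    intro V _ _ T hT
    have a1 := PP_diff hD h₁ h₂ hz (T.contDiff.comp_contDiffOn (Wv_smooth hD h₁))
      (T.contDiff.comp_contDiffOn (Wv_smooth hD h₂)) hT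
    refine a1.congr' ?_ (EventuallyEq.refl _ _)
    filter_upwards [hD.mem_nhds hz] with x hx
    rw [← PP_clm hD T hs hx]
    simp only [Function.comp_def, map_sub]
  have c1 : (fun x => (DfP W₁.g (fun y => Wv W₁ y - Wv W₂ y) x).1) =O[𝓝[Hs n] z] om W₁ W₂ := by
    rw [isBigO_pi]
    intro i
    rw [isBigO_pi]
    intro j
    exact main ((ContinuousLinearMap.proj (R := ℝ) (φ := fun _ : Fin n => ℝ) j).comp
      ((ContinuousLinearMap.proj (R := ℝ) (φ := fun _ : Fin n => Fin n → ℝ) i).comp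
      (ContinuousLinearMap.fst ℝ _ _))) (s_PPg hD h₁ h₂ hz i j)
  have c2 : (fun x => (DfP W₁.g (fun y => Wv W₁ y - Wv W₂ y) x).2.1) =O[𝓝[Hs n] z] om W₁ W₂ := by
    rw [isBigO_pi]
    intro i
    exact main ((ContinuousLinearMap.proj (R := ℝ) (φ := fun _ : Fin n => EndF N) i).comp
      ((ContinuousLinearMap.fst ℝ _ _).comp (ContinuousLinearMap.snd ℝ _ _))) (s_PPB hD h₁ h₂ hz i)
  have c3 : (fun x => (DfP W₁.g (fun y => Wv W₁ y - Wv W₂ y) x).2.2.1) =O[𝓝[Hs n] z] om W₁ W₂ :=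
    main ((ContinuousLinearMap.fst ℝ _ _).comp
      ((ContinuousLinearMap.snd ℝ _ _).comp (ContinuousLinearMap.snd ℝ _ _))) (s_PPh hD h₁ h₂ hz)
  have c4 : (fun x => (DfP W₁.g (fun y => Wv W₁ y - Wv W₂ y) x).2.2.2.1) =O[𝓝[Hs n] z] om W₁ W₂ := by
    rw [isBigO_pi]
    intro a
    exact main ((ContinuousLinearMap.proj (R := ℝ) (φ := fun _ : Fin n => Fib N) a).comp
      ((ContinuousLinearMap.fst ℝ _ _).comp ((ContinuousLinearMap.snd ℝ _ _).comp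
      ((ContinuousLinearMap.snd ℝ _ _).comp (ContinuousLinearMap.snd ℝ _ _)))))
      (s_PPc hD h₁ h₂ hz a)
  have c5 : (fun x => (DfP W₁.g (fun y => Wv W₁ y - Wv W₂ y) x).2.2.2.2) =O[𝓝[Hs n] z] om W₁ W₂ := by
    rw [isBigO_pi]
    intro a
    rw [isBigO_pi]
    intro k
    exact main ((ContinuousLinearMap.proj (R := ℝ) (φ := fun _ : Fin n => Fib N) k).comp
      ((ContinuousLinearMap.proj (R := ℝ) (φ := fun _ : Fin n => Fin n → Fib N) a).comp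
      ((ContinuousLinearMap.snd ℝ _ _).comp ((ContinuousLinearMap.snd ℝ _ _).comp
      ((ContinuousLinearMap.snd ℝ _ _).comp (ContinuousLinearMap.snd ℝ _ _))))))
      (s_PPp hD h₁ h₂ hz a k)
  exact c1.prod_left (c2.prod_left (c3.prod_left (c4.prod_left c5)))

end Comp

theorem model_diff {κ : ℝ} {cp : Cpl n N} {j0 : Fin N} {W₁ W₂ : Model n N} {D : Set (E n)} (hD : RelOpen D)
    (h₁ : IsModel κ cp j0 W₁ D) (h₂ : IsModel κ cp j0 W₂ D) {z : E n} (hz : z ∈ D) :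
    (fun x => ∑ j, ∑ k, (W₁.g x)⁻¹ j k • pd j (pd k (fun y => Wv W₁ y - Wv W₂ y)) x)
      =O[𝓝[Hs n] z] om W₁ W₂ := model_diff_aux hD h₁ h₂ hz

end Vale.Agent.P088.EYM.G

end

end

section

open MeasureTheory Set Filter Topology Asymptotics

open scoped ContDiff

noncomputable section

namespace Vale.Agent.P088.EYM.G

set_option linter.unusedSectionVars false

variable {n N : ℕ} [NeZero n]

/-- derivative of `Wv` in components -/
theorem rig_pd_Wv {κ : ℝ} {cp : Cpl n N} {j0 : Fin N} {W : Model n N} {D : Set (E n)} (hD : RelOpen D)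
    (hW : IsModel κ cp j0 W D) {x : E n} (hx : x ∈ D) (j : Fin n) :
    pd j (Wv W) x = (fun a b => pd j (fun y => W.g y a b) x, fun i => pd j (W.B i) x, pd j W.h x,
      fun a => pd j (W.c a) x, fun a k => pd j (pd k (W.c a)) x) := by
  have hs := Wv_smooth hD hW
  have key : ∀ {V : Type} [NormedAddCommGroup V] [NormedSpace ℝ V] (T : VV n N →L[ℝ] V),
      T (pd j (Wv W) x) = pd j (fun y => T (Wv W y)) x := fun T => (hD.pd_clm T hs hx j).symm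
  refine Prod.ext ?_ (Prod.ext ?_ (Prod.ext ?_ (Prod.ext ?_ ?_)))
  · funext a b
    exact key ((ContinuousLinearMap.proj (R := ℝ) (φ := fun _ : Fin n => ℝ) b).comp
      ((ContinuousLinearMap.proj (R := ℝ) (φ := fun _ : Fin n => Fin n → ℝ) a).comp
      (ContinuousLinearMap.fst ℝ _ _)))
  · funext i
    exact key ((ContinuousLinearMap.proj (R := ℝ) (φ := fun _ : Fin n => EndF N) i).comp
      ((ContinuousLinearMap.fst ℝ _ _).comp (ContinuousLinearMap.snd ℝ _ _)))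
  · exact key ((ContinuousLinearMap.fst ℝ _ _).comp
      ((ContinuousLinearMap.snd ℝ _ _).comp (ContinuousLinearMap.snd ℝ _ _)))
  · funext a
    exact key ((ContinuousLinearMap.proj (R := ℝ) (φ := fun _ : Fin n => Fib N) a).comp
      ((ContinuousLinearMap.fst ℝ _ _).comp ((ContinuousLinearMap.snd ℝ _ _).comp
      ((ContinuousLinearMap.snd ℝ _ _).comp (ContinuousLinearMap.snd ℝ _ _)))))
  · funext a k
    exact key ((ContinuousLinearMap.proj (R := ℝ) (φ := fun _ : Fin n => Fib N) k).comp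
      ((ContinuousLinearMap.proj (R := ℝ) (φ := fun _ : Fin n => Fin n → Fib N) a).comp
      ((ContinuousLinearMap.snd ℝ _ _).comp ((ContinuousLinearMap.snd ℝ _ _).comp
      ((ContinuousLinearMap.snd ℝ _ _).comp (ContinuousLinearMap.snd ℝ _ _))))))

theorem rig_ineq {κ : ℝ} {cp : Cpl n N} {j0 : Fin N} {W₁ W₂ : Model n N} {D : Set (E n)} (hD : RelOpen D)
    (h₁ : IsModel κ cp j0 W₁ D) (h₂ : IsModel κ cp j0 W₂ D) {z : E n} (hz : z ∈ D) :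
    ∃ C : ℝ, ∀ᶠ y in 𝓝[Hs n] z,
      ‖∑ j, ∑ k, (W₁.g y)⁻¹ j k • pd j (pd k (fun y => Wv W₁ y - Wv W₂ y)) y‖ ≤
      C * (‖Wv W₁ y - Wv W₂ y‖ + ∑ j, ‖pd j (fun y => Wv W₁ y - Wv W₂ y) y‖) := by
  obtain ⟨C, hC⟩ := (model_diff hD h₁ h₂ hz).bound
  refine ⟨C, ?_⟩
  filter_upwards [hC] with y hy
  rw [Real.norm_of_nonneg (Diff_om_nonneg W₁ W₂ y)] at hy
  exact hy

theorem rig_pos {κ : ℝ} {cp : Cpl n N} {j0 : Fin N} {W₁ : Model n N} {D : Set (E n)}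
    (h₁ : IsModel κ cp j0 W₁ D) {x : E n} (hx : x ∈ D) :
    (Matrix.of fun j k => (W₁.g x)⁻¹ j k).PosDef := (h₁.ok.g_pos x hx).inv

theorem bRigInt (hu : UcpV_statement) : BRigInt_statement := by
  intro n N _ κ cp j0 W₁ W₂ D _ hD hpos hconn h₁ h₂ U hU hUD hne heq
  have hsub : D ⊆ Hs n := fun x hx => le_of_lt (show 0 < x 0 from hpos hx)
  have hDr : RelOpen D := relOpen_of_open hD hsub
  have hUr : RelOpen U := relOpen_of_open hU (hUD.trans hsub)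
  have hs := diffWv_smooth hDr h₁ h₂
  have hw := hu n (VV n N) (fun j k x => (W₁.g x)⁻¹ j k) D hD hpos hconn
    (fun j k => hDr.smM_inv h₁.ok.g_smooth h₁.ok.g_pos j k) (fun x hx => rig_pos h₁ hx)
    (fun y => Wv W₁ y - Wv W₂ y) hs (fun x hx => rig_ineq hDr h₁ h₂ hx) U hU hUD hne ?_
  · exact rig_eq fun x hx => sub_eq_zero.1 (hw x hx)
  · intro x hx
    rw [sub_eq_zero]
    unfold Wv
    have e1 : (fun i j => W₁.g x i j) = fun i j => W₂.g x i j := by rw [heq.g x hx]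
    have e2 : (fun i => W₁.B i x) = fun i => W₂.B i x := funext fun i => heq.B x hx i
    have e3 := heq.h x hx
    have e4 : (fun a => W₁.c a x) = fun a => W₂.c a x := funext fun a => heq.c x hx a
    have e5 : (fun a k => pd k (W₁.c a) x) = fun a k => pd k (W₂.c a) x := by
      funext a k
      exact hUr.pd_congr (fun y hy => heq.c y hy a) hx k
    rw [e1, e2, e3, e4, e5]

theorem bRigBd (hu : UcpVBd_statement) : BRigBd_statement := by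
  intro n N _ κ cp j0 W₁ W₂ z r _ hr hz h₁ h₂ hjet
  have hDr : RelOpen (HB z r) := relOpen_HB z r
  have hs := diffWv_smooth hDr h₁ h₂
  have hw := hu n (VV n N) (fun j k x => (W₁.g x)⁻¹ j k) z r hr hz
    (fun j k => hDr.smM_inv h₁.ok.g_smooth h₁.ok.g_pos j k) (fun x hx => rig_pos h₁ hx)
    (fun y => Wv W₁ y - Wv W₂ y) hs (fun x hx => rig_ineq hDr h₁ h₂ hx) ?_
  · exact rig_eq fun x hx => sub_eq_zero.1 (hw x hx)
  · intro x hx hx0
    have J := hjet x hx hx0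
    have e5 : (fun a k => pd k (W₁.c a) x) = fun a k => pd k (W₂.c a) x := by
      funext a k; exact J.dc a k
    have e2 : (fun i => W₁.B i x) = fun i => W₂.B i x := funext fun i => J.B i
    have e4 : (fun a => W₁.c a x) = fun a => W₂.c a x := funext fun a => J.c a
    constructor
    · rw [sub_eq_zero]
      unfold Wv
      rw [J.g, e2, J.h, e4, e5]
    · intro j
      have e0 : pd j (fun y => Wv W₁ y - Wv W₂ y) x = pd j (Wv W₁) x - pd j (Wv W₂) x :=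
        hDr.pd_sub (Wv_smooth hDr h₁) (Wv_smooth hDr h₂) hx j
      rw [e0, sub_eq_zero, rig_pd_Wv hDr h₁ hx j, rig_pd_Wv hDr h₂ hx j]
      have d1 : (fun a b => pd j (fun y => W₁.g y a b) x) = fun a b => pd j (fun y => W₂.g y a b) x := by
        funext a b; exact J.dg a b j
      have d2 : (fun i => pd j (W₁.B i) x) = fun i => pd j (W₂.B i) x := funext fun i => J.dB i j
      have d3 : pd j W₁.h x = pd j W₂.h x := by
        rw [h₁.ok.compat x hx j, h₂.ok.compat x hx j, J.B, J.h]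
      have d4 : (fun a => pd j (W₁.c a) x) = fun a => pd j (W₂.c a) x := funext fun a => J.dc a j
      have d5 : (fun a k => pd j (pd k (W₁.c a)) x) = fun a k => pd j (pd k (W₂.c a)) x := by
        funext a k; exact J.ddc a j k
      rw [d1, d2, d3, d4, d5]

end Vale.Agent.P088.EYM.G

end

end

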