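import Vale.Agent.P088.H820.G1

/-!
# P088, general natural couplings: boundary determination, set-up, continuation
(adapted from `Vale.Agent.P088.Bdl.B3`, `B11`, `B12`)
-/

section

open Bundle Manifold MeasureTheory Set Filter Topology

open scoped ContDiff

noncomputable section

namespace Vale.Agent.P088.EYM.G

universe u

set_option linter.unusedSectionVars false

section

variable {n N : ℕ} [NeZero n]

end

section

variable {n N : ℕ} [NeZero n] {M : Type u} [TopologicalSpace M]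
  [ChartedSpace (EuclideanHalfSpace n) M] [IsManifold (𝓡∂ n) ∞ M] [MeasurableSpace M]

theorem CRel1_Z (hExt : CExt_statement.{u}) (hLoc : CLoc_statement.{u}) [T2Space M]
    (P : One n N M) (Γ : Set M) (q : M) (z : E n) (r₀ κ : ℝ) (cp : Cpl n N) (j0 : Fin N)
    (W : Model n N) (D : Set (E n)) (X Y : E n → E n) (S : E n → EndF N) (s : Fin N → M → Fib N)
    (t : Fin n → M → Fib N) (h : BdM P Γ q z r₀ κ cp j0 W D X Y S s t) (r : ℝ)
    (hr₀ : r < r₀) (c : E n → Fib N) (hc : TstH z r c) :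
    ∃ u : M → Fib N, SmS n u ∧ tsupport u ⊆ (xc n q).symm '' D ∧
      (∀ x ∈ D, u ((xc n q).symm x) = S x (CRel1_ext z r c (X x))) ∧
      (∀ y ∈ HB z r, y 0 = 0 → u ((xc n q).symm y) = c y) ∧
      (∀ m ∈ (𝓡∂ n).boundary M, (∀ y ∈ HB z r, y 0 = 0 → m ≠ (xc n q).symm y) → u m = 0) ∧
      IsBdryData (𝓡∂ n) Γ u := by
  obtain ⟨-, -, hbd, -⟩ := hLoc n N M
  obtain ⟨hcs, r', hr', h0⟩ := id hc
  have hK0 : Metric.closedBall z r' ∩ Hs n ⊆ HB z r₀ := CRel1_cb_sub z (hr'.trans hr₀)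
  set K : Set (E n) := Y '' (Metric.closedBall z r' ∩ Hs n) with hK
  have hKc : IsCompact K :=
    (CRel1_cb_compact z r').image_of_continuousOn (h.pull.diffeo.smY.continuousOn.mono hK0)
  have hKD : K ⊆ D := by
    rintro x ⟨y, hy, rfl⟩
    exact h.pull.diffeo.mapsY (hK0 hy)
  have hKX : ∀ x ∈ K, X x ∈ Metric.closedBall z r' ∩ Hs n := by
    rintro x ⟨y, hy, rfl⟩
    rw [h.pull.diffeo.inv2 y (hK0 hy)]
    exact hy
  have hzero : ∀ x ∈ D, x ∉ K → S x (CRel1_ext z r c (X x)) = 0 := by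
    intro x hx hxK
    have hX := h.pull.diffeo.mapsX hx
    have h1 : X x ∉ Metric.closedBall z r' := by
      intro h2
      exact hxK ⟨X x, ⟨h2, hX.2⟩, h.pull.diffeo.inv1 x hx⟩
    rw [CRel1_ext_zero h0 hX.2 h1, map_zero]
  have hsm : ContDiffOn ℝ ∞ (fun x => S x (CRel1_ext z r c (X x))) D :=
    smooth_eval h.pull.smS ((CRel1_ext_smooth (r₀ := r₀) hc).comp h.pull.diffeo.smX
      h.pull.diffeo.mapsX)
  obtain ⟨u, hu1, hu2, hu3, hu4⟩ := hExt n N M q _ D K h.rel h.sub hsm hKc hKD hzero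
  -- points of the boundary
  have hflat : ∀ m ∈ (𝓡∂ n).boundary M, u m ≠ 0 → ∃ x ∈ K, x 0 = 0 ∧ m = (xc n q).symm x := by
    intro m hm hne
    by_contra hcon
    refine hne (hu3 m ?_)
    rintro ⟨x, hx, rfl⟩
    have h1 := (hbd q ((xc n q).symm x) ((xc n q).map_target (h.sub (hKD hx)))).1 hm
    rw [(xc n q).right_inv (h.sub (hKD hx))] at h1
    exact hcon ⟨x, hx, h1, rfl⟩
  refine ⟨u, hu1, hu4.trans (image_mono hKD), hu2, ?_, ?_, ⟨hu1, ?_⟩⟩
  · intro y hy hy0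
    obtain ⟨hyD, hXy, -, hSy, -⟩ := h.bd y (CRel1_HB_mono z hr₀.le hy) hy0
    rw [hu2 y hyD, hXy, hSy, CRel1_ext_in c hy.1]
    rfl
  · intro m hm hmy
    by_contra hne
    obtain ⟨x, hxK, hx0, rfl⟩ := hflat m hm hne
    have h1 := h.bdD x (hKD hxK) hx0
    obtain ⟨-, hXx, -, -, -⟩ := h.bd x h1 hx0
    have h2 := hKX x hxK
    rw [hXx] at h2
    exact hmy x ⟨Metric.closedBall_subset_ball hr' h2.1, h2.2⟩ hx0 rfl
  · have hPl : IsClosed {x : E n | x 0 = 0} := isClosed_eq (continuous_coord 0) continuous_const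
    have hKP : IsCompact (K ∩ {x : E n | x 0 = 0}) := hKc.inter_right hPl
    have hcomp : IsCompact ((xc n q).symm '' (K ∩ {x : E n | x 0 = 0})) :=
      hKP.image_of_continuousOn ((continuousOn_extChartAt_symm q).mono
        (inter_subset_left.trans (hKD.trans h.sub)))
    refine (closure_minimal ?_ hcomp.isClosed).trans ?_
    · rintro m ⟨hm, hne⟩
      obtain ⟨x, hxK, hx0, rfl⟩ := hflat m hm hne
      exact ⟨x, ⟨hxK, hx0⟩, rfl⟩
    · rintro m ⟨x, ⟨hxK, hx0⟩, rfl⟩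
      exact (h.bd x (h.bdD x (hKD hxK) hx0) hx0).2.2.2.2

end

theorem cRel1 : AGreen_statement → AHardy_statement → BEnergy_statement → CExt_statement.{u} →
    CEnergy_statement.{u} → CUniq_statement.{u} → CForm_statement.{u} → CLoc_statement.{u} →
    CRel1_statement.{u} := by
  intro hGreen hHardy hBE hExt hCE hUniq hForm hLoc n N _ M _ _ _ _ _ _ _ _ P Γ q z r₀ κ cp j0
    W D X Y S s t h hSol hRel hne r hr hr₀
  obtain ⟨-, hOk, hbd, hsmc⟩ := hLoc n N M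
  have hbne : ((𝓡∂ n).boundary M).Nonempty := by
    obtain ⟨O, -, hO⟩ := hRel
    obtain ⟨m, hm⟩ := hne
    rw [hO] at hm
    exact ⟨m, hm.2⟩
  obtain ⟨-, -, hU3⟩ := hUniq n N M P hbne
  obtain ⟨hF1, hF2, hF3, hF4, hF5⟩ := hForm n N M P
  have hLq : (P.loc q).Ok D := CHarm_ok_mono (hOk P q) h.sub
  have hLW : W.toLD.Ok (HB z r₀) := h.model.ok
  obtain ⟨C, hC0, hC⟩ := CRel1_bound hGreen hHardy W.toLD z r r₀ h.z0 hLW hr hr₀
  choose! Z hZ using fun (c : E n → Fib N) (hc : TstH z r c) =>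
    CRel1_Z hExt hLoc P Γ q z r₀ κ cp j0 W D X Y S s t h r hr₀ c hc
  -- the energy identity
  have hEid : ∀ c, TstH z r c → ∀ v : M → Fib N, SmS n v → ∀ d : E n → Fib N,
      ContDiffOn ℝ ∞ d (HB z r₀) → (∀ x ∈ D, lu (𝓡∂ n) q v x = S x (d (X x))) →
      P.E (Z c) v = En W.toLD (HB z r) c d := by
    intro c hc v hv d hd hvd
    obtain ⟨hZ1, hZ2, hZ3, -⟩ := hZ c hc
    rw [(hCE n N M P q D h.rel h.sub).1 (Z c) v hZ1 hv (Or.inl hZ2)]
    have e1 : EqOn (lu (𝓡∂ n) q (Z c)) (fun x => S x (CRel1_ext z r c (X x))) D := hZ3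
    have e2 : EqOn (lu (𝓡∂ n) q v) (fun x => S x (d (X x))) D := hvd
    rw [CRel1_En_congr h.rel _ e1 e2,
      hBE n N (P.loc q) W.toLD D (HB z r₀) X Y S h.rel (CRel1_rel z r₀) hLq hLW h.pull
        (CRel1_ext z r c) d ((CRel1_ext_smooth hc).of_le (by norm_cast))
        (hd.of_le (by norm_cast)), CRel1_En_ext W.toLD hr₀.le hc d]
  refine ⟨C, hC0, Z, ?_, hEid, ?_⟩
  · intro c hc
    obtain ⟨hZ1, hZ2, hZ3, hZ4, hZ5, hZ6⟩ := hZ c hc
    refine ⟨hZ1, hZ2, fun x hx => ⟨fun hX => ?_, fun hX => ?_⟩, hZ4, hZ5, hZ6⟩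
    · rw [hZ3 x hx, CRel1_ext_in c hX]
    · rw [hZ3 x hx, CRel1_ext_out c hX, map_zero]
  -- linearity
  have hzeroR : ∀ w : M → Fib N, SmS n w → P.E w 0 = 0 := by
    intro w hw
    have h1 := hF2 0 w w hw hw
    rw [zero_smul, zero_mul] at h1
    exact h1
  have hsm0 : SmS n (0 : M → Fib N) := contMDiff_const
  have hsub : ∀ {a b : M → Fib N}, SmS n a → SmS n b → SmS n (a - b) := fun ha hb => ha.sub hb
  have haddL : ∀ a b w : M → Fib N, SmS n a → SmS n b → SmS n w →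
      P.E (a + b) w = P.E a w + P.E b w := by
    intro a b w ha hb hw
    have hab : SmS n (a + b) := ha.add hb
    rw [hF3 w (a + b) hw hab, hF1 w a b hw ha hb, map_add, ← hF3 w a hw ha, ← hF3 w b hw hb]
  -- the remainder
  have hR : ∀ c, TstH z r c → ∀ u : M → Fib N, P.Harm (Z c) u →
      0 ≤ (P.E (Z c - u) (Z c - u)).re ∧
      (P.E (Z c - u) (Z c - u)).re ≤ C * Rem W.toLD z r c ^ 2 := by
    intro c hc u hu
    obtain ⟨hZ1, hZ2, hZ3, hZ4, hZ5, hZ6⟩ := hZ c hc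
    have hus : SmS n u := hu.smooth
    have hrs : SmS n (Z c - u) := hsub hZ1 hus
    have hrb : ∀ m ∈ (𝓡∂ n).boundary M, (Z c - u) m = 0 := by
      intro m hm
      rw [Pi.sub_apply, hu.boundary m hm, sub_self]
    have hur : P.E u (Z c - u) = 0 := by
      rw [(hU3 (Z c) u (Z c - u) 0 hu hrs hsm0 (fun m hm => hrb m hm)).1, hzeroR u hus]
    have hEw : P.E (Z c) (Z c - u) = P.E (Z c - u) (Z c - u) := by
      have h1 := haddL (Z c - u) u (Z c - u) hrs hus hrs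
      rw [sub_add_cancel, hur, add_zero] at h1
      exact h1
    set w : M → Fib N := Z c - u with hw
    have hlw : ContDiffOn ℝ ∞ (lu (𝓡∂ n) q w) D := (hsmc w hrs q).mono h.sub
    have he : ContDiffOn ℝ ∞ (fun y => Ring.inverse (S (Y y)) (lu (𝓡∂ n) q w (Y y)))
        (HB z r₀) :=
      smooth_eval (smooth_ringInverse (h.pull.smS.comp h.pull.diffeo.smY h.pull.diffeo.mapsY)
        fun y hy => h.pull.unit _ (h.pull.diffeo.mapsY hy))
        (hlw.comp h.pull.diffeo.smY h.pull.diffeo.mapsY)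
    set e : E n → Fib N := fun y => Ring.inverse (S (Y y)) (lu (𝓡∂ n) q w (Y y)) with hedef
    have hle : ∀ x ∈ D, lu (𝓡∂ n) q w x = S x (e (X x)) := by
      intro x hx
      have h1 : e (X x) = Ring.inverse (S x) (lu (𝓡∂ n) q w x) := by
        rw [hedef]
        simp only [h.pull.diffeo.inv1 x hx]
      have h2 : S x * Ring.inverse (S x) = 1 := Ring.mul_inverse_cancel _ (h.pull.unit x hx)
      have h3 : S x (Ring.inverse (S x) (lu (𝓡∂ n) q w x)) =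
          (S x * Ring.inverse (S x)) (lu (𝓡∂ n) q w x) := rfl
      rw [h1, h3, h2]
      rfl
    have he0 : ∀ y ∈ HB z r₀, y 0 = 0 → e y = 0 := by
      intro y hy hy0
      obtain ⟨hyD, -, hYy, -, -⟩ := h.bd y hy hy0
      have hyt := h.sub hyD
      have hm : (xc n q).symm y ∈ (𝓡∂ n).boundary M := by
        refine (hbd q _ ((xc n q).map_target hyt)).2 ?_
        rw [(xc n q).right_inv hyt]
        exact hy0
      have h1 : lu (𝓡∂ n) q w y = 0 := hrb _ hm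
      have h2 : e y = Ring.inverse (S (Y y)) (lu (𝓡∂ n) q w (Y y)) := rfl
      rw [h2, hYy, h1, map_zero]
    have hE2 : P.E (Z c) w = En W.toLD (HB z r) c e := hEid c hc w hrs e he hle
    -- the energy of the remainder
    have hD' : RelOpen (D ∩ X ⁻¹' Metric.ball z r) :=
      CRel1_relX h.rel h.pull.diffeo.smX.continuousOn Metric.isOpen_ball
    have hD't : D ∩ X ⁻¹' Metric.ball z r ⊆ tg n q := inter_subset_left.trans h.sub
    have hE3 : En (P.loc q) (D ∩ X ⁻¹' Metric.ball z r) (lu (𝓡∂ n) q w) (lu (𝓡∂ n) q w) =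
        En W.toLD (HB z r) e e := by
      have e1 : EqOn (lu (𝓡∂ n) q w) (fun x => S x (e (X x))) (D ∩ X ⁻¹' Metric.ball z r) :=
        fun x hx => hle x hx.1
      have her : ContDiffOn ℝ 1 e (HB z r) :=
        (he.mono (CRel1_HB_mono z hr₀.le)).of_le (by norm_cast)
      rw [CRel1_En_congr hD' _ e1 e1]
      exact hBE n N (P.loc q) W.toLD _ (HB z r) X Y S hD' (CRel1_rel z r)
        (CHarm_ok_mono hLq inter_subset_left) (CHarm_ok_mono hLW (CRel1_HB_mono z hr₀.le))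
        (CRel1_pull hr₀.le h.pull) e e her her
    obtain ⟨hle1, hint⟩ := (hCE n N M P q _ hD' hD't).2 w hrs
    rw [hE3] at hle1
    have hpos : 0 ≤ (En W.toLD (HB z r) e e).re := by
      rw [← hE3]
      unfold En
      have h1 : (∫ x in D ∩ X ⁻¹' Metric.ball z r,
          ed (P.loc q) (lu (𝓡∂ n) q w) (lu (𝓡∂ n) q w) x).re =
          ∫ x in D ∩ X ⁻¹' Metric.ball z r,
            (ed (P.loc q) (lu (𝓡∂ n) q w) (lu (𝓡∂ n) q w) x).re :=
        (Complex.reCLM.integral_comp_comm hint).symm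
      rw [h1]
      exact setIntegral_nonneg (CRel1_meas hD') fun x hx => CRel1_ed_nonneg P q hrs (hD't hx)
    have hb := hC c e hc he he0 hpos
    refine ⟨hF4 w hrs, ?_⟩
    have h1 : (P.E w w).re ≤ ‖P.E w w‖ := Complex.re_le_norm _
    rw [← hEw, hE2] at h1
    have h2 : (P.E w w).re = (En W.toLD (HB z r) c e).re := by rw [← hEw, hE2]
    linarith
  intro c d hc hd u v hu hv
  obtain ⟨hZ1, hZ2, hZ3, hZ4, hZ5, hZ6⟩ := hZ c hc
  obtain ⟨hZ1', hZ2', hZ3', hZ4', hZ5', hZ6'⟩ := hZ d hd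
  have key : ∀ c d, TstH z r c → TstH z r d → ∀ u v : M → Fib N, P.Harm (Z c) u →
      P.Harm (Z d) v → En W.toLD (HB z r) c d = P.E (Z c - u) (Z d - v) + P.E u v := by
    intro c d hc hd u v hu hv
    obtain ⟨hZ1, hZ2, hZ3, hZ4, hZ5, hZ6⟩ := hZ c hc
    obtain ⟨hZ1', hZ2', hZ3', hZ4', hZ5', hZ6'⟩ := hZ d hd
    have hus : SmS n u := hu.smooth
    have hvs : SmS n v := hv.smooth
    have hrs : SmS n (Z c - u) := hsub hZ1 hus
    have hrs' : SmS n (Z d - v) := hsub hZ1' hvs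
    have h1 := hEid c hc (Z d) hZ1' (CRel1_ext z r d) (CRel1_ext_smooth hd) hZ3'
    have h2 : En W.toLD (HB z r) c (CRel1_ext z r d) = En W.toLD (HB z r) c d :=
      CRel1_En_congr (CRel1_rel z r) _ (fun _ _ => rfl) fun y hy => CRel1_ext_in d hy.1
    rw [← h2, ← h1]
    have h3 := haddL (Z c - u) u (Z d) hrs hus hZ1'
    rw [sub_add_cancel] at h3
    have h4 := hF1 (Z c - u) (Z d - v) v hrs hrs' hvs
    rw [sub_add_cancel] at h4
    have h5 := hF1 u (Z d - v) v hus hrs' hvs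
    rw [sub_add_cancel] at h5
    have h6 : P.E u (Z d - v) = 0 := by
      rw [(hU3 (Z c) u (Z d - v) 0 hu hrs' hsm0 (fun m hm => by
        rw [Pi.sub_apply, hv.boundary m hm, sub_self]; rfl)).1, hzeroR u hus]
    have h7 : P.E (Z c - u) v = 0 := by
      rw [(hU3 (Z d) v (Z c - u) 0 hv hrs hsm0 (fun m hm => by
        rw [Pi.sub_apply, hu.boundary m hm, sub_self]; rfl)).2, hF3 v 0 hvs hsm0, hzeroR v hvs,
        map_zero]
    rw [h3, h4, h5, h6, h7]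
    ring
  refine ⟨?_, ?_⟩
  · rw [key c d hc hd u v hu hv, add_sub_cancel_right]
    have hrs : SmS n (Z c - u) := hsub hZ1 hu.smooth
    have hrs' : SmS n (Z d - v) := hsub hZ1' hv.smooth
    have h1 := hF5 (Z c - u) (Z d - v) hrs hrs'
    obtain ⟨h2, h3⟩ := hR c hc u hu
    obtain ⟨h4, h5⟩ := hR d hd v hv
    have h6 : ‖P.E (Z c - u) (Z d - v)‖ ^ 2 ≤
        (C * Rem W.toLD z r c * Rem W.toLD z r d) ^ 2 := by
      refine h1.trans ((mul_le_mul h3 h5 h4 (h2.trans h3)).trans (le_of_eq ?_))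
      ring
    have h7 : 0 ≤ C * Rem W.toLD z r c * Rem W.toLD z r d :=
      mul_nonneg (mul_nonneg hC0 (Real.sqrt_nonneg _)) (Real.sqrt_nonneg _)
    have h8 := abs_le_of_sq_le_sq h6 h7
    rwa [abs_norm] at h8
  · rw [key c c hc hc u u hu hu, Complex.add_re]
    have := (hR c hc u hu).1
    linarith

end Vale.Agent.P088.EYM.G

end

end

section

open Bundle Manifold MeasureTheory Set Filter Topology

open scoped ContDiff

noncomputable section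

namespace Vale.Agent.P088.EYM.G

universe u

section local_part

variable {n N : ℕ} [NeZero n]

end local_part

variable {n N : ℕ} [NeZero n] {M : Type u} [TopologicalSpace M]
  [ChartedSpace (EuclideanHalfSpace n) M] [IsManifold (𝓡∂ n) ∞ M] [MeasurableSpace M]

/-- The section in the model which corresponds to `v`. -/
theorem cERel_side [T2Space M] [CompactSpace M] [BorelSpace M] (hSol : BSol_statement)
    (hHarm : CHarm_statement.{u}) (hLoc : CLoc_statement.{u})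
    {P : One n N M} {Γ : Set M} {q : M} {z : E n} {r₀ κ : ℝ} {cp : Cpl n N} {j0 : Fin N} {W : Model n N}
    {D : Set (E n)} {X Y : E n → E n} {S : E n → EndF N} {s : Fin N → M → Fib N}
    {t : Fin n → M → Fib N} (hB : BdM P Γ q z r₀ κ cp j0 W D X Y S s t) {f v : M → Fib N}
    (hv : P.Harm f v) :
    ContDiffOn ℝ ∞ (fun y => Ring.inverse (S (Y y)) (lu (𝓡∂ n) q v (Y y))) (HB z r₀) ∧
      (∀ x ∈ D, lu (𝓡∂ n) q v x =
        S x ((fun y => Ring.inverse (S (Y y)) (lu (𝓡∂ n) q v (Y y))) (X x))) ∧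
      Sol W.toLD (HB z r₀) (fun y => Ring.inverse (S (Y y)) (lu (𝓡∂ n) q v (Y y))) := by
  have hp := hB.pull
  have hd := hp.diffeo
  have hlu : Sol (P.loc q) (tg n q) (lu (𝓡∂ n) q v) := hHarm n N M P f v hv q
  have hok : (P.loc q).Ok (tg n q) := (hLoc n N M).2.1 P q
  have hsm : ContDiffOn ℝ ∞ (fun y => Ring.inverse (S (Y y)) (lu (𝓡∂ n) q v (Y y)))
      (HB z r₀) := by
    refine smooth_eval ?_ ((hlu.1.mono hB.sub).comp hd.smY hd.mapsY)
    exact smooth_ringInverse (hp.smS.comp hd.smY hd.mapsY) fun y hy => hp.unit _ (hd.mapsY hy)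
  have heq : ∀ x ∈ D, lu (𝓡∂ n) q v x =
        S x ((fun y => Ring.inverse (S (Y y)) (lu (𝓡∂ n) q v (Y y))) (X x)) := by
    intro x hx
    simp only
    rw [hd.inv1 x hx]
    have h1 : S x * Ring.inverse (S x) = 1 := Ring.mul_inverse_cancel _ (hp.unit x hx)
    have h2 := congrArg (fun T : EndF N => T (lu (𝓡∂ n) q v x)) h1
    simp only [ContinuousLinearMap.mul_apply, ContinuousLinearMap.one_apply] at h2
    exact h2.symm
  refine ⟨hsm, heq, ?_⟩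
  refine hSol n N (P.loc q) W.toLD D (HB z r₀) X Y S hB.rel (cERel_relOpen_HB z r₀)
    (cERel_okMono hok hB.sub) hB.model.ok hp _ ?_ hsm
  exact cERel_sol_congr _ hB.rel (fun x hx => heq x hx) (cERel_solMono hlu hB.sub)

theorem cERel_h_eq {P : One n N M} {Γ : Set M} {q : M} {z : E n} {r₀ κ : ℝ} {cp : Cpl n N} {j0 : Fin N}
    {W : Model n N}
    {D : Set (E n)} {X Y : E n → E n} {S : E n → EndF N} {s : Fin N → M → Fib N}
    {t : Fin n → M → Fib N} (hB : BdM P Γ q z r₀ κ cp j0 W D X Y S s t) {x : E n}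
    (hx : x ∈ HB z r₀) (hx0 : x 0 = 0) : W.h x = 1 := by
  obtain ⟨h1, h2, h3, h4, h5⟩ := hB.bd x hx hx0
  have h := hB.pull.h_eq x h1
  rw [h2, h4] at h
  rw [← h]
  change ContinuousLinearMap.adjoint (1 : EndF N) * 1 * 1 = 1
  rw [mul_one, mul_one]
  exact ContinuousLinearMap.adjoint_id

theorem cERel : CRel1_statement.{u} → AFlux_statement → BSol_statement → CData_statement.{u} →
    CHarm_statement.{u} → CUniq_statement.{u} → CLoc_statement.{u} → CERel_statement.{u} := by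
  intro hRel hFlux hSol hData hHarm hUniq hLoc
  intro n N _ M _ _ _ _ _ _ _ _ P Q Γ q z r₀ κ₁ κ₂ cp j0 W₁ W₂ D₁ D₂ X₁ Y₁ X₂ Y₂ S₁ S₂ s t
    hB₁ hB₂ hs ht hΓ hΓn hS r hr hrr
  obtain ⟨⟨hPsol, hQsol, hSQ⟩, hD⟩ := hData n N M P Q Γ hΓ hΓn hS
  obtain ⟨C₁, hC₁, Z₁, hZ₁, hE₁, hR₁⟩ := hRel n N M P Γ q z r₀ κ₁ cp j0 W₁ D₁ X₁ Y₁ S₁ _ _ hB₁
    hPsol hΓ hΓn r hr hrr
  obtain ⟨C₂, hC₂, Z₂, hZ₂, hE₂, hR₂⟩ := hRel n N M Q Γ q z r₀ κ₂ cp j0 W₂ D₂ X₂ Y₂ S₂ _ _ hB₂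
    hQsol hΓ hΓn r hr hrr
  have hbd : ((𝓡∂ n).boundary M).Nonempty := by
    obtain ⟨O, hO, hΓO⟩ := hΓ
    obtain ⟨x, hx⟩ := hΓn
    rw [hΓO] at hx
    exact ⟨x, hx.2⟩
  have hΓb : Γ ⊆ (𝓡∂ n).boundary M := by
    obtain ⟨O, hO, hΓO⟩ := hΓ
    rw [hΓO]
    exact inter_subset_right
  obtain ⟨hU, -, -⟩ := hUniq n N M P hbd
  -- the two extensions have the same boundary values
  have hZZ : ∀ c, TstH z r c → ∀ m ∈ (𝓡∂ n).boundary M, Z₁ c m = Z₂ c m := by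
    intro c hc m hm
    obtain ⟨-, -, -, a4, a5, -⟩ := hZ₁ c hc
    obtain ⟨-, -, -, b4, b5, -⟩ := hZ₂ c hc
    by_cases h : ∃ y ∈ HB z r, y 0 = 0 ∧ m = (xc n q).symm y
    · obtain ⟨y, hy, hy0, rfl⟩ := h
      rw [a4 y hy hy0, b4 y hy hy0]
    · push Not at h
      rw [a5 m hm h, b5 m hm h]
  have hQH : ∀ c, TstH z r c → ∀ w, Q.Harm (Z₁ c) w → Q.Harm (Z₂ c) w := by
    intro c hc w hw
    exact ⟨hw.smooth, fun x hx => by rw [hw.boundary x hx, hZZ c hc x hx], hw.weak⟩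
  have key : ∀ c d, TstH z r c → TstH z r d → ∃ u₁ v₁ u₂ v₂ : M → Fib N,
      P.Harm (Z₁ c) u₁ ∧ P.Harm (Z₁ d) v₁ ∧ Q.Harm (Z₂ c) u₂ ∧ Q.Harm (Z₂ d) v₂ ∧
      P.E u₁ v₁ = Q.E u₂ v₂ ∧ Q.Harm (Z₁ c) u₂ ∧ Q.Harm (Z₁ d) v₂ := by
    intro c d hc hd
    obtain ⟨-, -, -, -, -, a6⟩ := hZ₁ c hc
    obtain ⟨-, -, -, -, -, b6⟩ := hZ₁ d hd
    obtain ⟨u₁, v₁, u₂, v₂, h1, h2, h3, h4, h5⟩ := hS (Z₁ c) (Z₁ d) a6 b6
    exact ⟨u₁, v₁, u₂, v₂, h1, h2, hQH c hc u₂ h3, hQH d hd v₂ h4, h5, h3, h4⟩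
  obtain ⟨hU₂, -, -⟩ := hUniq n N M Q hbd
  have hsub : HB z r ⊆ HB z r₀ := fun x hx => ⟨Metric.ball_subset_ball hrr.le hx.1, hx.2⟩
  refine ⟨⟨C₁ + C₂, ?_, ?_, ?_⟩, ?_⟩
  · intro c d hc hd
    obtain ⟨u₁, v₁, u₂, v₂, h1, h2, h3, h4, h5, -, -⟩ := key c d hc hd
    have e1 := (hR₁ c d hc hd u₁ v₁ h1 h2).1
    have e2 := (hR₂ c d hc hd u₂ v₂ h3 h4).1
    have e3 : ‖En W₁.toLD (HB z r) c d - En W₂.toLD (HB z r) c d‖ ≤
        ‖En W₁.toLD (HB z r) c d - P.E u₁ v₁‖ + ‖En W₂.toLD (HB z r) c d - Q.E u₂ v₂‖ := by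
      have : En W₁.toLD (HB z r) c d - En W₂.toLD (HB z r) c d =
          (En W₁.toLD (HB z r) c d - P.E u₁ v₁) - (En W₂.toLD (HB z r) c d - Q.E u₂ v₂) := by
        rw [h5]
        ring
      rw [this]
      exact norm_sub_le _ _
    exact e3.trans (cERel_arith hC₁ hC₂ (cERel_rem_nonneg _ _ _ _) (cERel_rem_nonneg _ _ _ _)
      (cERel_rem_nonneg _ _ _ _) (cERel_rem_nonneg _ _ _ _) e1 e2)
  · intro c hc
    obtain ⟨u₁, v₁, u₂, v₂, h1, h2, h3, h4, h5, -, -⟩ := key c c hc hc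
    have huv : v₁ = u₁ := hU _ _ _ _ h2 h1 fun x _ => rfl
    have e1 := (hR₁ c c hc hc u₁ v₁ h1 h2).2
    have e2 := (hR₂ c c hc hc u₂ v₂ h3 h4).1
    have e3 := (Complex.abs_re_le_norm _).trans e2
    rw [Complex.sub_re, ← h5, huv] at e3
    have e4 := (abs_le.1 e3).2
    have e5 := mul_nonneg hC₁ (sq_nonneg (Rem W₂.toLD z r c))
    nlinarith
  · intro c hc
    obtain ⟨u₁, v₁, u₂, v₂, h1, h2, h3, h4, h5, -, -⟩ := key c c hc hc
    have huv : v₂ = u₂ := hU₂ _ _ _ _ h4 h3 fun x _ => rfl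
    have e1 := (hR₂ c c hc hc u₂ v₂ h3 h4).2
    have e2 := (hR₁ c c hc hc u₁ v₁ h1 h2).1
    have e3 := (Complex.abs_re_le_norm _).trans e2
    rw [Complex.sub_re, h5, huv] at e3
    have e4 := (abs_le.1 e3).2
    have e5 := mul_nonneg hC₂ (sq_nonneg (Rem W₁.toLD z r c))
    nlinarith
  · intro u hu x hx hx0
    obtain ⟨f, hf, hfu₁, hfu₂⟩ := hu
    obtain ⟨s1, s2, s3⟩ := cERel_side hSol hHarm hLoc hB₁ hfu₁
    obtain ⟨t1, t2, t3⟩ := cERel_side hSol hHarm hLoc hB₂ hfu₂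
    refine ⟨?_, ?_⟩
    · obtain ⟨-, -, a3, a4, a5⟩ := hB₁.bd x (hsub hx) hx0
      obtain ⟨-, -, b3, b4, -⟩ := hB₂.bd x (hsub hx) hx0
      simp only [a3, a4, b3, b4, Ring.inverse_one, ContinuousLinearMap.one_apply, lu]
      rw [hfu₁.boundary _ (hΓb a5), hfu₂.boundary _ (hΓb a5)]
    · refine hFlux n N W₁.toLD W₂.toLD z r hr hB₁.z0 (cERel_okMono hB₁.model.ok hsub)
        (cERel_okMono hB₂.model.ok hsub) ?_ _ _ (cERel_solMono s3 hsub) (cERel_solMono t3 hsub)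
        ?_ x hx hx0
      · intro y hy hy0
        rw [cERel_h_eq hB₁ (hsub hy) hy0, cERel_h_eq hB₂ (hsub hy) hy0]
      · intro c hc
        have hcH := cERel_tstH hc
        obtain ⟨a1, -, -, -, -, a6⟩ := hZ₁ c hcH
        obtain ⟨b1, -, -, -, -, -⟩ := hZ₂ c hcH
        rw [← hE₁ c hcH u.1 hfu₁.smooth _ s1 s2, ← hE₂ c hcH u.2 hfu₂.smooth _ t1 t2]
        exact hD u ⟨f, hf, hfu₁, hfu₂⟩ (Z₁ c) (Z₂ c) a1 b1 (hZZ c hcH) a6.supp

end Vale.Agent.P088.EYM.G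

end

end

section

open MeasureTheory Set Filter Topology

open scoped ContDiff

noncomputable section

namespace Vale.Agent.P088.EYM.G

variable {n : ℕ} [NeZero n] {N : ℕ}

variable {F : Type*} [NormedAddCommGroup F] [NormedSpace ℝ F]

variable {D : Set (E n)}

section chr

variable {g₁ g₂ : E n → Matrix (Fin n) (Fin n) ℝ}

end chr

theorem djt_kappa (hD : RelOpen D) {W₁ W₂ : Model n N} (ok₁ : W₁.toLD.Ok D)
    (ok₂ : W₂.toLD.Ok D) {κ₁ κ₂ : ℝ} {cp : Cpl n N} (e₁ : EYMeq κ₁ cp W₁.toLD D)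
    (e₂ : EYMeq κ₂ cp W₂.toLD D) (hg : ∀ j l, Van D 3 (fun x => W₁.g x j l - W₂.g x j l))
    (hB : ∀ j, Van D 2 (fun x => W₁.B j x - W₂.B j x))
    (hne : ∃ x ∈ D, x 0 = 0 ∧ W₁.h x = 1 ∧ W₂.h x = 1) :
    κ₁ = κ₂ := by
  obtain ⟨x, hx, hx0, hh₁, hh₂⟩ := hne
  have hgx : W₁.g x = W₂.g x := by
    ext i j
    exact djt_val (hg i j) hx hx0
  have hBx : ∀ i, W₁.B i x = W₂.B i x := fun i => djt_val (hB i) hx hx0
  have hdB : ∀ i k, pd k (W₁.B i) x = pd k (W₂.B i) x := fun i k =>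
    djt_val (djt_pd hD (ok₁.B_smooth i) (ok₂.B_smooth i) (hB i) k) hx hx0
  have hcur : ∀ i j, cur W₁.B i j x = cur W₂.B i j x := fun i j => by
    simp only [cur, hBx, hdB]
  have h11 : ContinuousLinearMap.adjoint (1 : EndF N) * 1 = 1 := by
    rw [mul_one]
    exact star_one (EndF N)
  have hC : curS W₁.toLD 1 x = curS W₂.toLD 1 x := by
    funext a b
    unfold curS
    rw [hcur]
  have h1 := e₁.ein x hx 1 isUnit_one (h11.trans hh₁.symm) 0 0
  have h2 := e₂.ein x hx 1 isUnit_one (h11.trans hh₂.symm) 0 0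
  have h3 := djt_ric hD (djt_gok ok₁) (djt_gok ok₂) hg hx hx0 0 0
  rw [h1, h2, hC, hgx] at h3
  have h5 : 0 < W₂.g x 0 0 := (ok₂.g_pos x hx).diag_pos
  have h6 : κ₁ * W₂.g x 0 0 = κ₂ * W₂.g x 0 0 := by linarith
  exact mul_right_cancel₀ h5.ne' h6

end Vale.Agent.P088.EYM.G

end

end

section

open MeasureTheory Set Filter Topology

open scoped ContDiff

noncomputable section

namespace Vale.Agent.P088.EYM.G

theorem dbd : DBd_statement := by
  intro n N _ κ₁ κ₂ cp j0 W₁ W₂ z r C hn hr hz m₁ m₂ hh hc hf hf' hE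
  have hD : RelOpen (HB z r) := ⟨Metric.ball z r, Metric.isOpen_ball, rfl⟩
  have k₁ := dcv_coef hD m₁.ok m₁.frame (fun x hx hx0 => (hh x hx hx0).1)
  have k₂ := dcv_coef hD m₂.ok m₂.frame (fun x hx hx0 => (hh x hx hx0).2)
  have hER := dcv_erel m₁.ok m₂.ok m₁.frame m₂.frame hE
  obtain ⟨fG, fB, hc1⟩ := dcv_flux hD m₁.ok m₂.ok (fun a => (m₁.sol a).1)
    (fun a => (m₂.sol a).1) m₁.re m₂.re hc hf hf'
  have s₁ : SolD (HB z r) (GM W₁.g) W₁.B W₁.c j0 :=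
    ⟨fun a => (m₁.sol a).1, m₁.re, fun a x hx => by
      rw [← dcv_lop hD m₁.ok m₁.frame (m₁.sol a).1 hx]; exact (m₁.sol a).2 x hx⟩
  have s₂ : SolD (HB z r) (GM W₂.g) W₂.B W₂.c j0 :=
    ⟨fun a => (m₂.sol a).1, m₂.re, fun a x hx => by
      rw [← dcv_lop hD m₂.ok m₂.frame (m₂.sol a).1 hx]; exact (m₂.sol a).2 x hx⟩
  obtain ⟨hG, hB, hc3, -⟩ := df_boundary_van hD k₁ k₂ hER fG fB s₁ s₂ hc hc1
  have g₁ := dbd_gok m₁.ok.g_smooth m₁.ok.g_pos
  have g₂ := dbd_gok m₂.ok.g_smooth m₂.ok.g_pos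
  have hg := dme_metric_van hn hD g₁ g₂ hG
  refine ⟨djt_kappa hD m₁.ok m₂.ok m₁.eqs m₂.eqs hg hB
    ⟨z, ⟨Metric.mem_ball_self hr, hz.ge⟩, hz, hh z ⟨Metric.mem_ball_self hr, hz.ge⟩ hz⟩, ?_⟩
  exact djt_jet hD m₁.ok m₂.ok (fun a => (m₁.sol a).1) (fun a => (m₂.sol a).1) hg hB hc3
    (fun x hx hx0 => (hh x hx hx0).1.trans (hh x hx hx0).2.symm)

end Vale.Agent.P088.EYM.G

end

end

section

open Bundle Manifold MeasureTheory Set Filter Topology

open scoped ContDiff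

noncomputable section

namespace Vale.Agent.P088.EYM.G

set_option linter.unusedSectionVars false

set_option linter.all false

universe u

variable {n N : ℕ} [NeZero n]

section Manifold

variable {M : Type u} [TopologicalSpace M] [ChartedSpace (EuclideanHalfSpace n) M]
  [IsManifold (𝓡∂ n) ∞ M]

variable [T2Space M] [CompactSpace M] [ConnectedSpace M] [MeasurableSpace M] [BorelSpace M]

/-- One model near a boundary point. -/
theorem cSetup_one (hB : BModel_statement) (hH : CHarm_statement.{u})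
    (hU : CUniq_statement.{u}) (hL : CLoc_statement.{u})
    (P : One n N M) (Γ : Set M) (κ : ℝ) (cp : Cpl n N) (hbd : ((𝓡∂ n).boundary M).Nonempty) (j0 : Fin N)
    (q : M) (z : E n) (r : ℝ) (s : Fin N → M → Fib N) (t : Fin n → M → Fib N) (hz : z 0 = 0)
    (hr : 0 < r) (hsub : HB z r ⊆ tg n q) (hΓ : ∀ y ∈ HB z r, y 0 = 0 → (xc n q).symm y ∈ Γ)
    (hs : ∀ j, ∃ f, P.Harm f (s j)) (ht : ∀ a, ∃ f, P.Harm f (t a))
    (hvs : ∀ y ∈ HB z r, y 0 = 0 → ∀ j, s j ((xc n q).symm y) = EuclideanSpace.single j 1)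
    (hvt : ∀ y ∈ HB z r, y 0 = 0 → ∀ a,
      t a ((xc n q).symm y) = EuclideanSpace.single j0 (y a : ℂ))
    (hpos : 0 < (pd 0 (lu (𝓡∂ n) q (t 0)) z j0).re) (hE : EYMm κ cp P.g P.A) :
    ∃ (W : Model n N) (X Y : E n → E n) (S : E n → EndF N) (r₀ : ℝ), 0 < r₀ ∧
      ∀ r, 0 < r → r ≤ r₀ → ∃ D : Set (E n), BdM P Γ q z r κ cp j0 W D X Y S s t := by
  obtain ⟨hRel, hOk, -, hSm⟩ := hL n N M
  have hD : RelOpen (tg n q) := hRel q
  have hlok : (P.loc q).Ok (tg n q) := hOk P q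
  have hsS : ∀ j, ContDiffOn ℝ ∞ (lu (𝓡∂ n) q (s j)) (tg n q) := fun j => by
    obtain ⟨f, hf⟩ := hs j
    exact hSm (s j) hf.smooth q
  have hS : ContDiffOn ℝ ∞ (frm n q s) (tg n q) := cSetup_frm_smooth hsS
  have hSv : ∀ v : Fib N, Sol (P.loc q) (tg n q) (fun x => frm n q s x v) := by
    intro v
    obtain ⟨g, hg⟩ := cSetup_harm_sum P (hU n N M P hbd).2.1 hs v j0 Finset.univ
    have h1 := hH n N M P g _ hg q
    have h2 : lu (𝓡∂ n) q (∑ j, v j • s j) = fun x => frm n q s x v := by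
      funext x
      rw [cSetup_frm_apply]
      unfold lu
      rw [Finset.sum_apply]
      rfl
    rw [h2] at h1
    exact h1
  have hTs : ∀ a, Sol (P.loc q) (tg n q) (lu (𝓡∂ n) q (t a)) := fun a => by
    obtain ⟨f, hf⟩ := ht a
    exact hH n N M P f _ hf q
  have hzm := cSetup_mem_HB hz hr
  have hS1 : ∀ y ∈ HB z r, y 0 = 0 → frm n q s y = 1 := fun y hy h0 =>
    cSetup_frm_one q s y (hvs y hy h0)
  obtain ⟨hX, hdet, h00⟩ := cSetup_local (j0 := j0) (T := fun a => lu (𝓡∂ n) q (t a)) hD hS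
    (fun a => (hTs a).1) hr hz hsub hS1 (fun y hy h0 a => hvt y hy h0 a) hpos
  set X : E n → E n := Xco j0 (frm n q s) (fun a => lu (𝓡∂ n) q (t a)) with hXdef
  have hXz : X z = z := hX z hzm hz
  obtain ⟨Y, W, r₁, hr₁, hmod⟩ := hB n N (P.loc q) (tg n q) κ cp j0 hD hlok (hE q) (frm n q s)
    (fun a => lu (𝓡∂ n) q (t a)) hS hSv hTs z (hsub hzm)
    (by rw [hS1 z hzm hz]; exact isUnit_one) hdet
    (Or.inr ⟨hz, h00, r, hr, fun x hx h0 => by
      show X x 0 = 0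
      rw [hX x hx h0, h0]⟩)
  rw [← hXdef, hXz] at hmod
  obtain ⟨D1, hD1D, hD1r, hzD1, hpull1, -, -⟩ := hmod r₁ hr₁ le_rfl
  obtain ⟨O, hO, hDO⟩ := hD1r
  have hzO : z ∈ O := by
    have : z ∈ O ∩ Hs n := by rw [← hDO]; exact hzD1
    exact this.1
  obtain ⟨ε, hε, hεO⟩ := Metric.isOpen_iff.1 hO z hzO
  have hεD : HB z ε ⊆ D1 := by
    rw [hDO]
    exact inter_subset_inter_left _ hεO
  have hYflat : ∀ y, y ∈ HB z ε → y ∈ HB z r → y 0 = 0 → Y y = y := by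
    intro y hy hy' h0
    have h1 := hpull1.diffeo.inv1 y (hεD hy)
    rw [hX y hy' h0] at h1
    exact h1
  have hYz : Y z = z := hYflat z (cSetup_mem_HB hz hε) hzm hz
  have hYc : ContinuousWithinAt Y (HB z r₁) z :=
    hpull1.diffeo.smY.continuousOn z (cSetup_mem_HB hz hr₁)
  have hev : ∀ᶠ y in 𝓝[HB z r₁] z, Y y ∈ Metric.ball z r := by
    have h1 : Metric.ball z r ∈ 𝓝 (Y z) := by
      rw [hYz]
      exact Metric.ball_mem_nhds z hr
    exact hYc.eventually h1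
  obtain ⟨δ, hδ, hδY⟩ := Metric.mem_nhdsWithin_iff.1 hev
  refine ⟨W, X, Y, frm n q s, min (min r r₁) (min ε δ), by (clear * - hr hr₁ hε hδ; positivity), ?_⟩
  intro ρ hρ hρle
  have hρr : ρ ≤ r := hρle.trans ((min_le_left _ _).trans (min_le_left _ _))
  have hρ1 : ρ ≤ r₁ := hρle.trans ((min_le_left _ _).trans (min_le_right _ _))
  have hρε : ρ ≤ ε := hρle.trans ((min_le_right _ _).trans (min_le_left _ _))
  have hρδ : ρ ≤ δ := hρle.trans ((min_le_right _ _).trans (min_le_right _ _))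
  obtain ⟨D, hDD, hDr, hzD, hpull, hmodel, hcoord⟩ := hmod ρ hρ hρ1
  have hmono : ∀ {a b : ℝ}, a ≤ b → HB z a ⊆ HB z b := fun hab =>
    inter_subset_inter_left _ (Metric.ball_subset_ball hab)
  refine ⟨D, ?_⟩
  refine
    { rel := hDr
      sub := hDD
      z0 := hz
      rpos := hρ
      pull := hpull
      model := hmodel
      bd := ?_
      bdD := ?_
      frame := fun x _ v => cSetup_frm_apply q s x v
      coord := hcoord }
  · intro y hy h0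
    have hyr := hmono hρr hy
    have hyY : Y y = y := hYflat y (hmono hρε hy) hyr h0
    refine ⟨?_, hX y hyr h0, hyY, hS1 y hyr h0, hΓ y hyr h0⟩
    have h1 := hpull.diffeo.mapsY hy
    rw [hyY] at h1
    exact h1
  · intro x hx h0
    have hXx : X x ∈ HB z ρ := hpull.diffeo.mapsX hx
    have hYX : Y (X x) = x := hpull.diffeo.inv1 x hx
    have hxb : x ∈ Metric.ball z r := by
      have h1 : X x ∈ Metric.ball z δ ∩ HB z r₁ :=
        ⟨Metric.ball_subset_ball hρδ hXx.1, hmono hρ1 hXx⟩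
      have h2 : Y (X x) ∈ Metric.ball z r := hδY h1
      rw [hYX] at h2
      exact h2
    have hxr : x ∈ HB z r := ⟨hxb, hDr.subset hx⟩
    rw [hX x hxr h0] at hXx
    exact hXx

end Manifold

/-- Both models near the boundary point. -/
theorem cSetup : CStart_statement.{u} → BModel_statement → CHarm_statement.{u} →
    CUniq_statement.{u} → CLoc_statement.{u} → CSetup_statement.{u} := by
  intro hC hB hH hU hL n N _ M _ _ _ _ _ _ _ _ P Q Γ κ₁ κ₂ cp hn hN hΓ hΓne hSD hE₁ hE₂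
  obtain ⟨j0, q, z, r, s, t, hz, hr, hsub, hsym, hs, ht, hval, hp₁, hp₂⟩ :=
    hC n N M P Q Γ hn hN hΓ hΓne hSD
  have hbd : ((𝓡∂ n).boundary M).Nonempty := by
    obtain ⟨O, -, rfl⟩ := hΓ
    exact hΓne.mono inter_subset_right
  obtain ⟨W₁, X₁, Y₁, S₁, r₁, hr₁, h₁⟩ := cSetup_one hB hH hU hL P Γ κ₁ cp hbd j0 q z r
    (fun j => (s j).1) (fun a => (t a).1) hz hr hsub hsym
    (fun j => by obtain ⟨f, -, h, -⟩ := hs j; exact ⟨f, h⟩)
    (fun a => by obtain ⟨f, -, h, -⟩ := ht a; exact ⟨f, h⟩)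
    (fun y hy h0 j => ((hval y hy h0).1 j).1) (fun y hy h0 a => ((hval y hy h0).2 a).1) hp₁ hE₁
  obtain ⟨W₂, X₂, Y₂, S₂, r₂, hr₂, h₂⟩ := cSetup_one hB hH hU hL Q Γ κ₂ cp hbd j0 q z r
    (fun j => (s j).2) (fun a => (t a).2) hz hr hsub hsym
    (fun j => by obtain ⟨f, -, -, h⟩ := hs j; exact ⟨f, h⟩)
    (fun a => by obtain ⟨f, -, -, h⟩ := ht a; exact ⟨f, h⟩)
    (fun y hy h0 j => ((hval y hy h0).1 j).2) (fun y hy h0 a => ((hval y hy h0).2 a).2) hp₂ hE₂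
  refine ⟨j0, q, z, min r₁ r₂, s, t, W₁, W₂, X₁, Y₁, X₂, Y₂, S₁, S₂, lt_min hr₁ hr₂, hs, ht, ?_⟩
  intro ρ hρ hle
  obtain ⟨D₁, hD₁⟩ := h₁ ρ hρ (hle.trans (min_le_left _ _))
  obtain ⟨D₂, hD₂⟩ := h₂ ρ hρ (hle.trans (min_le_right _ _))
  exact ⟨D₁, D₂, hD₁, hD₂⟩

end Vale.Agent.P088.EYM.G

end

end

section

open Bundle Manifold MeasureTheory Set Filter Topology

open scoped ContDiff

noncomputable section

namespace Vale.Agent.P088.EYM.G

universe u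

section basic

variable {n N : ℕ} [NeZero n] {M : Type u} [TopologicalSpace M]
  [ChartedSpace (EuclideanHalfSpace n) M] [IsManifold (𝓡∂ n) ∞ M]

variable [MeasurableSpace M]

end basic

section uniq

variable {n N : ℕ} [NeZero n] {M : Type u} [TopologicalSpace M]
  [ChartedSpace (EuclideanHalfSpace n) M] [IsManifold (𝓡∂ n) ∞ M] [T2Space M] [CompactSpace M]
  [ConnectedSpace M] [MeasurableSpace M] [BorelSpace M]

/-- all interior points are good -/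
theorem cGlobal_good (hNear : CNear_statement.{u}) (hCl : CClosed_statement.{u})
    (hC : CConn_statement.{u}) {P Q : One n N M}
    {Γ : Set M} {κ₁ κ₂ : ℝ} {cp : Cpl n N} (hn : 3 ≤ n) (hN : 0 < N) (hΓ : RelBd n Γ) (hΓn : Γ.Nonempty)
    (hS : SameD P Q Γ) (h1 : EYMm κ₁ cp P.g P.A) (h2 : EYMm κ₂ cp Q.g Q.A) :
    ∀ x ∈ Mi n M, x ∈ Gd P Q Γ := by
  obtain ⟨rfl, O, φ, V, hm, hne⟩ := hNear n N M P Q Γ κ₁ κ₂ cp hn hN hΓ hΓn hS h1 h2
  have hopen : IsOpen (Gd P Q Γ) := by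
    rw [isOpen_iff_mem_nhds]
    rintro x ⟨O', φ', V', hm', hx⟩
    filter_upwards [hm'.isOpen.mem_nhds hx] with y hy using ⟨O', φ', V', hm', hy⟩
  have hpre := (hC n M).2.1
  have hsub : Mi n M ⊆ Gd P Q Γ := by
    refine hpre.subset_of_closure_inter_subset hopen ?_ ?_
    · obtain ⟨x, hx⟩ := hne
      exact ⟨x, hm.sub hx, O, φ, V, hm, hx⟩
    · rintro x ⟨hx1, hx2⟩
      exact hCl n N M P Q Γ κ₁ cp hn hN hΓ hΓn hS h1 h2 x hx2 hx1
  exact hsub

end uniq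

theorem cGlobal : CNear_statement.{u} → CClosed_statement.{u} → CRunge_statement.{u} →
    CData_statement.{u} → CConn_statement.{u} → CUniq_statement.{u} → CGlobal_statement.{u} := by
  intro hNear hCl hR hD hC _ n N _ M _ _ _ _ _ _ _ _ P Q Γ κ₁ κ₂ cp hn hN hΓ hΓn hS h1 h2
  have hn2 : 2 ≤ n := le_trans (by norm_num) hn
  obtain ⟨⟨hP, hQ, hS'⟩, _⟩ := hD n N M P Q Γ hΓ hΓn hS
  have hG := cGlobal_good hNear hCl hC hn hN hΓ hΓn hS h1 h2
  have hG' := cGlobal_good hNear hCl hC hn hN hΓ hΓn hS' h2 h1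
  obtain ⟨Φ, V, hΦ⟩ := cGlobal_glue hR hC hn2 hN hΓ hΓn hP hQ hG
  obtain ⟨Ψ, V', hΨ⟩ := cGlobal_glue hR hC hn2 hN hΓ hΓn hQ hP hG'
  refine ⟨Φ, Ψ, V, V', hΦ, hΨ, ?_⟩
  have aux : ∀ {P Q : One n N M} {Φ Ψ : M → M} {V V' : M → EndF N}, P.HasSol Γ → Q.HasSol Γ →
      (∀ x ∈ Mi n M, ∃ O, x ∈ O ∧ LMatch P Q Γ O Φ V) →
      (∀ x ∈ Mi n M, ∃ O, x ∈ O ∧ LMatch Q P Γ O Ψ V') → ∀ x ∈ Mi n M, Φ (Ψ x) = x := by
    intro P Q Φ Ψ V V' hP hQ hΦ hΨ x hx
    obtain ⟨O', hx', hm'⟩ := hΨ x hx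
    have hy : Ψ x ∈ Mi n M := hm'.maps hx'
    obtain ⟨O, hyO, hm⟩ := hΦ (Ψ x) hy
    refine (cGlobal_uniq hR hC (P := P) (Q := Q) hn2 hN hΓ hΓn hP hQ hx (hm.maps hyO)
      (V := 1) (V' := V' x * V (Ψ x)) (one_mem _) ?_).1.symm
    intro u hu
    have e1 := hm'.sol _ (cGlobal_swap hu) x hx'
    have e2 := hm.sol u hu (Ψ x) hyO
    change u.1 x = V' x (u.2 (Ψ x)) at e1
    change u.1 x = V' x (V (Ψ x) (u.1 (Φ (Ψ x))))
    rw [← e2]
    exact e1
  exact fun x hx => ⟨aux hP hQ hΦ hΨ x hx, aux hQ hP hΨ hΦ x hx⟩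

end Vale.Agent.P088.EYM.G

end

end

section

open Bundle Manifold MeasureTheory Set Filter Topology

open scoped ContDiff

noncomputable section

namespace Vale.Agent.P088.EYM.G

universe u

set_option linter.unusedSectionVars false

section main

variable {n N : ℕ} [NeZero n] {M : Type u} [TopologicalSpace M]
  [ChartedSpace (EuclideanHalfSpace n) M] [IsManifold (𝓡∂ n) ∞ M] [T2Space M] [CompactSpace M]
  [ConnectedSpace M] [MeasurableSpace M] [BorelSpace M]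

end main

/-- The main theorem in abstract form. -/
theorem cMain : CGlobal_statement.{u} → CDiff_statement.{u} → CTensor_statement.{u} →
    CConn_statement.{u} → CData_statement.{u} → CLoc_statement.{u} → CMain_statement.{u} := by
  intro hGl hDi hTe hCo hDa hLoc n N _ M _ _ _ _ _ _ _ _ P Q Γ κ₁ κ₂ cp hn hN hΓ hΓne hS hE₁ hE₂
  obtain ⟨Φ, Ψ, V, V', hm, hm', hinv⟩ := hGl n N M P Q Γ κ₁ κ₂ cp hn hN hΓ hΓne hS hE₁ hE₂
  obtain ⟨F, G, hG, hFG⟩ := hDi n N M P Q Γ Φ Ψ V V' hm hm' hinv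
  have hLM : ∀ x ∈ Mi n M, ∃ O, x ∈ O ∧ LMatch P Q Γ O F G := by
    intro x hx
    obtain ⟨O, hxO, h⟩ := hm x hx
    exact ⟨O, hxO, cMain_congr h (fun y hy => (hFG y (h.sub hy)).1)
      fun y hy => (hFG y (h.sub hy)).2⟩
  obtain ⟨hmet, hcon, huni, hsol⟩ := hTe n N M P Q Γ F G hG hLM
  obtain ⟨⟨hP, hQ, -⟩, -⟩ := hDa n N M P Q Γ hΓ hΓne hS
  obtain ⟨hIo, -, -⟩ := hCo n M
  have hbd : IsClosed ((𝓡∂ n).boundary M) := by
    rw [← ModelWithCorners.compl_interior]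
    exact hIo.isClosed_compl
  have hGu : IsSmoothUnitary (𝓡∂ n) G := ⟨hG, huni⟩
  have hFbd : ∀ p ∈ (𝓡∂ n).boundary M, F p ∈ (𝓡∂ n).boundary M := by
    intro p hp
    rw [← ModelWithCorners.compl_interior] at hp ⊢
    intro h
    obtain ⟨O, hO, hLO⟩ := hm' (F p) h
    have h1 : Ψ (F p) ∈ Mi n M := hLO.maps hO
    have h2 : F (Ψ (F p)) = F p := by
      rw [(hFG _ h1).1]
      exact (hinv _ h).1
    have h3 := F.injective h2
    rw [h3] at h1
    exact hp h1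
  have key : ∀ p ∈ Γ, ∀ f : M → Fib N, IsBdryData (𝓡∂ n) Γ f → f p = G p (f (F p)) := by
    intro p hp f hf
    obtain ⟨u₁, hu₁⟩ := hP f hf
    obtain ⟨u₂, hu₂⟩ := hQ f hf
    have hpb : p ∈ (𝓡∂ n).boundary M := by
      obtain ⟨O, -, hΓO⟩ := hΓ
      rw [hΓO] at hp
      exact hp.2
    have h1 := hsol (u₁, u₂) ⟨f, hf, hu₁, hu₂⟩ p
    have h2 := hu₂.boundary p hpb
    have h3 := hu₁.boundary (F p) (hFbd p hpb)
    rw [← h2, ← h3]
    exact h1
  have hfix : ∀ p ∈ Γ, F p = p := by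
    intro p hp
    by_contra hne
    obtain ⟨f, hf, hfp, hf0⟩ := cMain_bump (N := N) hbd hΓ hp (V := {F p}ᶜ)
      isClosed_singleton.isOpen_compl (fun h => hne (mem_singleton_iff.1 h).symm)
      (EuclideanSpace.single (⟨0, hN⟩ : Fin N) (1 : ℂ))
    have h1 := key p hp f hf
    rw [hfp, hf0 (F p) (fun h => h rfl), map_zero] at h1
    have h2 : (EuclideanSpace.single (⟨0, hN⟩ : Fin N) (1 : ℂ) : Fib N) ⟨0, hN⟩ = 0 := by
      rw [h1]
      rfl
    simp at h2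
  have hone : ∀ p ∈ Γ, G p = 1 := by
    intro p hp
    refine ContinuousLinearMap.ext fun e => ?_
    obtain ⟨f, hf, hfp, -⟩ := cMain_bump (N := N) hbd hΓ hp isOpen_univ (mem_univ p) e
    have h1 := key p hp f hf
    rw [hfix p hp, hfp] at h1
    exact h1.symm
  refine ⟨F, fun x => ContinuousLinearMap.adjoint (G x),
    ⟨contMDiff_adj hG, fun x => Unitary.star_mem (huni x)⟩, fun x hx => ⟨hfix x hx, ?_⟩, hmet,
    cMain_conn P Q F hGu hcon⟩
  show ContinuousLinearMap.adjoint (G x) = 1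
  rw [hone x hx]
  exact star_one (EndF N)

end Vale.Agent.P088.EYM.G

end

end

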