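import Vale.Agent.P088.H820.G3
import Vale.Agent.P088.H820.G4

/-!
# P088, general natural couplings: assembly
-/

section

namespace Vale.Agent.P088.EYM.G

universe u

theorem assembly_of (hUcpInt : AUcpInt_statement) (hUcpBd : AUcpBd_statement)
    (hUV : UcpV_statement) (hUVBd : UcpVBd_statement) :
    CNear_statement.{u} ∧ CGlobal_statement.{u} ∧ CMain_statement.{u} := by
  -- local analysis
  have lInt := aLinInt hUcpInt
  have lBd := aLinBd hUcpBd lInt
  have aI : AInt_statement := aInt (aIHigh aICacc aIProl) aISup aIReal
  have aP : APoincare_statement := aPoincare aHardy
  have bRI : BRigInt_statement := bRigInt hUV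
  have bRB : BRigBd_statement := bRigBd hUVBd
  -- manifold part
  have loc : CLoc_statement.{u} := cLoc
  have cI : CInt_statement.{u} := cInt
  have en : CEnergy_statement.{u} := cEnergy cI
  have ext : CExt_statement.{u} := cExt
  have harm : CHarm_statement.{u} := cHarm aWeakStrong loc en ext
  have poinc : CPoinc_statement.{u} := cPoinc aP loc en cI
  have form : CForm_statement.{u} := cForm cI
  have uniq : CUniq_statement.{u} := cUniq poinc form cI
  have conn : CConn_statement.{u} := cConn loc
  have ucp : CUcp_statement.{u} := cUcp lInt harm loc conn
  have rA : CRungeA_statement.{u} := cRungeA cHilb poinc form uniq cI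
  have rB : CRungeB_statement.{u} := cRungeB hUcpInt hUcpBd conn loc en cI ext
  have rC : CRungeC_statement.{u} := cRungeC rA rB aGreen aDens cI en ext form loc
  have runge : CRunge_statement.{u} := cRunge rC aI ES.aSolve uniq cI harm loc
  have data : CData_statement.{u} := cData uniq form
  have start : CStart_statement.{u} := cStart ucp lBd aFlux data ext en harm uniq loc
  have setup : CSetup_statement.{u} := cSetup start bModel harm uniq loc
  have rel1 : CRel1_statement.{u} := cRel1 aGreen aHardy bEnergy ext en uniq form loc
  have erel : CERel_statement.{u} := cERel rel1 aFlux bSol data harm uniq loc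
  have mtch : CMatch_statement.{u} := cMatch bSymm bComp bIntr cChart loc
  have near : CNear_statement.{u} := cNear setup erel dbd bRB lBd bSol mtch harm uniq loc
  have unm : CUnm_statement.{u} := cUnm cChart loc
  have lim : CLim_statement.{u} := cLim runge data loc conn
  have coord : CCoord_statement.{u} := cCoord runge unm data uniq loc conn
  have modeq : CModEq_statement.{u} := cModEq unm bIntr bSymm bComp
  have closed : CClosed_statement.{u} :=
    cClosed lim coord modeq bModel bRI lInt bSol mtch harm uniq loc
  have glob : CGlobal_statement.{u} := cGlobal near closed runge data conn uniq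
  have cont : CCont_statement.{u} := cCont unm loc conn
  have reg : CReg_statement.{u} := cReg aExtSys bChr unm loc conn
  have diff : CDiff_statement.{u} := cDiff cont reg conn
  have tens : CTensor_statement.{u} := cTensor cChart conn loc
  exact ⟨near, glob, cMain glob diff tens conn data loc⟩

/-- The first match, with the equality of the constants. -/
theorem cnear : CNear_statement.{u} := (assembly_of aUcpInt aUcpBd ucpV ucpVBd).1

/-- The global match in the interior. -/
theorem cglobal : CGlobal_statement.{u} := (assembly_of aUcpInt aUcpBd ucpV ucpVBd).2.1

/-- The main theorem in abstract form. -/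
theorem cmain : CMain_statement.{u} := (assembly_of aUcpInt aUcpBd ucpV ucpVBd).2.2

end Vale.Agent.P088.EYM.G

end

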