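import Vale.Agent.P088.H820.G6

/-!
# P088, general natural couplings: the concrete theorem
-/

open Manifold MeasureTheory Set
open scoped ContDiff Matrix

namespace Vale.Agent.P088.B

universe u

theorem coupled_related {n N : ℕ} [NeZero n] (hn : 3 ≤ n) (hN : 1 ≤ N) {M : Type u}
    [TopologicalSpace M] [ChartedSpace (EuclideanHalfSpace n) M] [IsManifold (𝓡∂ n) ∞ M]
    [T2Space M] [CompactSpace M] [ConnectedSpace M] (Z : At n M) (hZ : Z = at_ n M)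
    (Γ O : Set M) (hO : IsOpen O) (hΓ : Γ = O ∩ bd Z) (hne : Γ.Nonempty)
    {C : Matrix (Fin n) (Fin n) ℝ → (Fin n → Fin n → Matrix (Fin N) (Fin N) ℂ) →
      Matrix (Fin n) (Fin n) ℝ} (hC : Natural C) (P Q : Pair Z N) (κ₁ κ₂ : ℝ)
    (hP : Coupled κ₁ C P) (hQ : Coupled κ₂ C Q) (hdata : SameData Γ P Q) :
    κ₁ = κ₂ ∧ Related Γ P Q := by
  subst hZ
  rw [bd_at] at hΓ
  let _ : MeasurableSpace M := borel M
  have _ : BorelSpace M := ⟨rfl⟩
  have hd := (Vale.Agent.P088.S.data_iff Γ (conv P) (conv Q)).1 (data_conv hdata)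
  have h1 := bridge_coupled hC hP
  have h2 := bridge_coupled hC hQ
  refine ⟨?_, related_conv (Vale.Agent.P088.S.bridge_related Vale.Agent.P088.EYM.cChart ?_)⟩
  · exact (Vale.Agent.P088.EYM.G.cnear n N M
      ⟨Vale.Agent.P088.S.gOf (conv P), (conv P).vol, Vale.Agent.P088.S.connOf (conv P),
        Vale.Agent.P088.S.isVol_gOf (conv P)⟩
      ⟨Vale.Agent.P088.S.gOf (conv Q), (conv Q).vol, Vale.Agent.P088.S.connOf (conv Q),
        Vale.Agent.P088.S.isVol_gOf (conv Q)⟩ Γ κ₁ κ₂ (cplOf hC) hn hN ⟨O, hO, hΓ⟩ hne hd h1 h2).1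
  · exact Vale.Agent.P088.EYM.G.cmain n N M
      ⟨Vale.Agent.P088.S.gOf (conv P), (conv P).vol, Vale.Agent.P088.S.connOf (conv P),
        Vale.Agent.P088.S.isVol_gOf (conv P)⟩
      ⟨Vale.Agent.P088.S.gOf (conv Q), (conv Q).vol, Vale.Agent.P088.S.connOf (conv Q),
        Vale.Agent.P088.S.isVol_gOf (conv Q)⟩ Γ κ₁ κ₂ (cplOf hC) hn hN ⟨O, hO, hΓ⟩ hne hd h1 h2

end Vale.Agent.P088.B
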