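import Vale.Agent.P088.H820.G1
import Mathlib.Analysis.SpecialFunctions.ContinuousFunctionalCalculus.Rpow.Basic
import Mathlib.Analysis.InnerProductSpace.StarOrder
import Mathlib.Analysis.CStarAlgebra.ContinuousLinearMap

open ContinuousLinearMap

noncomputable section

namespace Vale.Agent.P088.EYM.G

variable {n N : ℕ}

theorem isUnit_of_inj {P : EndF N} (h : ∀ v : Fib N, P v = 0 → v = 0) : IsUnit P := by
  have hinj : Function.Injective P := by
    rw [injective_iff_map_eq_zero]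
    exact h
  exact ContinuousLinearMap.isUnit_iff_bijective.2
    ⟨hinj, (LinearMap.injective_iff_surjective (f := (P : Fib N →ₗ[ℂ] Fib N))).1 hinj⟩

/-- a positive definite endomorphism is injective, hence a unit -/
theorem isUnit_of_pos {P : EndF N} (hpos : ∀ v : Fib N, v ≠ 0 → 0 < (inner ℂ v (P v) : ℂ).re) :
    IsUnit P := by
  refine isUnit_of_inj fun v hv => ?_
  by_contra hne
  have := hpos v hne
  rw [hv, inner_zero_right] at this
  simp at this

theorem sq {P : EndF N} (hadj : adjoint P = P)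
    (hpos : ∀ v : Fib N, v ≠ 0 → 0 < (inner ℂ v (P v) : ℂ).re) :
    ∃ R : EndF N, IsUnit R ∧ adjoint R * R = P ∧ ‖R - 1‖ ≤ ‖P - 1‖ := by
  have hP : P.IsPositive := by
    refine ⟨?_, fun v => ?_⟩
    · intro v w
      have := ContinuousLinearMap.adjoint_inner_left P w v
      rw [hadj] at this
      exact this
    · by_cases hv : v = 0
      · simp [hv, ContinuousLinearMap.reApplyInnerSelf]
      · have := (hpos v hv).le
        have e : (inner ℂ (P v) v : ℂ).re = (inner ℂ v (P v) : ℂ).re :=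
          inner_re_symm (𝕜 := ℂ) (P v) v
        change 0 ≤ (inner ℂ (P v) v : ℂ).re
        rw [e]
        exact this
  have h0 : 0 ≤ P := ContinuousLinearMap.nonneg_iff_isPositive P |>.2 hP
  set R : EndF N := CFC.sqrt P with hR
  have hRR : R * R = P := CFC.sqrt_mul_sqrt_self P h0
  have hR0 : R.IsPositive := (ContinuousLinearMap.nonneg_iff_isPositive R).1 (CFC.sqrt_nonneg P)
  have hRa : adjoint R = R := hR0.isSelfAdjoint.adjoint_eq
  refine ⟨R, ?_, by rw [hRa, hRR], ?_⟩
  · refine isUnit_of_inj fun v hv => ?_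
    by_contra hne
    have := hpos v hne
    rw [← hRR] at this
    rw [show (R * R) v = R (R v) from rfl, hv, map_zero, inner_zero_right] at this
    simp at this
  · refine ContinuousLinearMap.opNorm_le_bound _ (norm_nonneg _) fun v => ?_
    have h1 : (P - 1) v = (R + 1) ((R - 1) v) := by
      rw [← hRR]
      have e1 : (R * R - 1) v = R (R v) - v := rfl
      have e2 : (R + 1) ((R - 1) v) = R (R v - v) + (R v - v) := rfl
      rw [e1, e2, map_sub]
      abel
    have h2 : ∀ w : Fib N, ‖w‖ ≤ ‖(R + 1) w‖ := by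
      intro w
      have e3 : (R + 1) w = R w + w := rfl
      rw [e3]
      have e4 : ‖R w + w‖ ^ 2 = ‖R w‖ ^ 2 + 2 * (inner ℂ (R w) w : ℂ).re + ‖w‖ ^ 2 :=
        norm_add_sq (𝕜 := ℂ) (R w) w
      have e5 : 0 ≤ (inner ℂ (R w) w : ℂ).re := hR0.re_inner_nonneg_left w
      have e6 : ‖w‖ ^ 2 ≤ ‖R w + w‖ ^ 2 := by nlinarith [sq_nonneg ‖R w‖]
      exact (sq_le_sq₀ (norm_nonneg _) (norm_nonneg _)).1 e6
    calc ‖(R - 1) v‖ ≤ ‖(R + 1) ((R - 1) v)‖ := h2 _
      _ = ‖(P - 1) v‖ := by rw [h1]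
      _ ≤ ‖P - 1‖ * ‖v‖ := ContinuousLinearMap.le_opNorm _ _

/-- a frame of `h` close to the given frame `S₀` -/
theorem sqrel {S₀ h : EndF N} (hS : IsUnit S₀) (hadj : adjoint h = h)
    (hpos : ∀ v : Fib N, v ≠ 0 → 0 < (inner ℂ v (h v) : ℂ).re) :
    ∃ S : EndF N, IsUnit S ∧ adjoint S * S = h ∧
      ‖S - S₀‖ ≤ ‖Ring.inverse S₀‖ ^ 2 * ‖S₀‖ * ‖h - adjoint S₀ * S₀‖ := by
  set T := Ring.inverse S₀ with hT
  have hST : S₀ * T = 1 := Ring.mul_inverse_cancel _ hS
  have hTS : T * S₀ = 1 := Ring.inverse_mul_cancel _ hS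
  have hadjm : ∀ A B : EndF N, adjoint (A * B) = adjoint B * adjoint A := fun A B =>
    ContinuousLinearMap.adjoint_comp A B
  have h1 : adjoint (1 : EndF N) = 1 := by
    exact star_one (EndF N)
  have hSTa : adjoint T * adjoint S₀ = 1 := by rw [← hadjm, hST, h1]
  have hTSa : adjoint S₀ * adjoint T = 1 := by rw [← hadjm, hTS, h1]
  set P := adjoint T * h * T with hP
  have hPadj : adjoint P = P := by
    rw [hP, hadjm, hadjm, hadj, ContinuousLinearMap.adjoint_adjoint, mul_assoc]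
  have hPpos : ∀ v : Fib N, v ≠ 0 → 0 < (inner ℂ v (P v) : ℂ).re := by
    intro v hv
    have e1 : P v = adjoint T (h (T v)) := rfl
    rw [e1, ContinuousLinearMap.adjoint_inner_right]
    refine hpos _ fun h0 => hv ?_
    have : v = S₀ (T v) := by
      rw [show S₀ (T v) = (S₀ * T) v from rfl, hST]; rfl
    rw [this, h0, map_zero]
  obtain ⟨R, hRu, hRR, hRn⟩ := sq hPadj hPpos
  refine ⟨R * S₀, hRu.mul hS, ?_, ?_⟩
  · rw [hadjm, mul_assoc, ← mul_assoc (adjoint R), hRR, hP]
    calc adjoint S₀ * (adjoint T * h * T * S₀) = (adjoint S₀ * adjoint T) * h * (T * S₀) := by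
          noncomm_ring
      _ = h := by rw [hTSa, hTS, one_mul, mul_one]
  · have e1 : R * S₀ - S₀ = (R - 1) * S₀ := by rw [sub_mul, one_mul]
    have e2 : P - 1 = adjoint T * (h - adjoint S₀ * S₀) * T := by
      rw [mul_sub, sub_mul, hP]
      congr 1
      calc (1 : EndF N) = (adjoint T * adjoint S₀) * (S₀ * T) := by rw [hSTa, hST, one_mul]
        _ = _ := by noncomm_ring
    have hTn : ‖adjoint T‖ = ‖T‖ := LinearIsometryEquiv.norm_map _ _
    rw [e1]
    calc ‖(R - 1) * S₀‖ ≤ ‖R - 1‖ * ‖S₀‖ := norm_mul_le _ _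
      _ ≤ ‖P - 1‖ * ‖S₀‖ := mul_le_mul_of_nonneg_right hRn (norm_nonneg _)
      _ ≤ (‖T‖ * ‖h - adjoint S₀ * S₀‖ * ‖T‖) * ‖S₀‖ := by
          refine mul_le_mul_of_nonneg_right ?_ (norm_nonneg _)
          rw [e2]
          refine (norm_mul_le _ _).trans (mul_le_mul_of_nonneg_right ?_ (norm_nonneg _))
          refine (norm_mul_le _ _).trans (le_of_eq ?_)
          rw [hTn]
      _ = _ := by ring

end Vale.Agent.P088.EYM.G
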