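import Vale.Agent.P088.Bdl.B12

/-!
# P088: invariance of the energy under a diffeomorphism and a gauge transformation
-/

open Bundle Manifold MeasureTheory Set Filter Topology
open scoped ContDiff

noncomputable section

namespace Vale.Agent.P088.EYM.G

universe u

set_option linter.unusedSectionVars false

section

variable {n N : ℕ} [NeZero n] {M : Type u} [TopologicalSpace M]
  [ChartedSpace (EuclideanHalfSpace n) M] [IsManifold (𝓡∂ n) ∞ M] [MeasurableSpace M]

/-- `(F, G)` intertwines the pairs: `g₂ = F^* g₁`, `dG + A₂ G = G F^* A₁`, `G` unitary. -/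
structure Twist (P Q : One n N M) (F : Diffeomorph (𝓡∂ n) (𝓡∂ n) M M ∞) (G : M → EndF N) :
    Prop where
  sm : ContMDiff (𝓡∂ n) 𝓘(ℝ, EndF N) ∞ G
  unit : ∀ x, G x ∈ unitary (EndF N)
  met : ∀ (x : M) (v w : TangentSpace (𝓡∂ n) x), Q.g.inner x v w =
    P.g.inner (F x) (mfderiv (𝓡∂ n) (𝓡∂ n) F x v) (mfderiv (𝓡∂ n) (𝓡∂ n) F x w)
  con : ∀ (x : M) (v : TangentSpace (𝓡∂ n) x), dmap (𝓡∂ n) G x v + Q.A.form x v ∘L G x =
    G x ∘L P.A.form (F x) (mfderiv (𝓡∂ n) (𝓡∂ n) F x v)

/-- the domain of `F` in the charts at `p` and at `q` -/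
def Dm (n : ℕ) [NeZero n] {M : Type u} [TopologicalSpace M]
    [ChartedSpace (EuclideanHalfSpace n) M] [IsManifold (𝓡∂ n) ∞ M] (F : M → M) (p q : M) :
    Set (E n) :=
  {y | y ∈ tg n p ∧ F ((xc n p).symm y) ∈ (xc n q).source}

/-- `F` in the charts at `p` and at `q` -/
def Xm (n : ℕ) [NeZero n] {M : Type u} [TopologicalSpace M]
    [ChartedSpace (EuclideanHalfSpace n) M] [IsManifold (𝓡∂ n) ∞ M] (F : M → M) (p q : M)
    (y : E n) : E n := xc n q (F ((xc n p).symm y))

theorem Dm_rel (hrel : ∀ p : M, RelOpen (tg n p)) {F : M → M} (hF : Continuous F) (p q : M) :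
    RelOpen (Dm n F p q) :=
  bmodel_relOpen_preimage (hrel p)
    (f := fun y => F ((xc n p).symm y))
    (hF.comp_continuousOn (continuousOn_extChartAt_symm p)) (isOpen_extChartAt_source q)

theorem Xm_smooth {F : M → M} (hF : ContMDiff (𝓡∂ n) (𝓡∂ n) ∞ F) (p q : M) :
    ContDiffOn ℝ ∞ (Xm n F p q) (Dm n F p q) := by
  rw [← contMDiffOn_iff_contDiffOn]
  have ha : ContMDiffOn 𝓘(ℝ, E n) (𝓡∂ n) ∞ (xc n p).symm (Dm n F p q) :=
    (contMDiffOn_extChartAt_symm p).mono fun y hy => hy.1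
  have hb : ContMDiffOn 𝓘(ℝ, E n) (𝓡∂ n) ∞ (fun y => F ((xc n p).symm y)) (Dm n F p q) :=
    hF.comp_contMDiffOn ha
  have hcc : ContMDiffOn (𝓡∂ n) 𝓘(ℝ, E n) ∞ (xc n q)
      (chartAt (EuclideanHalfSpace n) q).source := contMDiffOn_extChartAt
  refine hcc.comp hb ?_
  intro y hy
  have := hy.2
  rwa [extChartAt_source] at this

theorem Xm_diffeo (F : Diffeomorph (𝓡∂ n) (𝓡∂ n) M M ∞) (p q : M) :
    IsDiffeo (Dm n F p q) (Dm n F.symm q p) (Xm n F p q) (Xm n F.symm q p) where
  mapsX := by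
    intro y hy
    refine ⟨(xc n q).map_source hy.2, ?_⟩
    unfold Xm
    rw [(xc n q).left_inv hy.2, F.symm_apply_apply]
    exact (xc n p).map_target hy.1
  mapsY := by
    intro y hy
    refine ⟨(xc n p).map_source hy.2, ?_⟩
    unfold Xm
    rw [(xc n p).left_inv hy.2, F.apply_symm_apply]
    exact (xc n q).map_target hy.1
  inv1 := by
    intro y hy
    unfold Xm
    rw [(xc n q).left_inv hy.2, F.symm_apply_apply, (xc n p).right_inv hy.1]
  inv2 := by
    intro y hy
    unfold Xm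
    rw [(xc n p).left_inv hy.2, F.apply_symm_apply, (xc n q).right_inv hy.1]
  smX := Xm_smooth F.contMDiff p q
  smY := Xm_smooth F.symm.contMDiff q p

/-- the relation in charts, up to the boundary -/
theorem Twist.pull (hChart : CChart_statement.{u}) {P Q : One n N M}
    {F : Diffeomorph (𝓡∂ n) (𝓡∂ n) M M ∞} {G : M → EndF N} (h : Twist P Q F G) (p q : M) :
    IsPull (Q.loc p) (P.loc q) (Dm n F p q) (Dm n F.symm q p) (Xm n F p q) (Xm n F.symm q p)
      (fun y => G ((xc n p).symm y)) where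
  diffeo := Xm_diffeo F p q
  smS := by
    rw [← contMDiffOn_iff_contDiffOn]
    exact h.sm.comp_contMDiffOn ((contMDiffOn_extChartAt_symm p).mono fun y hy => hy.1)
  unit := by
    intro y hy
    exact ⟨⟨_, star (G ((xc n p).symm y)), Unitary.mul_star_self_of_mem (h.unit _),
      Unitary.star_mul_self_of_mem (h.unit _)⟩, rfl⟩
  g_eq := by
    intro y hy
    have hbs : (xc n p).symm y ∈ (xc n p).source := (xc n p).map_target hy.1
    have hbr : xc n p ((xc n p).symm y) = y := (xc n p).right_inv hy.1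
    have hbl : (xc n q).symm (xc n q (F ((xc n p).symm y))) = F ((xc n p).symm y) :=
      (xc n q).left_inv hy.2
    obtain ⟨hder, -⟩ := hChart n M univ F isOpen_univ F.contMDiff.contMDiffOn q p
      ((xc n p).symm y) (mem_univ _) hbs hy.2
    rw [hbr] at hder
    have hg : (P.loc q).g (xc n q (F ((xc n p).symm y))) = gram P.g q (F ((xc n p).symm y)) := by
      change gram P.g q ((xc n q).symm (xc n q (F ((xc n p).symm y)))) = _
      rw [hbl]
    change (Q.loc p).g y = (Jac (Xm n F p q) y).transpose *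
      (P.loc q).g (xc n q (F ((xc n p).symm y))) * Jac (Xm n F p q) y
    rw [hg]
    change gram Q.g p ((xc n p).symm y) = _
    ext i j
    have hm := h.met _ (coordVec (𝓡∂ n) p ((xc n p).symm y) i)
      (coordVec (𝓡∂ n) p ((xc n p).symm y) j)
    rw [hder i, hder j, cUnm_jac_expand] at hm
    change Q.g.inner ((xc n p).symm y) (coordVec (𝓡∂ n) p ((xc n p).symm y) i)
      (coordVec (𝓡∂ n) p ((xc n p).symm y) j) = _
    rw [hm, Matrix.mul_apply]
    refine Finset.sum_congr rfl fun l _ => ?_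
    rw [Matrix.mul_apply]
    rfl
  B_eq := by
    intro y hy j
    have hbs : (xc n p).symm y ∈ (xc n p).source := (xc n p).map_target hy.1
    have hbr : xc n p ((xc n p).symm y) = y := (xc n p).right_inv hy.1
    have hbl : (xc n q).symm (xc n q (F ((xc n p).symm y))) = F ((xc n p).symm y) :=
      (xc n q).left_inv hy.2
    obtain ⟨hder, -⟩ := hChart n M univ F isOpen_univ F.contMDiff.contMDiffOn q p
      ((xc n p).symm y) (mem_univ _) hbs hy.2
    rw [hbr] at hder
    have hV : MDifferentiableAt (𝓡∂ n) 𝓘(ℝ, EndF N) G ((xc n p).symm y) :=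
      (h.sm.contMDiffAt).mdifferentiableAt (by simp)
    have hd := dmap_coordVec (𝓡∂ n) hbs hV j
    rw [hbr, cUnm_range] at hd
    have hm := h.con _ (coordVec (𝓡∂ n) p ((xc n p).symm y) j)
    rw [hd, hder j] at hm
    have hs : P.A.form (F ((xc n p).symm y))
        (∑ k, Jac (fun y => xc n q (F ((xc n p).symm y))) y k j •
          coordVec (𝓡∂ n) q (F ((xc n p).symm y)) k) =
        ∑ k, Jac (fun y => xc n q (F ((xc n p).symm y))) y k j •
          (P.loc q).B k (xc n q (F ((xc n p).symm y))) := by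
      refine (map_sum (P.A.form (F ((xc n p).symm y))) _ _).trans
        (Finset.sum_congr rfl fun k _ => ?_)
      refine (map_smul (P.A.form (F ((xc n p).symm y))) _ _).trans ?_
      congr 1
      change _ = P.A.form ((xc n q).symm (xc n q (F ((xc n p).symm y))))
        (coordVec (𝓡∂ n) q ((xc n q).symm (xc n q (F ((xc n p).symm y)))) k)
      rw [hbl]
    rw [hs] at hm
    exact hm
  h_eq := by
    intro y hy
    change ContinuousLinearMap.adjoint (G ((xc n p).symm y)) * 1 * G ((xc n p).symm y) = 1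
    rw [mul_one]
    exact Unitary.star_mul_self_of_mem (h.unit _)

/-- the section `G (u ∘ F)` -/
def tw (F : M → M) (G : M → EndF N) (u : M → Fib N) (x : M) : Fib N := G x (u (F x))

theorem tw_smooth {F : M → M} (hF : ContMDiff (𝓡∂ n) (𝓡∂ n) ∞ F) {G : M → EndF N}
    (hG : ContMDiff (𝓡∂ n) 𝓘(ℝ, EndF N) ∞ G) {u : M → Fib N} (hu : SmS n u) :
    SmS n (tw F G u) := by
  have h1 : ContMDiff (𝓡∂ n) 𝓘(ℝ, Fib N) ∞ (fun x => u (F x)) := hu.comp hF
  have h2 := ContMDiff.clm_apply (𝕜 := ℝ) (I := 𝓡∂ n)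
    (g := fun x => ContinuousLinearMap.restrictScalars ℝ (G x)) (f := fun x => u (F x)) (n := ∞)
    ((ContinuousLinearMap.contMDiff
      (ContinuousLinearMap.restrictScalarsL ℂ (Fib N) (Fib N) ℝ ℝ)).comp hG) h1
  exact h2

end

section

variable {n N : ℕ} [NeZero n] {M : Type u} [TopologicalSpace M]
  [ChartedSpace (EuclideanHalfSpace n) M] [IsManifold (𝓡∂ n) ∞ M] [T2Space M] [CompactSpace M]
  [MeasurableSpace M] [BorelSpace M]

/-- invariance of the energy, local version -/
theorem Twist.energy_loc (hChart : CChart_statement.{u}) (hLoc : CLoc_statement.{u})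
    (hEn : CEnergy_statement.{u}) {P Q : One n N M} {F : Diffeomorph (𝓡∂ n) (𝓡∂ n) M M ∞}
    {G : M → EndF N} (h : Twist P Q F G) {u ψ : M → Fib N} (hu : SmS n u) (hψ : SmS n ψ)
    (p q : M) (hs : tsupport ψ ⊆ (xc n q).symm '' (Dm n F.symm q p)) :
    Q.E (tw F G u) (tw F G ψ) = P.E u ψ := by
  obtain ⟨h1, h2, h3, h4⟩ := hLoc n N M
  have hD : RelOpen (Dm n F p q) := Dm_rel h1 F.continuous p q
  have hD' : RelOpen (Dm n F.symm q p) := Dm_rel h1 F.symm.continuous q p
  have hDt : Dm n F p q ⊆ tg n p := fun y hy => hy.1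
  have hDt' : Dm n F.symm q p ⊆ tg n q := fun y hy => hy.1
  have hut := tw_smooth F.contMDiff h.sm hu
  have hψt := tw_smooth F.contMDiff h.sm hψ
  have hpull := h.pull hChart p q
  have hsub : tsupport (tw F G ψ) ⊆ (xc n p).symm '' (Dm n F p q) := by
    have e1 : tsupport (tw F G ψ) ⊆ F ⁻¹' (tsupport ψ) := by
      refine closure_minimal ?_ ((isClosed_tsupport ψ).preimage F.continuous)
      intro x hx
      refine subset_tsupport ψ ?_
      rw [Function.mem_support] at hx ⊢
      intro h0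
      apply hx
      unfold tw
      rw [h0, map_zero]
    intro x hx
    obtain ⟨y', hy', hxy⟩ := hs (e1 hx)
    have hx1 : F.symm ((xc n q).symm y') = x := by
      rw [hxy, F.symm_apply_apply]
    have hx2 : x ∈ (xc n p).source := by
      rw [← hx1]
      exact hy'.2
    refine ⟨xc n p x, ⟨(xc n p).map_source hx2, ?_⟩, (xc n p).left_inv hx2⟩
    rw [(xc n p).left_inv hx2, ← hxy]
    exact (xc n q).map_target hy'.1
  rw [(hEn n N M Q p _ hD hDt).1 _ _ hut hψt (Or.inr hsub),
    (hEn n N M P q _ hD' hDt').1 _ _ hu hψ (Or.inr hs)]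
  have hc : ∀ v : M → Fib N, SmS n v → ContDiffOn ℝ 1 (lu (𝓡∂ n) q v) (Dm n F.symm q p) :=
    fun v hv => ((h4 v hv q).mono hDt').of_le (by simp only [WithTop.one_le_coe, le_top])
  rw [← bEnergy n N (Q.loc p) (P.loc q) _ _ _ _ _ hD hD'
    (bmodel_ok_mono (h2 Q p) hDt) (bmodel_ok_mono (h2 P q) hDt') hpull _ _ (hc u hu) (hc ψ hψ)]
  have e : ∀ v : M → Fib N, EqOn (lu (𝓡∂ n) p (tw F G v))
      (fun x => G ((xc n p).symm x) (lu (𝓡∂ n) q v (Xm n F p q x))) (Dm n F p q) := by
    intro v y hy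
    unfold lu tw Xm
    beta_reduce
    rw [(xc n q).left_inv hy.2]
  exact CRel1_En_congr hD _ (e u) (e ψ)

/-- invariance of the energy -/
theorem Twist.energy (hChart : CChart_statement.{u}) (hLoc : CLoc_statement.{u})
    (hEn : CEnergy_statement.{u}) (hForm : CForm_statement.{u}) {P Q : One n N M}
    {F : Diffeomorph (𝓡∂ n) (𝓡∂ n) M M ∞}
    {G : M → EndF N} (h : Twist P Q F G) {u ψ : M → Fib N} (hu : SmS n u) (hψ : SmS n ψ) :
    Q.E (tw F G u) (tw F G ψ) = P.E u ψ := by
  obtain ⟨h1, h2, h3, h4⟩ := hLoc n N M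
  -- a finite partition of unity
  set U : M → Set M := fun z => (xc n z).source ∩ F.symm ⁻¹' (xc n (F.symm z)).source with hU
  have hUo : ∀ z, IsOpen (U z) := fun z =>
    (isOpen_extChartAt_source z).inter ((isOpen_extChartAt_source _).preimage F.symm.continuous)
  have hUm : ∀ z, z ∈ U z := fun z => ⟨mem_extChartAt_source z, mem_extChartAt_source _⟩
  obtain ⟨t, ht⟩ := isCompact_univ.elim_finite_subcover U hUo
    (fun x _ => mem_iUnion.2 ⟨x, hUm x⟩)
  obtain ⟨ρ, hρ⟩ := SmoothPartitionOfUnity.exists_isSubordinate (𝓡∂ n) isClosed_univ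
    (fun i : t => U i) (fun i => hUo i) (by
      intro x hx
      obtain ⟨i, hi, hx'⟩ := mem_iUnion₂.1 (ht hx)
      exact mem_iUnion.2 ⟨⟨i, hi⟩, hx'⟩)
  have hsum : ∀ x, ∑ i, ρ i x = 1 := by
    intro x
    have := ρ.sum_eq_one (mem_univ x)
    rwa [finsum_eq_sum_of_fintype] at this
  have hρs : ∀ i, SmS n (fun x => (ρ i x) • ψ x) := fun i => (ρ i).contMDiff.smul hψ
  have hψe : ψ = ∑ i, fun x => (ρ i x) • ψ x := by
    funext x
    rw [Finset.sum_apply, ← Finset.sum_smul, hsum, one_smul]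
  have hlin : ∀ (R : One n N M) (w : M → Fib N) (hw : SmS n w) (f : t → M → Fib N)
      (_ : ∀ i, SmS n (f i)) (s : Finset t), SmS n (∑ i ∈ s, f i) ∧
      R.E w (∑ i ∈ s, f i) = ∑ i ∈ s, R.E w (f i) := by
    classical
    intro R w hw f hf s
    obtain ⟨a1, a2, -⟩ := hForm n N M R
    induction s using Finset.induction_on with
    | empty =>
      have z1 : SmS n (0 : M → Fib N) := contMDiff_const
      refine ⟨by simpa using z1, ?_⟩
      rw [Finset.sum_empty, Finset.sum_empty]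
      have := a2 0 w 0 hw z1
      rw [zero_smul, zero_mul] at this
      exact this
    | insert i s hi ih =>
      rw [Finset.sum_insert hi, Finset.sum_insert hi, a1 w (f i) _ hw (hf i) ih.1, ih.2]
      exact ⟨(hf i).add ih.1, rfl⟩
  have e1 : P.E u ψ = ∑ i, P.E u (fun x => (ρ i x) • ψ x) := by
    conv_lhs => rw [hψe]
    exact (hlin P u hu _ hρs Finset.univ).2
  have e2 : Q.E (tw F G u) (tw F G ψ) = ∑ i, Q.E (tw F G u) (tw F G fun x => (ρ i x) • ψ x) := by
    have e3 : tw F G ψ = ∑ i, tw F G fun x => (ρ i x) • ψ x := by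
      funext x
      rw [Finset.sum_apply]
      unfold tw
      rw [← map_sum, ← Finset.sum_smul, hsum, one_smul]
    rw [e3]
    exact (hlin Q _ (tw_smooth F.contMDiff h.sm hu) _
      (fun i => tw_smooth F.contMDiff h.sm (hρs i)) Finset.univ).2
  rw [e1, e2]
  refine Finset.sum_congr rfl fun i _ => ?_
  refine h.energy_loc hChart hLoc hEn hu (hρs i) (F.symm i) i ?_
  have q1 : tsupport (fun x => (ρ i x) • ψ x) ⊆ U i := (tsupport_smul_subset_left _ _).trans (hρ i)
  intro x hx
  obtain ⟨hx1, hx2⟩ := q1 hx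
  refine ⟨xc n (i : M) x, ⟨(xc n (i : M)).map_source hx1, ?_⟩, (xc n (i : M)).left_inv hx1⟩
  rw [(xc n (i : M)).left_inv hx1]
  exact hx2

end

end Vale.Agent.P088.EYM.G
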